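import Crest.Agent.X212.Fred93.Cpt
import Mathlib.Analysis.Calculus.BumpFunction.FiniteDimension
import Mathlib.Geometry.Manifold.ContMDiff.NormedSpace

/-! Abstract lemmas: a gauge condition depending on a parameter, block Fredholm operators. -/

set_option autoImplicit false
noncomputable section
open scoped ContDiff Topology
open Set Function Filter Module ContinuousLinearMap

namespace Crest.Agent.X212.Map77
open Fred93

theorem exists_gam {T C H : Type*} [NormedAddCommGroup T] [NormedSpace ℝ T] [FiniteDimensional ℝ T]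
    [NormedAddCommGroup C] [NormedSpace ℝ C] [NormedAddCommGroup H] [NormedSpace ℝ H]
    (τ : C →L[ℝ] T) {Q : Set T} (hQ : IsOpen Q) {R : T → C →L[ℝ] H} (hR : ContDiffOn ℝ ∞ R Q)
    {x : C} (hx : τ x ∈ Q) : ∃ γ : C → H, ContDiff ℝ ∞ γ ∧ HasStrictFDerivAt γ (R (τ x)) x ∧
      γ x = 0 ∧ ∀ᶠ v in 𝓝 x, τ v ∈ Q ∧ (γ v = 0 → R (τ v) (v - x) = 0) := by
  obtain ⟨χ, h1, -, h2, -, h3⟩ := exists_contDiff_tsupport_subset (n := ⊤) (hQ.mem_nhds hx)
  have h4 : ContDiff ℝ ∞ fun t => χ t • R t := contMDiff_iff_contDiff.1 <|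
    contMDiff_of_tsupport fun t ht => (h2.contDiffAt.smul
      (hR.contDiffAt (hQ.mem_nhds (h1 (tsupport_smul_subset_left χ R ht))))).contMDiffAt
  have h5 := h4.comp τ.contDiff
  refine ⟨fun v => (χ (τ v) • R (τ v)) (v - x), h5.clm_apply (contDiff_id.sub contDiff_const),
    (((h5.contDiffAt.hasStrictFDerivAt (by simp)).clm_apply
      ((hasStrictFDerivAt_id x).sub_const x)).congr_fderiv ?_), by simp, ?_⟩
  · ext v; simp [h3]
  · filter_upwards [τ.continuous.continuousAt.eventually (hQ.mem_nhds hx),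
      (h2.continuous.comp τ.continuous).continuousAt.eventually_ne (x := x) (y := 0)
        (by simp [h3])]
      with v h6 h7
    exact ⟨h6, fun h => (smul_eq_zero.1 h).resolve_left h7⟩

variable {X Y K Q A₁ A₂ B₁ B₂ H : Type*} [NormedAddCommGroup X] [NormedSpace ℝ X]
  [NormedAddCommGroup Y] [NormedSpace ℝ Y] [NormedAddCommGroup K]
  [NormedSpace ℝ K] [FiniteDimensional ℝ K] [NormedAddCommGroup Q] [NormedSpace ℝ Q]
  [FiniteDimensional ℝ Q] [NormedAddCommGroup A₁] [NormedSpace ℝ A₁] [NormedAddCommGroup A₂]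
  [NormedSpace ℝ A₂] [NormedAddCommGroup B₁] [NormedSpace ℝ B₁] [NormedAddCommGroup B₂]
  [NormedSpace ℝ B₂] [NormedAddCommGroup H] [NormedSpace ℝ H]

theorem fr_blk' {L : X × K →L[ℝ] Y × Q} {A : X →L[ℝ] Y} {n : ℤ} (h : Fr A n)
    (e : ∀ x, (L (x, 0)).1 = A x) : Fr L (n + finrank ℝ K - finrank ℝ Q) := by
  refine ((h.coprod (fst ℝ Y Q ∘L L ∘L inr ℝ X K)).prod (snd ℝ Y Q ∘L L)).congr
    fun x => Prod.ext ?_ rfl
  simp [← e, ← Prod.fst_add, ← map_add]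

/-- the dictionary between the two block forms of the gauge fixed linearisation -/
theorem fr_dic (a : X ≃L[ℝ] A₁ × A₂) (b : Y ≃L[ℝ] H × B₁ × B₂) {L : A₁ × A₂ × K →L[ℝ] B₁ × B₂ × Q}
    {σ : A₁ × A₂ × K →L[ℝ] H} {A : X →L[ℝ] Y} {n : ℤ} (h : Fr A n) {i : X → A₁ × A₂ × K}
    (hi : ∀ x, ((a x).1, (a x).2, 0) = i x)
    (e : ∀ x, b (A x) = (σ (i x), (L (i x)).1, (L (i x)).2.1)) :
    Fr (L.prod σ) (n + finrank ℝ K - finrank ℝ Q) := by
  let a' : (X × K) ≃L[ℝ] A₁ × A₂ × K :=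
    (a.prodCongr (.refl ℝ K)).trans (ContinuousLinearEquiv.prodAssoc ℝ A₁ A₂ K)
  let b' : (Y × Q) ≃L[ℝ] (B₁ × B₂ × Q) × H :=
    ((b.prodCongr (.refl ℝ Q)).trans (ContinuousLinearEquiv.prodAssoc ℝ H (B₁ × B₂) Q)).trans
      ((ContinuousLinearEquiv.prodComm ℝ _ _).trans
        ((ContinuousLinearEquiv.prodAssoc ℝ B₁ B₂ Q).prodCongr (.refl ℝ H)))
  have h1 : Fr ((b'.symm : (B₁ × B₂ × Q) × H →L[ℝ] Y × Q) ∘L L.prod σ ∘L
      (a' : X × K →L[ℝ] A₁ × A₂ × K)) _ :=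
    fr_blk' h fun x => b.injective (by rw [e, ← hi]; exact b.apply_symm_apply _)
  exact (h1.conj a'.symm b').congr fun x => by simp

theorem fr_row {L : X →L[ℝ] Y} {σ : X →L[ℝ] H} {n : ℤ} (h : Fr (L.prod σ) n)
    (l : X →L[ℝ] K) (a : (H × K) ≃L[ℝ] A₁) :
    Fr (L.prod ((a : H × K →L[ℝ] A₁) ∘L σ.prod l)) (n - finrank ℝ K) :=
  ((h.prod l).conj (.refl ℝ X) ((ContinuousLinearEquiv.prodAssoc ℝ Y H K).trans
    ((ContinuousLinearEquiv.refl ℝ Y).prodCongr a))).congr fun _ => rfl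

end Crest.Agent.X212.Map77
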