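import Crest.Agent.X212.Map77.Rp
import Crest.Agent.X212.Map77.Lin

/-! The Coulomb row and the Fredholm dictionary. -/

set_option autoImplicit false
set_option linter.unusedSectionVars false
noncomputable section
open scoped Manifold ContDiff Topology InnerProductSpace
open MeasureTheory Set Function Filter Module

namespace Crest.Agent.X212.Map77
open An An.Pre Sob92 Ell97 Prm93 Fred93 Mod61

variable {E : Type} [NormedAddCommGroup E] [NormedSpace ℝ E] [FiniteDimensional ℝ E]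
  [MeasurableSpace E] [BorelSpace E]
  {HM : Type} [TopologicalSpace HM] {I : ModelWithCorners ℝ E HM} [I.Boundaryless]
  {M : Type} [TopologicalSpace M] [ChartedSpace HM M] [IsManifold I ∞ M]
  [MeasurableSpace M] [T2Space M] [BorelSpace M] [SecondCountableTopology M]
  {ι : Type} [Fintype ι] {lam : Type} [Fintype lam]
  {T : Type} [NormedAddCommGroup T] [NormedSpace ℝ T] {𝔉 : Fam I M ι lam T} {j k : ℕ}
  {o : Ref 𝔉} {Fs : T → Fr I M ι} {r n m : ℕ}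

theorem dim_eq [FiniteDimensional ℝ T] (d : ℤ) (r n m : ℕ) :
    d + finrank ℝ (EuclideanSpace ℂ (Fin r) × T) - finrank ℝ ((Fin n → ℂ) × (Fin m → ℝ)) =
      d + 2 * r + finrank ℝ T - 2 * n - m := by
  simp only [finrank_prod, finrank_real_of_complex (EuclideanSpace ℂ (Fin r)),
    finrank_real_of_complex (Fin n → ℂ), finrank_euclideanSpace_fin, finrank_fin_fun]
  push_cast; ring

theorem Bd.hasFDerivAt_NH {ι' κ : Type} [Fintype ι'] [Fintype κ] [DecidableEq κ] (d : Bd M ι κ)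
    (F : Pre I M ι') (G : Fr I M ι) (u : M → Cf ι κ) (x : F.H (k + 1) d.pC) :
    HasFDerivAt (d.NH F G k u) (d.LL F G k u + F.incl (k + 1) k d.pE ∘L
      (d.βH F (k + 1) x + (d.βH F (k + 1)).flip x)) x :=
  (d.LL F G k u).hasFDerivAt.add ((F.incl (k + 1) k d.pE).hasFDerivAt.comp x
    ((d.βH F (k + 1)).hasFDerivAt.clm_apply (hasFDerivAt_id x)))

theorem Tw.LL_bij {ι' V W : Type} [Fintype ι'] [NormedAddCommGroup V] [InnerProductSpace ℝ V]
    [FiniteDimensional ℝ V] [NormedAddCommGroup W] [InnerProductSpace ℝ W] [FiniteDimensional ℝ W]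
    {F : Fr I M ι'} {G : Fr I M ι} (h : Tw F G) {A : Op M ι V W} (hA : Nc F.toPre G.P A)
    (hb : Bijective ((Ell97.Hs G A k).comp (A.H G (k + 1)))) : Bijective
      (LH F.toPre G.toPre k A.q A.p (A.adj G) ∘L LH F.toPre G.toPre (k + 1) A.p A.q A) := by
  rw [h.LL hA k, ContinuousLinearMap.coe_comp, ContinuousLinearMap.coe_comp]
  exact (chg k A.p h.cmp).symm.bijective.comp (hb.comp (chg (k + 2) A.p h.cmp).bijective)

/-- the point `y` moved to the parameter `t` -/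
def ut (y : Pnt o r) (t : T) (x : M) : Cf ι (Fin o.m.N) :=
  u0 o t x + SC o (𝔉.S t) x (i1 _ _ (y.α x) + i2 _ _ (y.φ x))

theorem ut_self (y : Pnt o r) : ut y y.t = uy y := funext fun x => (uy_eq y x).symm

/-- the linear coordinates at the parameter `t` -/
def sC (o : Ref 𝔉) (r k : ℕ) (t : T) :
    o.C r k →L[ℝ] 𝔉.F0.H (k + 1) (bd o).pC := SH (k + 1) o (𝔉.S t) ∘L jC o r k

/-- their right inverse -/
def sC' (o : Ref 𝔉) (r k : ℕ) (t : T) : 𝔉.F0.H (k + 1) (bd o).pC →L[ℝ] o.C r k :=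
  (fH _ _ o.P1 o.Pp).prod ((sH _ _ o.P1 o.Pp).prod 0) ∘L SH (k + 1) o (𝔉.Si t)

/-- the two equations as one section -/
def sY (o : Ref 𝔉) (n m k : ℕ) : o.Y n m k →L[ℝ] 𝔉.F0.H k (bd o).pE :=
  (iH1 _ _ o.Pm o.P2).coprod (iH2 _ _ o.Pm o.P2 ∘L ContinuousLinearMap.fst ℝ _ _)

/-- the Coulomb row at the parameter `t` -/
def row (Fs : T → Fr I M ι) (k : ℕ) (y : Pnt o r) (t : T) : o.C r k →L[ℝ] 𝔉.F0.H k o.Pg :=
  (bd o).RR 𝔉.F0.toPre (Fs t) k (ut y t) ∘L sC o r k t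

/-- **the Coulomb row at `y`** -/
def sig (Fs : T → Fr I M ι) (k : ℕ) (y : Pnt o r) : o.C r k →L[ℝ] 𝔉.F0.H k o.Pg :=
  (bd o).RR 𝔉.F0.toPre (Fs y.t) k (uy y) ∘L sC o r k y.t

/-- `d` is the infinitesimal gauge action at `y` -/
structure IsD (y : Pnt o r) (d : 𝔉.F0.H (k + 2) o.Pg →L[ℝ] o.C r k) : Prop where
  a : ∀ ξ x a, 𝔉.F0.val _ _ (d ξ).1 x a =
    -Wz78.nab I 𝔉.F0.e (fun a x => adc (o.A y.t a x + opL (y.α x a))) a (𝔉.F0.val _ _ ξ) x
  s : ∀ ξ x, 𝔉.F0.val _ _ (d ξ).2.1 x = opL (𝔉.F0.val _ _ ξ x) (o.Φ0 x + y.φ x)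
  z : ∀ ξ, (d ξ).2.2 = 0

theorem sY_apply (w : o.Y n m k) :
    sY o n m k w = iH1 _ _ o.Pm o.P2 w.1 + iH2 _ _ o.Pm o.P2 w.2.1 := rfl

theorem sY_jY (w : 𝔉.F0.H k (bd o).pE) : sY o n m k (jY o n m k w) = w := iH_add w

theorem incl_sY (hj : j ≤ k) (w : o.Y n m k) :
    𝔉.F0.incl k j _ (sY o n m k w) = sY o n m j (o.iY n m j k w) := by
  rw [sY_apply, map_add, incl_iH1 hj, incl_iH2 hj]; rfl

theorem row_apply (y : Pnt o r) (t : T) (v : o.C r k) : row Fs k y t v =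
    (bd o).RR 𝔉.F0.toPre (Fs t) k (ut y t) (sC o r k t v) := ContinuousLinearMap.comp_apply _ _ _

theorem sig_apply (y : Pnt o r) (v : o.C r k) : sig Fs k y v =
    (bd o).RR 𝔉.F0.toPre (Fs y.t) k (uy y) (sC o r k y.t v) := ContinuousLinearMap.comp_apply _ _ _

theorem hC_eq (v : o.C r k) : hC o r k v = sC o r k v.2.2.2 v := rfl

theorem sC'_z (t : T) (x : 𝔉.F0.H (k + 1) (bd o).pC) : (sC' o r k t x).2.2 = 0 := rfl

section ok
variable (h : 𝔉.OK) {t : T}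
include h

theorem sC_sC' (ht : t ∈ 𝔉.Q) (x : 𝔉.F0.H (k + 1) (bd o).pC) : sC o r k t (sC' o r k t x) = x :=
  (congrArg (SH (k + 1) o (𝔉.S t)) (iH_add _)).trans ((SE (k + 1) o h ht).apply_symm_apply x)

theorem sC_inj (ht : t ∈ 𝔉.Q) {v w : o.C r k} (e : sC o r k t v = sC o r k t w)
    (e' : v.2.2 = w.2.2) : v = w := by
  have e1 : jC o r k v = jC o r k w := (SE (k + 1) o h ht).injective e
  have e2 := congrArg (fH _ _ o.P1 o.Pp) e1
  have e3 := congrArg (sH _ _ o.P1 o.Pp) e1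
  simp only [jC_apply, map_add, fH_iH1, fH_iH2, sH_iH1, sH_iH2, add_zero, zero_add] at e2 e3
  exact Prod.ext e2 (Prod.ext e3 e')

theorem incl_sC (hj : j ≤ k) (ht : t ∈ 𝔉.Q) (v : o.C r k) :
    𝔉.F0.incl (k + 1) (j + 1) _ (sC o r k t v) = sC o r j t (o.iC r j k v) :=
  (incl_SH h (by omega) ht _).trans (congrArg _ (incl_jC h hj v))

theorem sb_ut (y : Pnt o r) : SB 𝔉.F0.toPre 𝔉.Q (ut y) :=
  (sb_u0 o h).add ((sb_SC o h.sS).app
    (SB.fixed (Cb_add (Cb_clm _ (cb_hs (sup0 h) y.hα)) (Cb_clm _ (cb_hs (sup0 h) y.hφ)))))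

theorem adc_W (y : Pnt o r) {x : M} {ξ : o.m.A} (hξ : ξ ∈ o.m.gS x) (a : ι) :
    adc (o.W y.t y.α a x) ξ = ∑ b, 𝔉.S y.t x a b • adc (o.A y.t b x + opL (y.α x b)) ξ := by
  have e1 : ∀ b c, adc (o.m.ρ b x * o.m.ρ c x) ξ = 0 := fun b c => by
    rw [Wz78.adc_apply, mul_assoc, Wz78.g_ρ hξ, ← mul_assoc, Wz78.g_ρ hξ, mul_assoc, sub_self,
      map_zero]
  have e2 : adc (o.m.J * o.m.p x) ξ = 0 := by
    rw [Wz78.adc_apply, mul_assoc, Wz78.g_p hξ, ← mul_assoc, ← Wz78.g_J hξ, mul_assoc,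
      Wz78.g_p' o.ok hξ, sub_self, map_zero]
  simp only [← Wz78.adcL_apply] at e1 e2 ⊢
  simp only [Ref.W, Md.addC, Fam.W0, idx_apply, map_add, map_sum, map_smul, _root_.add_apply,
    _root_.sum_apply, _root_.smul_apply, e1, e2, smul_zero, Finset.sum_const_zero, add_zero,
    ContinuousLinearMap.id_apply, smul_add, Finset.sum_add_distrib]

end ok

namespace Adj
variable (h : Adj 𝔉 Fs)
include h

/-! ### the row and the infinitesimal action -/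

theorem sC_d (hk : 3 ≤ k) {y : Pnt o r} {d : 𝔉.F0.H (k + 2) o.Pg →L[ℝ] o.C r k} (hd : IsD y d) :
    sC o r k y.t ∘L d = (bd o).DD 𝔉.F0.toPre (Fs y.t) (k + 1) (uy y) := by
  have S := sup0 h.toOK
  have H := h.hy o y.ht
  refine clm_ext fun ξ => val_injective S (by omega : 4 ≤ k + 1) (funext fun x => ?_)
  have e := congrFun (H.toTw.val (H.nc_d0 (cb_uy h.toOK y)) (by omega : 4 ≤ k + 1)
    (𝔉.F0.toH _ _ ξ)) x
  refine Eq.trans ?_ e.symm
  have e1 : 𝔉.F0.val (k + 2) o.Pg (𝔉.F0.toH _ _ ξ) = ξ.1 := val_toH S (by omega) ξ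
  refine Eq.trans ?_ (congrArg (fun u => (Fs y.t).op _ _ u x) e1.symm)
  refine Eq.trans ?_ (op_cut (Fs y.t).toPre H.cg.choose_spec.1 ξ.2.1 ξ.2.2.2 x).symm
  refine (val_proj S (by omega) _ x).symm.trans (congrArg _ ?_)
  refine (val_SH h.toOK (by omega) y.ht (jC o r k (d (𝔉.F0.toH _ _ ξ))) x).trans ?_
  rw [val_jC h.toOK hk]
  refine ext2 (fm_ext fun a => ?_) ?_
  · have e2 := sum_P_D (Fs y.t) a ξ.1 x
    rw [h.P _ y.ht] at e2
    simp only [SC, f2_sm2, Pre.op, map_add, map_sum, f2_i1, f2_i2, map_zero, add_zero, idx_apply,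
      ContinuousLinearMap.id_apply, hd.a, e1, PiLp.add_apply, fa_l0, uy, oa_base, σ0,
      _root_.neg_apply, ContinuousLinearMap.comp_apply, map_neg, WithLp.ofLp_sum,
      Finset.sum_apply, PiLp.neg_apply, ea_apply, Finset.sum_neg_distrib, e2,
      adc_W h.toOK y (mem_g o (ξ.2.2.2 x)), Wz78.nab, smul_neg, smul_add, Finset.sum_add_distrib,
      neg_add]
    rw [(h.mx _ y.ht).D]
    rfl
  · simp [SC, Pre.op, σ0, fp_l0, uy, hd.s, e1]

/-- `σ ∘ d = d* d` -/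
theorem sig_d (hk : 3 ≤ k) {y : Pnt o r} {d : 𝔉.F0.H (k + 2) o.Pg →L[ℝ] o.C r k} (hd : IsD y d) :
    sig Fs k y ∘L d = (bd o).RR 𝔉.F0.toPre (Fs y.t) k (uy y) ∘L
      (bd o).DD 𝔉.F0.toPre (Fs y.t) (k + 1) (uy y) := by
  rw [← h.sC_d hk hd]; rfl

theorem sig_inj (hk : 3 ≤ k) {y : Pnt o r} {d : 𝔉.F0.H (k + 2) o.Pg →L[ℝ] o.C r k} (hd : IsD y d)
    (hi : Injective d) : Injective (sig Fs k y ∘L d) := by
  have H := h.hy o y.ht
  refine (injective_iff_map_eq_zero _).2 fun ξ e => hi ?_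
  rw [h.sig_d hk hd] at e
  have e1 := H.toTw.LL_eq_zero (H.nc_d0 (cb_uy h.toOK y)) (H.cliffL_d0 H.P _) ξ e
  rw [map_zero]
  exact sC_inj h.toOK y.ht (((DFunLike.congr_fun (h.sC_d hk hd) ξ).trans e1).trans
    (map_zero _).symm) (hd.z ξ)

/-- the slice condition from the bijectivity of `d* d` on the scale of `Fs t` -/
theorem sig_bij' (hk : 3 ≤ k) {y : Pnt o r} {d : 𝔉.F0.H (k + 2) o.Pg →L[ℝ] o.C r k} (hd : IsD y d)
    (hb : Bijective ((Ell97.Hs (Fs y.t) ((bd o).d0 (Fs y.t) (uy y)) k).comp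
      (((bd o).d0 (Fs y.t) (uy y)).H (Fs y.t) (k + 1)))) : Bijective (sig Fs k y ∘L d) := by
  have H := h.hy o y.ht
  rw [h.sig_d hk hd]
  exact (H.toTw.LL_bij (H.nc_d0 (cb_uy h.toOK y)) hb :)

theorem sig_bij [CompactSpace M] (hk : 3 ≤ k) {y : Pnt o r}
    {d : 𝔉.F0.H (k + 2) o.Pg →L[ℝ] o.C r k} (hd : IsD y d) (hi : Injective d) :
    Bijective (sig Fs k y ∘L d) :=
  have H := h.hy o y.ht
  ⟨h.sig_inj hk hd hi, Fr.surj_of_inj (h.sig_d hk hd ▸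
    H.toTw.fr_LL (H.nc_d0 (cb_uy h.toOK y)) (H.cliffL_d0 H.P _) k) (h.sig_inj hk hd hi)⟩

/-! ### the linearisation -/

theorem fderiv_f0 (hk : 6 ≤ k) (y : Pnt o r) (x : 𝔉.F0.H (k + 1) (bd o).pC) :
    fderiv ℝ (f0 o Fs r n m k) (y.pt k) (sC' o r k y.t x) =
      jY o n m k ((bd o).LL 𝔉.F0.toPre (Fs y.t) k (uy y) x) := by
  have a := ((sC' o r k y.t).hasFDerivAt (x := 0)).const_add (y.pt k)
  have h1 := HasFDerivAt.comp (g := f0 o Fs r n m k) 0 (by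
    rw [map_zero, add_zero]
    exact ((h.sm_f0.contDiffAt ((isOpen_U h.toOK).mem_nhds (pt_mem y))).differentiableAt
      (by simp)).hasFDerivAt) a
  have h2 := (jY o n m k).hasFDerivAt.comp 0 (HasFDerivAt.comp
    (g := (bd o).NH 𝔉.F0.toPre (Fs y.t) k (u0 o y.t)) 0 (by
    rw [id, add_zero]
    exact (bd o).hasFDerivAt_NH 𝔉.F0.toPre (Fs y.t) (u0 o y.t) (hC o r k (y.pt k)))
    ((hasFDerivAt_id (0 : 𝔉.F0.H (k + 1) (bd o).pC)).const_add (hC o r k (y.pt k))))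
  have e : ∀ x, (y.pt k + sC' o r k y.t x).2.2.2 = y.t := fun x => add_zero y.t
  have h3 := DFunLike.congr_fun (h1.unique (h2.congr_of_eventuallyEq (.of_forall fun x => by
    simp only [comp_apply, f0, hC_eq, e, map_add, sC_sC' h.toOK y.ht, id]; rfl))) x
  rw [uy_val h.toOK (by omega : 3 ≤ k), (h.hy o y.ht).LL_add ((sb_u0 o h.toOK).cb _ y.ht) hk _
    (cb_hC h.toOK (by omega) y)]
  exact h3

/-- **the Fredholm dictionary** -/
theorem fr_dict [FiniteDimensional ℝ T] (y : Pnt o r) {L : o.C r k →L[ℝ] o.Y n m k}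
    {K : 𝔉.F0.H (k + 1) (bd o).pC →L[ℝ] 𝔉.F0.H k (bd o).pE}
    (hL : ∀ x, sY o n m k (L (sC' o r k y.t x)) = (bd o).LL 𝔉.F0.toPre (Fs y.t) k (uy y) x + K x)
    {d : ℤ} (hF : Fr ((bd o).FF 𝔉.F0.toPre (Fs y.t) k (uy y) + iH2 _ k o.Pg _ ∘L K) d) :
    Fr (L.prod (sig Fs k y)) (d + 2 * r + finrank ℝ T - 2 * n - m) := by
  refine (fr_dic ((SE (k + 1) o h.toOK y.ht).symm.trans (sumH _ _ o.P1 o.Pp))
    ((sumH _ k o.Pg _).trans ((ContinuousLinearEquiv.refl ℝ _).prodCongr (sumH _ k o.Pm o.P2)))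
    hF (i := sC' o r k y.t) (fun x => ?_) fun x => ?_).cast (dim_eq d r n m)
  · rw [ContinuousLinearEquiv.trans_apply, sumH_apply]; rfl
  · have e := (h.hy o y.ht).FF_eq (cb_uy h.toOK y) x
    have e1 : sig Fs k y (sC' o r k y.t x) = (bd o).RR 𝔉.F0.toPre (Fs y.t) k (uy y) x := by
      rw [sig_apply, sC_sC' h.toOK y.ht]
    have e2 : ((bd o).FF 𝔉.F0.toPre (Fs y.t) k (uy y) + iH2 _ k o.Pg _ ∘L K) x =
        iH1 _ k o.Pg _ (sig Fs k y (sC' o r k y.t x)) +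
          iH2 _ k o.Pg _ (sY o n m k (L (sC' o r k y.t x))) := by
      rw [_root_.add_apply, e, e1, hL, map_add, add_assoc]; rfl
    refine (congrArg _ e2).trans ?_
    simp only [sY_apply, ContinuousLinearEquiv.trans_apply, sumH_apply, map_add, fH_iH1, fH_iH2, sH_iH1,
      sH_iH2, add_zero, zero_add, ContinuousLinearEquiv.prodCongr_apply,
      ContinuousLinearEquiv.refl_apply, map_zero, Prod.mk_add_mk]

variable {e : T → PtX M ι lam r n m}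

theorem fderiv_aff (hk : 6 ≤ k) (y : Pnt o r) {g : o.C r k → o.Y n m (k + 1)}
    (h1 : ContDiffOn ℝ ∞ g (o.U r k))
    (h2 : ∀ y : Pnt o r, RepE e y (f0 o Fs r n m k (y.pt k) + o.iY n m k (k + 1) (g (y.pt k))))
    {f : o.C r k → o.Y n m k} (hf : RepF e f) (x : 𝔉.F0.H (k + 1) (bd o).pC) :
    sY o n m k (fderiv ℝ f (y.pt k) (sC' o r k y.t x)) = (bd o).LL 𝔉.F0.toPre (Fs y.t) k (uy y) x +
      (𝔉.F0.incl (k + 1) k _ ∘L sY o n m (k + 1) ∘L fderiv ℝ g (y.pt k) ∘L sC' o r k y.t) x := by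
  have U := (isOpen_U h.toOK).mem_nhds (pt_mem (k := k) y)
  have a := ((h.sm_f0 (n := n) (m := m)).contDiffAt U).differentiableAt (by simp)
  have b := (h1.contDiffAt U).differentiableAt (by simp)
  have c : HasFDerivAt (fun v => f0 o Fs r n m k v + o.iY n m k (k + 1) (g v)) _ _ :=
    a.hasFDerivAt.add ((o.iY n m k (k + 1)).hasFDerivAt.comp _ b.hasFDerivAt)
  rw [((repF_eqOn h.toOK (by omega) (by omega) hf (h.repF h1 h2)).eventuallyEq_of_mem U).fderiv_eq,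
    c.fderiv, _root_.add_apply, map_add, h.fderiv_f0 hk, sY_jY, ContinuousLinearMap.comp_apply,
    ← incl_sY k.le_succ]
  rfl

/-- **FRED on a closed manifold** -/
theorem fred [CompactSpace M] [FiniteDimensional ℝ T] (he : Aff o Fs r n m e) (hk : 7 ≤ k)
    (y : Pnt o r) {d : ℤ} (hF : Fr (((bd o).full (Fs y.t) (uy y)).H (Fs y.t) k) d)
    {f : o.C r k → o.Y n m k} (hf : RepF e f) :
    Fr ((fderiv ℝ f (y.pt k)).prod (sig Fs k y)) (d + 2 * r + finrank ℝ T - 2 * n - m) := by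
  obtain ⟨g, h1, h2⟩ := he k hk
  have H := h.hy o y.ht
  have h3 : Fr ((bd o).FF 𝔉.F0.toPre (Fs y.t) k (uy y)) d :=
    H.toTw.fr (H.nc_full (cb_uy h.toOK y)) hF
  have h4 : IsCompactOperator (𝔉.F0.incl (k + 1) k (bd o).pE) := Cht98.rellich k.lt_succ_self
  exact h.fr_dict y (h.fderiv_aff (by omega) y h1 h2 hf)
    (h3.add_compact ((h4.comp_clm _).clm_comp _))

end Adj

end Crest.Agent.X212.Map77
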