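import Crest.Agent.X212.Map77.Cls
import Crest.Agent.X212.Wz78.Hs

/-! The monopole map as a universal quadratic first order operator `N` on functions with values in
`Cf = (one-forms) ⊕ (spinors)`, the operators `d0` and `full`. -/

set_option autoImplicit false
set_option linter.unusedSectionVars false
noncomputable section
open scoped Manifold ContDiff Topology InnerProductSpace
open Function Finset

namespace Crest.Agent.X212.Map77
open An An.Pre Sob92 Ell97 Prm93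
open Wz78 (curv dir opL_hsL hsL_opL adcL adcL_apply adc_apply)

section post
variable {X X' Y Z : Type} [NormedAddCommGroup X] [NormedSpace ℝ X] [NormedAddCommGroup X']
  [NormedSpace ℝ X'] [NormedAddCommGroup Y] [NormedSpace ℝ Y] [NormedAddCommGroup Z]
  [NormedSpace ℝ Z]

/-- a bilinear map followed by a linear map -/
def post (L : Y →L[ℝ] Z) (β : X →L[ℝ] X' →L[ℝ] Y) : X →L[ℝ] X' →L[ℝ] Z :=
  (ContinuousLinearMap.compL ℝ X' Y Z L).comp β

@[simp] theorem post_apply (L : Y →L[ℝ] Z) (β : X →L[ℝ] X' →L[ℝ] Y) (x : X) (x' : X') :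
    post L β x x' = L (β x x') := rfl

end post

/-- one-forms and spinors -/
abbrev Cf (ι κ : Type) : Type := P2 (Fm ι (HS κ)) (Eu κ)
/-- spinors and two-forms -/
abbrev Ef (ι κ : Type) : Type := P2 (Eu κ) (Fm (ι × ι) (HS κ))

section pt
variable {ι κ : Type} [Fintype ι] [Fintype κ] [DecidableEq κ]

/-- `rk1` as a bilinear map -/
def rkL : CL (Eu κ) (CL (Eu κ) (En κ)) :=
  ((ContinuousLinearMap.smulRightL ℝ (Eu κ) (Eu κ)).comp (innerSL ℝ)).flip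

theorem rkL_apply (u v : Eu κ) : rkL u v = rk1 u v := rfl

/-- the form part -/
abbrev fa : CL (Cf ι κ) (Fm ι (HS κ)) := f2 _ _
/-- the spinor part -/
abbrev fp : CL (Cf ι κ) (Eu κ) := s2 _ _
/-- the connection matrix -/
def oa (a : ι) : CL (Cf ι κ) (En κ) := opL ∘L pj _ a ∘L fa

theorem oa_apply (a : ι) (u : Cf ι κ) : oa a u = opL (fa u a) := rfl

/-- the symbol of the equations -/
def σE (P : ι → ι → ℝ) (ρ : ι → En κ) (a : ι) : CL (Cf ι κ) (Ef ι κ) :=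
  pr2 (ρ a ∘L fp) (wd2 _ P a ∘L fa)

/-- the bracket term of the exterior derivative -/
def BE (c : ι → ι → ι → ℝ) : CL (Cf ι κ) (Ef ι κ) :=
  pr2 0 (tp fun s => -∑ k, c s.1 s.2 k • (pj _ k ∘L fa))

/-- the quadratic term -/
def βE (ρ : ι → En κ) : CL (Cf ι κ) (CL (Cf ι κ) (Ef ι κ)) :=
  post (i1 _ _) (∑ a, post (ρ a) ((ContinuousLinearMap.id ℝ (En κ)).bilinearComp (oa a) fp)) +
  post (i2 _ _) (∑ s : ι × ι, post (ij (HS κ) s ∘L hsL)
    ((ContinuousLinearMap.mul ℝ (En κ)).bilinearComp (oa s.1) (oa s.2) -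
      (ContinuousLinearMap.mul ℝ (En κ)).bilinearComp (oa s.2) (oa s.1) -
      rkL.bilinearComp fp (ρ s.1 ∘L ρ s.2 ∘L fp)))

theorem sum_ij {α X : Type} [Fintype α] [NormedAddCommGroup X] [InnerProductSpace ℝ X] (v : α → X)
    (a : α) : (∑ b, ij X b (v b)) a = v a := by
  classical
  simp only [WithLp.ofLp_sum, Finset.sum_apply, ij, tp_apply]
  rw [sum_eq_single a (fun b _ h => by simp [h.symm]) (by simp)]
  simp

theorem f2_βE (ρ : ι → En κ) (u v : Cf ι κ) :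
    f2 _ _ (βE ρ u v) = ∑ a, ρ a (oa a u (fp v)) := by
  simp [βE]

theorem s2_βE (ρ : ι → En κ) (u v : Cf ι κ) (s : ι × ι) : s2 _ _ (βE ρ u v) s =
    hsL (oa s.1 u * oa s.2 v - oa s.2 u * oa s.1 v - rk1 (fp u) (ρ s.1 (ρ s.2 (fp v)))) := by
  simp only [βE, _root_.add_apply, post_apply, map_add, s2_i1, s2_i2, zero_add, _root_.sum_apply,
    ContinuousLinearMap.comp_apply]
  rw [sum_ij]
  rfl

/-- `ξ ↦ e^a ⊗ ξ` -/
def ea (X : Type) [NormedAddCommGroup X] [InnerProductSpace ℝ X] (P : ι → ι → ℝ) (a : ι) :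
    CL X (Fm ι X) := tp fun b => P b a • ContinuousLinearMap.id ℝ X

theorem ea_apply {X : Type} [NormedAddCommGroup X] [InnerProductSpace ℝ X] (P : ι → ι → ℝ) (a : ι)
    (ξ : X) (b : ι) : ea X P a ξ b = P b a • ξ := rfl

/-- the symbol of the infinitesimal gauge action -/
def σ0 (P : ι → ι → ℝ) (a : ι) : CL (HS κ) (Cf ι κ) := -(i1 _ _ ∘L ea (HS κ) P a)

/-- the zero order part of the infinitesimal gauge action -/
def l0 : CL (Cf ι κ) (CL (HS κ) (Cf ι κ)) :=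
  post (i2 _ _) ((opL (κ := κ)).flip ∘L fp) - ∑ a, post (i1 _ _ ∘L ij (HS κ) a) (adcL ∘L oa a)

theorem fa_l0 (u : Cf ι κ) (ξ : HS κ) (a : ι) : fa (l0 u ξ) a = -adc (oa a u) ξ := by
  simp only [l0, _root_.sub_apply, post_apply, map_sub, f2_i2, _root_.sum_apply, map_sum,
    ContinuousLinearMap.comp_apply, f2_i1, zero_sub, PiLp.neg_apply]
  rw [sum_ij]
  rfl

theorem fp_l0 (u : Cf ι κ) (ξ : HS κ) : fp (l0 u ξ) = opL ξ (fp u) := by
  simp [l0]

end pt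

variable {E : Type} [NormedAddCommGroup E] [NormedSpace ℝ E] [FiniteDimensional ℝ E]
  [MeasurableSpace E] [BorelSpace E]
  {HM : Type} [TopologicalSpace HM] {I : ModelWithCorners ℝ E HM}
  {M : Type} [TopologicalSpace M] [ChartedSpace HM M] [IsManifold I ∞ M]
  [MeasurableSpace M] {ι κ : Type} [Fintype ι] [Fintype κ] [DecidableEq κ] {J : Type}

variable (M ι κ) in
/-- the bundles of a (sub-)theory -/
structure Bd where
  P : ι → ι → M → ℝ
  o : ι → ι → ι → ι → M → ℝ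
  ρ : ι → M → En κ
  g : M → CL (HS κ) (HS κ)
  p1 : M → CL (Fm ι (HS κ)) (Fm ι (HS κ))
  p2 : M → CL (Fm (ι × ι) (HS κ)) (Fm (ι × ι) (HS κ))
  sp : M → En κ
  sm : M → En κ

/-- a connection and a spinor as a function -/
def base (W : ι → M → En κ) (Φ : M → Eu κ) (x : M) : Cf ι κ :=
  i1 _ _ (WithLp.toLp 2 fun a => hsL (W a x)) + i2 _ _ (Φ x)

@[simp] theorem oa_base (W : ι → M → En κ) (Φ : M → Eu κ) (x : M) (a : ι) :
    oa a (base W Φ x) = W a x := by simp [oa_apply, base]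

@[simp] theorem fa_base (W : ι → M → En κ) (Φ : M → Eu κ) (x : M) (a : ι) :
    fa (base W Φ x) a = hsL (W a x) := by simp [base]

@[simp] theorem fp_base (W : ι → M → En κ) (Φ : M → Eu κ) (x : M) : fp (base W Φ x) = Φ x := by
  simp [base]

theorem base_add (W : ι → M → En κ) (Φ : M → Eu κ) (x : M) (u : M → Cf ι κ) :
    base (fun a y => W a y + opL (fa (u y) a)) (fun y => Φ y + fp (u y)) x = base W Φ x + u x :=
  ext2 (fm_ext fun a => by simp [base]) (by simp [base])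

theorem base_self (u : M → Cf ι κ) : base (fun a y => oa a (u y)) (fun y => fp (u y)) = u :=
  funext fun x => ext2 (fm_ext fun a => by simp [base, oa_apply]) (by simp [base])

/-- a quadratic first order operator on functions -/
def Nq {V W : Type} [NormedAddCommGroup V] [InnerProductSpace ℝ V] [NormedAddCommGroup W]
    [InnerProductSpace ℝ W] (F : Pre I M ι) (σ : ι → M → V →L[ℝ] W) (B : M → V →L[ℝ] W)
    (β : M → V →L[ℝ] V →L[ℝ] W) (u : M → V) (x : M) : W := F.op σ B u x + β x (u x) (u x)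

namespace Bd
variable (d : Bd M ι κ)

/-- the Gram matrix at a point -/
abbrev Px (x : M) : ι → ι → ℝ := fun a b => d.P a b x
/-- the orientation at a point -/
abbrev ox (x : M) : ι → ι → ι → ι → ℝ := fun a b c e => d.o a b c e x
/-- configurations -/
abbrev pC : M → CL (Cf ι κ) (Cf ι κ) := ps d.p1 d.sp
/-- equations -/
abbrev pE : M → CL (Ef ι κ) (Ef ι κ) := ps d.sm d.p2
def σ (a : ι) (x : M) : CL (Cf ι κ) (Ef ι κ) := σE (d.Px x) (fun a => d.ρ a x) a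
def β (x : M) : CL (Cf ι κ) (CL (Cf ι κ) (Ef ι κ)) := βE fun a => d.ρ a x
def _root_.Crest.Agent.X212.Map77.Bc (F : Fr I M ι) (x : M) : CL (Cf ι κ) (Ef ι κ) :=
  BE fun a b k => F.c a b k x

/-- the universal monopole operator -/
def N (F : Fr I M ι) : (M → Cf ι κ) → M → Ef ι κ := Nq F.toPre d.σ (Bc F) d.β

/-- the infinitesimal gauge action at `u₀` -/
def d0 (F : Fr I M ι) (u₀ : M → Cf ι κ) : Op M ι (HS κ) (Cf ι κ) :=
  cut F.toPre d.g d.pC (fun a x => σ0 (d.Px x) a) fun x => l0 (u₀ x)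

/-- the linearised equations at `u₀` -/
def lin (F : Fr I M ι) (u₀ : M → Cf ι κ) : Op M ι (Cf ι κ) (Ef ι κ) :=
  cut F.toPre d.pC d.pE d.σ fun x => Bc F x + (d.β x (u₀ x) + (d.β x).flip (u₀ x))

/-- the gauge fixed linearisation at `u₀` -/
def full (F : Fr I M ι) (u₀ : M → Cf ι κ) : Op M ι (Cf ι κ) (P2 (HS κ) (Ef ι κ)) :=
  pair ((d.d0 F u₀).adj F) (d.lin F u₀)

/-- pointwise hypotheses -/
structure OK : Prop where
  vol : ∀ x, Vol (d.Px x) (d.ox x)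
  g : Prj d.g
  p1 : ∀ x, d.p1 x = idx (d.Px x) (d.g x)
  p2 : ∀ x, d.p2 x = idx (sdm (d.Px x) (d.ox x)) (d.g x)
  sp : Prj d.sp
  sm : Prj d.sm
  sk : ∀ a x, Skw (d.ρ a x)
  Pρ : ∀ a x, ∑ b, d.P a b x • d.ρ b x = d.ρ a x
  clp : ∀ a b x v, d.ρ a x (d.ρ b x (d.sp x v)) + d.ρ b x (d.ρ a x (d.sp x v)) =
    (-2 * d.P a b x) • d.sp x v
  clm : ∀ a b x v, d.ρ a x (d.ρ b x (d.sm x v)) + d.ρ b x (d.ρ a x (d.sm x v)) =
    (-2 * d.P a b x) • d.sm x v
  mp : ∀ a x v, d.sm x (d.ρ a x (d.sp x v)) = d.ρ a x (d.sp x v)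
  pm : ∀ a x v, d.sp x (d.ρ a x (d.sm x v)) = d.ρ a x (d.sm x v)

variable {d} {F : Fr I M ι}

theorem f2_N (u : M → Cf ι κ) (hu : Sm I u) (x : M) :
    f2 _ _ (d.N F u x) = dir I F.e d.ρ (fun a y => oa a (u y)) (fun y => fp (u y)) x := by
  have e : ∀ a, dv I (F.e a) (fun y => fp (u y)) x = fp (F.D a u x) := fun a => dv_clm _ (md hu x)
  simp [N, Nq, Pre.op, σ, σE, Bc, BE, β, f2_βE, dir, Wz78.nab, e, sum_add_distrib]

theorem s2_N (hP : F.P = d.P) (u : M → Cf ι κ) (hu : Sm I u) (x : M) (s : ι × ι) :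
    s2 _ _ (d.N F u x) s = hsL (curv I F.e F.c (fun a y => oa a (u y)) s.1 s.2 x -
      rk1 (fp (u x)) (d.ρ s.1 x (d.ρ s.2 x (fp (u x))))) := by
  have e : ∀ a b, dv I (F.e a) (fun y => opL (fa (u y) b)) x = oa b (F.D a u x) :=
    fun a b => dv_clm (oa b) (md hu x)
  have e1 : ∀ a b, ∑ c, d.P a c x • fa (F.D c u x) b = fa (F.D a u x) b := fun a b => by
    rw [← sum_P_D F a u x, hP]; simp
  simp only [N, Nq, Pre.op, σ, σE, Bc, BE, β, map_add, map_sum, s2_pr2, PiLp.add_apply, s2_βE,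
    WithLp.ofLp_sum, Finset.sum_apply, ContinuousLinearMap.comp_apply, wd2_apply, tp_apply,
    sum_sub_distrib, e1, curv, e, map_sub, oa_apply, hsL_opL, map_smul, _root_.neg_apply,
    _root_.sum_apply, _root_.smul_apply, pj_apply]
  abel

namespace OK
variable (h : d.OK)
include h

theorem Ps (a b : ι) (x : M) : d.P a b x = d.P b a x := (h.vol x).pr.symm a b
theorem Pi (a b : ι) (x : M) : ∑ k, d.P a k x * d.P k b x = d.P a b x := (h.vol x).pr.idem a b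
theorem Pi' (a b : ι) (x : M) : ∑ k, d.P a k x * d.P b k x = d.P b a x := by
  simp only [h.Ps b, h.Pi]

theorem prj1 : Prj d.p1 :=
  ⟨fun x v => by rw [h.p1]; exact idx_idem (h.vol x).pr.idem (h.g.idem x) v,
    fun x v w => by rw [h.p1]; exact idx_symm (h.vol x).pr.symm (h.g.symm x) v w⟩

theorem prj2 : Prj d.p2 :=
  ⟨fun x v => by rw [h.p2]; exact idx_idem (h.vol x).sdm_idem (h.g.idem x) v,
    fun x v w => by rw [h.p2]; exact idx_symm (h.vol x).sdm_symm (h.g.symm x) v w⟩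

theorem prjC : Prj d.pC := h.prj1.ps h.sp
theorem prjE : Prj d.pE := h.sm.ps h.prj2

theorem g_p1 (x : M) (α : Fm ι (HS κ)) (a : ι) : d.g x (d.p1 x α a) = d.p1 x α a := by
  rw [h.p1]; exact T_idx (h.g.idem x) α a

theorem g_p2 (x : M) (ζ : Fm (ι × ι) (HS κ)) (s : ι × ι) : d.g x (d.p2 x ζ s) = d.p2 x ζ s := by
  rw [h.p2]; exact T_idx (h.g.idem x) ζ s

theorem P_p1 (x : M) (α : Fm ι (HS κ)) (a : ι) : ∑ k, d.P a k x • d.p1 x α k = d.p1 x α a := by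
  conv_rhs => rw [← h.prj1.idem, h.p1, idx_apply, ← h.p1]
  simp only [h.g_p1]

theorem sd_p2 (x : M) (ζ : Fm (ι × ι) (HS κ)) : SD (d.Px x) (d.ox x) (d.p2 x ζ) := by
  rw [h.p2]; exact (h.vol x).sd_idx _ ζ

theorem p1_fix (x : M) {α : Fm ι (HS κ)} (h1 : ∀ a, d.g x (α a) = α a)
    (h2 : ∀ a, ∑ k, d.P a k x • α k = α a) : d.p1 x α = α :=
  fm_ext fun a => by simp only [h.p1, idx_apply, h1, h2]

theorem Pσ (a : ι) (x : M) : ∑ b, d.P a b x • d.σ b x = d.σ a x := by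
  ext1 v
  refine ext2 ?_ (fm_ext fun s => ?_)
  · simp [σ, σE, ← h.Pρ a x]
  · simp [σ, σE, wd2_apply, smul_sub, smul_smul, ← sum_smul, h.Pi']

theorem Pσ0 (a : ι) (x : M) :
    ∑ b, d.P a b x • (σ0 (d.Px x) b : CL (HS κ) (Cf ι κ)) = σ0 (d.Px x) a := by
  ext1 v
  refine ext2 (fm_ext fun s => ?_) ?_
  · simp [σ0, ea_apply, smul_smul, ← sum_smul, h.Pi']
  · simp [σ0]

theorem alg_d0 (u₀ : M → Cf ι κ) : Alg d.P (d.d0 F u₀) := Alg.cut _ h.g h.prjC h.Pσ0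
theorem alg_lin (u₀ : M → Cf ι κ) : Alg d.P (d.lin F u₀) := Alg.cut _ h.prjC h.prjE h.Pσ
theorem alg_full (u₀ : M → Cf ι κ) : Alg d.P (d.full F u₀) :=
  ((h.alg_d0 u₀).adj F).pair (h.alg_lin u₀) rfl

theorem p1_ea (x : M) (a : ι) (ξ : HS κ) :
    d.p1 x (ea _ (d.Px x) a (d.g x ξ)) = ea _ (d.Px x) a (d.g x ξ) :=
  h.p1_fix x (fun b => by simp only [ea_apply, map_smul, h.g.idem]) fun b => by
    simp only [ea_apply, smul_smul, ← sum_smul, (h.vol x).pr.idem]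

theorem d0_σ (u₀ : M → Cf ι κ) (a : ι) (x : M) (ξ : HS κ) :
    (d.d0 F u₀).σ a x ξ = -i1 _ _ (ea _ (d.Px x) a (d.g x ξ)) :=
  ext2 (by simp [d0, cut, σ0, h.p1_ea]) (by simp [d0, cut, σ0])

theorem inner_ea (x : M) (a : ι) (ξ : HS κ) (α : Fm ι (HS κ)) :
    ⟪ea _ (d.Px x) a (d.g x ξ), α⟫_ℝ = ⟪ξ, d.p1 x α a⟫_ℝ := by
  simp only [inner_fm, ea_apply, real_inner_smul_left, h.p1, idx_apply, inner_sum,
    real_inner_smul_right, h.g.symm, (h.vol x).pr.symm a]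

theorem cliffL_d0 (hP : F.P = d.P) (u₀ : M → Cf ι κ) : (d.d0 F u₀).CliffL F := fun a b x v w => by
  simp only [h.d0_σ, inner_neg_neg, inner2, f2_i1, s2_i1, inner_zero_left, add_zero, h.inner_ea,
    h.p1_ea, ea_apply, real_inner_smul_right, hP, h.Ps b a]
  change _ = _ * ⟪d.g x v, w⟫_ℝ
  rw [h.g.symm]; ring

/-- the symbol of the Coulomb row -/
theorem row_σ (u₀ : M → Cf ι κ) (a : ι) (x : M) (u : Cf ι κ) :
    ((d.d0 F u₀).adj F).σ a x u = d.p1 x (fa u) a :=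
  ext_inner_left ℝ fun ξ => by
    simp only [Op.adj, _root_.neg_apply, inner_neg_right, inner_tr, h.d0_σ, inner_neg_left, neg_neg,
      inner2, f2_i1, s2_i1, inner_zero_left, add_zero, h.inner_ea]

theorem full_σ1 (u₀ : M → Cf ι κ) (a : ι) (x : M) (u : Cf ι κ) :
    f2 _ _ ((d.full F u₀).σ a x u) = d.p1 x (fa u) a := by
  simp only [full, pair, f2_pr2, h.row_σ]

theorem full_σ2 (u₀ : M → Cf ι κ) (a : ι) (x : M) (u : Cf ι κ) :
    f2 _ _ (s2 _ _ ((d.full F u₀).σ a x u)) = d.ρ a x (d.sp x (fp u)) := by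
  simp [full, pair, lin, cut, σ, σE, h.mp]

omit h in
theorem full_σ3 (u₀ : M → Cf ι κ) (a : ι) (x : M) (u : Cf ι κ) :
    s2 _ _ (s2 _ _ ((d.full F u₀).σ a x u)) = d.p2 x (wd2 _ (d.Px x) a (d.p1 x (fa u))) := by
  simp [full, pair, lin, cut, σ, σE]

theorem inner_wd (x : M) (a b : ι) (α α' : Fm ι (HS κ)) :
    ⟪d.p2 x (wd2 _ (d.Px x) a (d.p1 x α)), d.p2 x (wd2 _ (d.Px x) b (d.p1 x α'))⟫_ℝ =
      d.P a b x * ⟪d.p1 x α, d.p1 x α'⟫_ℝ - ⟪d.p1 x α b, d.p1 x α' a⟫_ℝ +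
        ∑ c, ∑ e, d.o a c b e x * ⟪d.p1 x α c, d.p1 x α' e⟫_ℝ := by
  rw [h.prj2.symm, h.prj2.idem, inner_wd2 (h.vol x).pr (h.sd_p2 x _), mul_sum]
  simp only [← real_inner_smul_right, h.p2, (h.vol x).sd_wd2 (h.g_p1 x α') (h.P_p1 x α')]
  simp only [inner_add_right, inner_sub_right, inner_sum, real_inner_smul_right, sum_add_distrib,
    sum_sub_distrib]
  rw [inner_fm (X := HS κ), mul_sum]
  congr 2
  rw [← h.P_p1 x α b]
  simp only [sum_inner, real_inner_smul_left, h.Ps b]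

theorem cliffL_full (hP : F.P = d.P) (u₀ : M → Cf ι κ) : (d.full F u₀).CliffL F := by
  intro a b x v w
  have e1 : ∑ c, ∑ e, d.o b c a e x * ⟪d.p1 x (fa v) c, d.p1 x (fa w) e⟫_ℝ =
      -∑ c, ∑ e, d.o a c b e x * ⟪d.p1 x (fa v) c, d.p1 x (fa w) e⟫_ℝ := by
    simp only [← sum_neg_distrib]
    refine sum_congr rfl fun c _ => sum_congr rfl fun e _ => ?_
    have := (h.vol x).a1 b c a e
    have := (h.vol x).a2 c b a e
    have := (h.vol x).a1 c a b e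
    rw [show d.o b c a e x = -d.o a c b e x by linarith, neg_mul]
  have e2 := congrArg (fun z => ⟪d.sp x (fp v), z⟫_ℝ) (h.clp a b x (fp w))
  simp only [inner_add_right, real_inner_smul_right] at e2
  have e3 : ⟪(d.full F u₀).p x v, w⟫_ℝ =
      ⟪d.p1 x (fa v), d.p1 x (fa w)⟫_ℝ + ⟪d.sp x (fp v), d.sp x (fp w)⟫_ℝ := by
    rw [← h.prj1.symm, h.prj1.idem, ← h.sp.symm, h.sp.idem, inner2]
    exact congrArg₂ (· + ·) (by rw [← f2_ps]; rfl) (by rw [← s2_ps]; rfl)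
  simp only [inner2 ((d.full F u₀).σ _ x v), inner2 (s2 _ _ ((d.full F u₀).σ _ x v)), h.full_σ1,
    h.full_σ2, full_σ3, h.inner_wd, e1, h.sk _ x (d.sp x (fp v)), e3, hP, h.Ps b a]
  linarith

/-- the transpose of the symbol -/
theorem tr_full (u₀ : M → Cf ι κ) (a : ι) (x : M) (y : P2 (HS κ) (Ef ι κ)) :
    Op.tr ((d.full F u₀).σ a x) y =
      i1 _ _ (ea _ (d.Px x) a (d.g x (f2 _ _ y)) +
        WithLp.toLp 2 fun c => (2 : ℝ) • d.p2 x (s2 _ _ (s2 _ _ y)) (a, c)) -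
      i2 _ _ (d.ρ a x (d.sm x (f2 _ _ (s2 _ _ y)))) := by
  refine ext_inner_left ℝ fun v => ?_
  have e : d.p1 x (WithLp.toLp 2 fun c => (2 : ℝ) • d.p2 x (s2 _ _ (s2 _ _ y)) (a, c)) =
      WithLp.toLp 2 fun c => (2 : ℝ) • d.p2 x (s2 _ _ (s2 _ _ y)) (a, c) :=
    h.p1_fix x (fun c => by simp only [map_smul, h.g_p2]) fun c => by
      simp only [smul_comm _ (2 : ℝ), ← smul_sum, (h.sd_p2 x _).pr' a c]
  rw [inner_tr, inner2, inner2, h.full_σ1, h.full_σ2, full_σ3, h.prj2.symm,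
    inner_wd2 (h.vol x).pr (h.sd_p2 x _), inner2, ← h.mp, h.sm.symm, h.sk, h.sp.symm, h.pm]
  simp only [map_sub, f2_i1, f2_i2, s2_i1, s2_i2, sub_zero, zero_sub, inner_add_right,
    inner_neg_right]
  rw [real_inner_comm _ (f2 _ _ v), h.inner_ea, ← e, ← h.prj1.symm, inner_fm (X := HS κ),
    real_inner_comm (f2 _ _ y)]
  simp only [real_inner_smul_right, ← mul_sum]
  ring

theorem cliff_full (hP : F.P = d.P) (u₀ : M → Cf ι κ) : (d.full F u₀).Cliff F := by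
  refine ⟨h.cliffL_full hP u₀, fun a b x v w => ?_⟩
  set ζ := d.p2 x (s2 _ _ (s2 _ _ v)) with hζ
  set η := d.p2 x (s2 _ _ (s2 _ _ w)) with hη
  have sζ : SD (d.Px x) (d.ox x) ζ := h.sd_p2 x _
  have sη : SD (d.Px x) (d.ox x) η := h.sd_p2 x _
  have e1 := (h.vol x).quat sζ sη a b
  have e2 := congrArg (fun z => ⟪d.sm x (f2 _ _ (s2 _ _ v)), z⟫_ℝ) (h.clm a b x (f2 _ _ (s2 _ _ w)))
  simp only [inner_add_right, real_inner_smul_right] at e2
  have e3 : ⟪((d.full F u₀).adj F).p x v, w⟫_ℝ = ⟪d.g x (f2 _ _ v), d.g x (f2 _ _ w)⟫_ℝ +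
      (⟪d.sm x (f2 _ _ (s2 _ _ v)), d.sm x (f2 _ _ (s2 _ _ w))⟫_ℝ + ∑ s, ⟪ζ s, η s⟫_ℝ) := by
    rw [← inner_fm (X := HS κ), hζ, hη, ← h.g.symm, h.g.idem, ← h.sm.symm, h.sm.idem, ← h.prj2.symm,
      h.prj2.idem]
    change ⟪ps d.g d.pE x v, w⟫_ℝ = _
    simp only [inner2, f2_ps, s2_ps]
  have e4 : ∀ a b (ξ : HS κ) {θ : Fm (ι × ι) (HS κ)}, SD (d.Px x) (d.ox x) θ →
      ∑ c, d.P c a x * ⟪ξ, θ (b, c)⟫_ℝ = ⟪ξ, θ (b, a)⟫_ℝ := fun a b ξ θ hθ => by
    rw [← hθ.pr' b a]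
    simp only [inner_sum, real_inner_smul_right, (h.vol x).pr.symm a]
  have e5 : ∀ a b, ∑ c, d.P c a x * d.P c b x = d.P a b x := fun a b => by
    simp only [h.Ps _ a, h.Pi]
  have e6 : ∀ a b, ⟪ea _ (d.Px x) a (d.g x (f2 _ _ v)) + WithLp.toLp 2 fun c => (2 : ℝ) • ζ (a, c),
      ea _ (d.Px x) b (d.g x (f2 _ _ w)) + WithLp.toLp 2 fun c => (2 : ℝ) • η (b, c)⟫_ℝ =
      d.P a b x * ⟪d.g x (f2 _ _ v), d.g x (f2 _ _ w)⟫_ℝ + 2 * ⟪d.g x (f2 _ _ v), η (b, a)⟫_ℝ +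
        2 * ⟪d.g x (f2 _ _ w), ζ (a, b)⟫_ℝ + 4 * ∑ c, ⟪ζ (a, c), η (b, c)⟫_ℝ := fun a b => by
    rw [← e4 a b _ sη, ← e4 b a _ sζ, ← e5 a b, inner_fm (X := HS κ)]
    simp only [sum_mul, mul_sum, ← sum_add_distrib]
    refine sum_congr rfl fun c _ => ?_
    simp only [PiLp.add_apply, ea_apply, inner_add_left, inner_add_right, real_inner_smul_left,
      real_inner_smul_right, real_inner_comm (ζ (a, c)) (d.g x _)]
    ring
  rw [e3]
  simp only [Op.adj, _root_.neg_apply, inner_neg_neg]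
  simp only [h.tr_full, inner2, map_sub, f2_i1, f2_i2,
    s2_i1, s2_i2, sub_zero, zero_sub, ← hζ, ← hη, e6, inner_neg_neg]
  simp only [h.sk _ x (d.sm x _), hP, h.Ps b a, sζ.anti b a, sη.anti b a, inner_neg_right]
  linarith

end OK

variable (d) in
/-- the bundle data lie in the class `K` -/
structure In {F : J → Pre I M ι} (K : Cls F) : Prop where
  P : ∀ a b, K.mem fun _ => d.P a b
  ρ : ∀ a, K.mem fun _ => d.ρ a
  g : K.mem fun _ => d.g
  p1 : K.mem fun _ => d.p1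
  p2 : K.mem fun _ => d.p2
  sp : K.mem fun _ => d.sp
  sm : K.mem fun _ => d.sm

end Bd

namespace Cls
variable {F : J → Pre I M ι} {K : Cls F}

theorem post {X X' Y Z : Type} [NormedAddCommGroup X] [NormedSpace ℝ X] [NormedAddCommGroup X']
    [NormedSpace ℝ X'] [NormedAddCommGroup Y] [NormedSpace ℝ Y] [NormedAddCommGroup Z]
    [NormedSpace ℝ Z] {L : J → M → Y →L[ℝ] Z} {β : J → M → X →L[ℝ] X' →L[ℝ] Y} (hL : K.mem L)
    (hβ : K.mem β) : K.mem fun j x => post (L j x) (β j x) :=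
  comp (clm (N' := (X' →L[ℝ] Y) →L[ℝ] X' →L[ℝ] Z) (ContinuousLinearMap.compL ℝ X' Y Z) hL) hβ

theorem base {W : J → ι → M → En κ} {Φ : J → M → Eu κ} (hW : ∀ a, K.mem fun j => W j a)
    (hΦ : K.mem Φ) : K.mem fun j => base (W j) (Φ j) :=
  K.add (clm _ (toLp fun a => clm hsL (hW a))) (clm _ hΦ)

end Cls

namespace Bd.In
variable {d : Bd M ι κ} {F : J → Fr I M ι} {K : Cls fun j => (F j).toPre} (h : d.In K)
include h

theorem pC : K.mem fun _ => d.pC := Cls.ps h.p1 h.sp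
theorem pE : K.mem fun _ => d.pE := Cls.ps h.sm h.p2

theorem σ (a : ι) : K.mem fun _ => d.σ a :=
  Cls.pr2 (Cls.comp (h.ρ a) (K.const _)) (Cls.comp (Cls.tp fun s =>
    Cls.sub (Cls.smul (h.P s.1 a) (K.const _)) (Cls.smul (h.P s.2 a) (K.const _))) (K.const _))

theorem β : K.mem fun _ => d.β :=
  have h1 : ∀ s : ι × ι, K.mem fun _ x => ((rkL ∘L fp).flip ∘L d.ρ s.1 x ∘L d.ρ s.2 x ∘L fp :
      CL (Cf ι κ) (CL (Cf ι κ) (En κ))) := fun s =>
    Cls.comp (K.const _) (Cls.comp (h.ρ s.1) (Cls.comp (h.ρ s.2) (K.const _)))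
  K.add (Cls.post (K.const _) (Cls.sum fun a => Cls.post (h.ρ a) (K.const _)))
    (Cls.post (K.const _) (Cls.sum fun s => Cls.post (K.const _) (Cls.sub (K.const _)
      (Cls.flip (h1 s)))))

omit h in
theorem Bc (hc : ∀ a b k, K.mem fun j => (F j).c a b k) :
    K.mem fun j => (Bc (F j) : M → CL (Cf ι κ) (Ef ι κ)) :=
  Cls.pr2 (K.const _) (Cls.tp fun s => Cls.neg (Cls.sum fun k =>
    Cls.smul (hc s.1 s.2 k) (K.const _)))

variable {u₀ : J → M → Cf ι κ}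

theorem d0 (hu : K.mem u₀) : K.op fun j => d.d0 (F j) (u₀ j) :=
  Cls.op.cut h.g h.pC (fun a => Cls.neg (Cls.comp (K.const _)
    (Cls.tp fun b => Cls.smul (h.P b a) (K.const _)))) (Cls.clm _ hu)

theorem lin (hc : ∀ a b k, K.mem fun j => (F j).c a b k) (hu : K.mem u₀) :
    K.op fun j => d.lin (F j) (u₀ j) :=
  Cls.op.cut h.pC h.pE h.σ (K.add (Bc hc) (K.add (K.app h.β hu) (K.app (Cls.flip h.β) hu)))

theorem full (hc : ∀ a b k, K.mem fun j => (F j).c a b k) (hd : ∀ a, K.mem fun j => (F j).dv a)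
    (hu : K.mem u₀) : K.op fun j => d.full (F j) (u₀ j) :=
  ((h.d0 hu).adj hd).pair (h.lin hc hu)

end Bd.In

end Crest.Agent.X212.Map77
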