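import Crest.Agent.X212.Map77.Ins

/-! The monopole map on the Banach model: affine form `f0`, the leaf `Ref.Rp`. -/

set_option autoImplicit false
set_option linter.unusedSectionVars false
noncomputable section
open scoped Manifold ContDiff Topology InnerProductSpace
open MeasureTheory Set Function Filter

namespace Crest.Agent.X212.Map77
open An An.Pre Sob92 Ell97 Prm93 Fred93 Mod61

variable {E : Type} [NormedAddCommGroup E] [NormedSpace ℝ E] [FiniteDimensional ℝ E]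
  [MeasurableSpace E] [BorelSpace E]
  {HM : Type} [TopologicalSpace HM] {I : ModelWithCorners ℝ E HM} [I.Boundaryless]
  {M : Type} [TopologicalSpace M] [ChartedSpace HM M] [IsManifold I ∞ M]
  [MeasurableSpace M] [T2Space M] [BorelSpace M] [SecondCountableTopology M]
  {ι : Type} [Fintype ι] {lam : Type} [Fintype lam]
  {T : Type} [NormedAddCommGroup T] [NormedSpace ℝ T] {𝔉 : Fam I M ι lam T} {j k : ℕ}

section defs
variable (o : Ref 𝔉) (Fs : T → Fr I M ι) (r n m k : ℕ)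

/-- the form and the spinor as one section -/
def jC : o.C r k →L[ℝ] 𝔉.F0.H (k + 1) (bd o).pC :=
  (iH1 _ _ o.P1 o.Pp).coprod (iH2 _ _ o.P1 o.Pp ∘L ContinuousLinearMap.fst ℝ _ _)

/-- the parameter -/
def tC : o.C r k →L[ℝ] T :=
  ContinuousLinearMap.snd ℝ _ _ ∘L ContinuousLinearMap.snd ℝ _ _ ∘L ContinuousLinearMap.snd ℝ _ _

/-- the two equations -/
def jY : 𝔉.F0.H k (bd o).pE →L[ℝ] o.Y n m k :=
  (fH _ _ o.Pm o.P2).prod ((sH _ _ o.Pm o.P2).prod 0)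

/-- the section in the frame of the parameter -/
def hC (v : o.C r k) : 𝔉.F0.H (k + 1) (bd o).pC := SH (k + 1) o (𝔉.S v.2.2.2) (jC o r k v)

/-- **the monopole map relative to the base configuration** -/
def f0 (v : o.C r k) : o.Y n m k :=
  jY o n m k ((bd o).NH 𝔉.F0.toPre (Fs v.2.2.2) k (u0 o v.2.2.2) (hC o r k v))

/-- `e` is `f0` plus a map that gains one derivative -/
def Aff (e : T → PtX M ι lam r n m) : Prop :=
  ∀ j, 7 ≤ j → ∃ g : o.C r j → o.Y n m (j + 1), ContDiffOn ℝ ∞ g (o.U r j) ∧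
    ∀ y : Pnt o r, RepE e y (f0 o Fs r n m j (y.pt j) + o.iY n m j (j + 1) (g (y.pt j)))

end defs

variable {o : Ref 𝔉} {Fs : T → Fr I M ι} {r n m : ℕ}

/-- the configuration of a smooth point as one function -/
def uy (y : Pnt o r) : M → Cf ι (Fin o.m.N) := base (o.W y.t y.α) (o.Φ0 + y.φ)

/-- the base point with the same parameters -/
def bs (y : Pnt o r) : Pnt o r := ⟨0, 0, y.z, y.t, zero_mem _, zero_mem _, y.ht⟩

variable (n m) in
/-- the Dirac equation at a smooth point -/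
def eD (y : Pnt o r) : M → o.m.V := 𝔉.Om'.indicator ((𝔉.eq0 r n m y.t).D y.cfg)

variable (n m) in
/-- the curvature equation at a smooth point -/
def eC (y : Pnt o r) : M → Fm (ι × ι) o.m.A := 𝔉.Om.indicator ((𝔉.eq0 r n m y.t).C y.cfg)

theorem pm_z {X X' Y Y' Z : Type} [NormedAddCommGroup X] [NormedSpace ℝ X] [NormedAddCommGroup X']
    [NormedSpace ℝ X'] [NormedAddCommGroup Y] [NormedSpace ℝ Y] [NormedAddCommGroup Y']
    [NormedSpace ℝ Y'] [NormedAddCommGroup Z] [NormedSpace ℝ Z] (A : X →L[ℝ] X') (B : Y →L[ℝ] Y')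
    (v : X × Y × Z) : (A.prodMap (B.prodMap (.id ℝ Z)) v).2.2 = v.2.2 := rfl

theorem iC_z (v : o.C r k) : (o.iC r j k v).2.2 = v.2.2 := pm_z _ _ v

theorem iC_t (v : o.C r k) : (o.iC r j k v).2.2.2 = v.2.2.2 := by rw [iC_z]

theorem jC_apply (v : o.C r k) :
    jC o r k v = iH1 _ _ o.P1 o.Pp v.1 + iH2 _ _ o.P1 o.Pp v.2.1 := rfl

theorem uy_eq (y : Pnt o r) (x : M) :
    uy y x = u0 o y.t x + SC o (𝔉.S y.t) x (i1 _ _ (y.α x) + i2 _ _ (y.φ x)) := by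
  rw [u0, ← base_add _ _ x fun x => SC o (𝔉.S y.t) x (i1 _ _ (y.α x) + i2 _ _ (y.φ x))]
  simp only [SC, f2_sm2, s2_sm2, map_add, f2_i1, f2_i2, s2_i1, s2_i2, map_zero, add_zero,
    zero_add]
  rfl

theorem uy_bs (y : Pnt o r) : uy (bs y) = u0 o y.t := funext fun x => by simp [uy_eq, bs]

theorem isOpen_U (h : 𝔉.OK) : IsOpen (o.U r k) := h.opn.preimage (tC o r k).continuous

theorem pt_mem (y : Pnt o r) : y.pt k ∈ o.U r k := y.ht

section ok
variable (h : 𝔉.OK)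
include h

theorem iC_pt (hj : 3 ≤ j) (hk : j ≤ k) (y : Pnt o r) : o.iC r j k (y.pt k) = y.pt j :=
  Prod.ext (incl_ofV (sup0 h) y.hα (by omega) (by omega))
    (Prod.ext (incl_ofV (sup0 h) y.hφ (by omega) (by omega)) rfl)

theorem dense_pt (hk : 3 ≤ k) : o.U r k ⊆ closure (range fun y : Pnt o r => y.pt k) := by
  have d := (𝔉.F0.dense_toH (k + 1) o.P1).prodMap ((𝔉.F0.dense_toH (k + 1) o.Pp).prodMap
    (denseRange_id (X := EuclideanSpace ℂ (Fin r) × T)))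
  refine (d.open_subset_closure_inter (isOpen_U h)).trans (closure_mono ?_)
  rintro _ ⟨hv, ⟨a, φ, z, t⟩, rfl⟩
  exact ⟨⟨a.1, φ.1, z, t, sec_hs (sup0 h) a, sec_hs (sup0 h) φ, hv⟩,
    Prod.ext (ofV_sec (sup0 h) (by omega) a) (Prod.ext (ofV_sec (sup0 h) (by omega) φ) rfl)⟩

theorem repE_unique {τ : T → PtX M ι lam r n m} {y : Pnt o r} (hj : 4 ≤ j) {e e' : o.Y n m j}
    (h1 : RepE τ y e) (h2 : RepE τ y e') : e = e' :=
  Prod.ext (val_injective (sup0 h) hj (h1.D.trans h2.D.symm))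
    (Prod.ext (val_injective (sup0 h) hj (h1.C.trans h2.C.symm))
      (Prod.ext (h1.S.trans h2.S.symm) (h1.R.trans h2.R.symm)))

/-- representatives are unique -/
theorem repF_eqOn {τ : T → PtX M ι lam r n m} (hk : 3 ≤ k) (hj : 4 ≤ j)
    {f f' : o.C r k → o.Y n m j} (h1 : RepF τ f) (h2 : RepF τ f') : EqOn f f' (o.U r k) :=
  EqOn.of_subset_closure (s := range fun y : Pnt o r => y.pt k)
    (by rintro _ ⟨y, rfl⟩; exact repE_unique h hj (h1.2 y) (h2.2 y)) h1.1.continuousOn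
    h2.1.continuousOn (by rintro _ ⟨y, rfl⟩; exact pt_mem y) (dense_pt h hk)

theorem val_jC (hk : 3 ≤ k) (v : o.C r k) (x : M) : 𝔉.F0.val _ _ (jC o r k v) x =
    i1 _ _ (𝔉.F0.val _ _ v.1 x) + i2 _ _ (𝔉.F0.val _ _ v.2.1 x) := by
  rw [jC_apply, val_add, Pi.add_apply]
  exact congrArg₂ (· + ·) (val_mulH (sup0 h) (by omega) (Cb_const _) maps_i1 _ x)
    (val_mulH (sup0 h) (by omega) (Cb_const _) maps_i2 _ x)

theorem val_SH (hk : 4 ≤ k) {t : T} (ht : t ∈ 𝔉.Q) (v : 𝔉.F0.H k (bd o).pC) (x : M) :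
    𝔉.F0.val _ _ (SH k o (𝔉.S t) v) x = SC o (𝔉.S t) x (𝔉.F0.val _ _ v x) :=
  val_mulH (sup0 h) hk ((sb_SC o h.sS).cb t ht) (maps_SC o h (h.PS t ht)) v x

theorem val_hC (hk : 3 ≤ k) (y : Pnt o r) : 𝔉.F0.val _ _ (hC o r k (y.pt k)) =
    fun x => SC o (𝔉.S y.t) x (i1 _ _ (y.α x) + i2 _ _ (y.φ x)) := funext fun x => by
  rw [hC, val_SH h (by omega) (pt_mem y), val_jC h hk]
  simp only [Pnt.pt, val_ofV y.hα (by omega : 4 ≤ k + 1), val_ofV y.hφ (by omega : 4 ≤ k + 1)]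

theorem cb_hC (hk : 3 ≤ k) (y : Pnt o r) : 𝔉.F0.Cb (𝔉.F0.val _ _ (hC o r k (y.pt k))) :=
  val_hC h hk y ▸ Cb_app ((sb_SC o h.sS).cb _ y.ht)
    (Cb_add (Cb_clm _ (cb_hs (sup0 h) y.hα)) (Cb_clm _ (cb_hs (sup0 h) y.hφ)))

theorem uy_val (hk : 3 ≤ k) (y : Pnt o r) :
    uy y = fun x => u0 o y.t x + 𝔉.F0.val _ _ (hC o r k (y.pt k)) x :=
  funext fun x => by rw [uy_eq, val_hC h hk]

theorem cb_uy (y : Pnt o r) : 𝔉.F0.Cb (uy y) :=
  uy_val h le_rfl y ▸ Cb_add ((sb_u0 o h).cb _ y.ht) (cb_hC h le_rfl y)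

theorem α_mem (y : Pnt o r) (x : M) (a : ι) : y.α x a ∈ o.m.gS x :=
  mem_g o (proj_hs (sup0 h) y.hα x ▸ (ok_bd o h).g_p1 x _ a)

theorem Pp_Φ (y : Pnt o r) (x : M) : o.Pp x ((o.Φ0 + y.φ) x) = (o.Φ0 + y.φ) x := by
  rw [Pi.add_apply, map_add, proj_hs (sup0 h) y.hφ]
  exact congrArg (· + _) (o.pos x)

theorem pp_Φ (y : Pnt o r) (x : M) : o.m.pp 𝔉.B x ((o.Φ0 + y.φ) x) = (o.Φ0 + y.φ) x := by
  have := Pp_Φ h y x
  by_cases hx : x ∈ 𝔉.Om'
  · rwa [Ref.Pp, indicator_of_mem hx] at this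
  · rw [Ref.Pp, indicator_of_notMem hx] at this
    rw [← this]; simp

theorem pm_dir (y : Pnt o r) (x : M) : o.m.pm 𝔉.B x ((𝔉.eq0 r n m y.t).D y.cfg x) =
    (𝔉.eq0 r n m y.t).D y.cfg x := by
  have e := Wz78.dir_pp h.B o.ok (h.conn _ _ o.ok (o.connA h.B y.t) _ y.ht) (u := o.Φ0 + y.φ) (x := x)
    ((Cb_add o.cΦ (cb_hs (sup0 h) y.hφ)).choose_spec.1 x)
  rw [funext (pp_Φ h y)] at e
  have e1 : (𝔉.eq0 r n m y.t).D y.cfg x =
      Wz78.dir I (𝔉.G y.t).F.e o.m.ρ (𝔉.W0 o.m (o.A y.t) y.t) (o.Φ0 + y.φ) x + ∑ a, o.m.ρ a x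
        (opL (∑ b, 𝔉.S y.t x a b • y.α x b) ((o.Φ0 + y.φ) x)) := by
    simp only [Fam.eq0, eq0, Pnt.cfg, Ref.W, Md.addC, Wz78.dir, Wz78.nab, idx_apply,
      ContinuousLinearMap.id_apply, _root_.add_apply, map_add, Finset.sum_add_distrib, add_assoc]
  rw [e1, map_add, ← e, map_sum]
  refine congrArg _ (Finset.sum_congr rfl fun a _ => ?_)
  rw [← mul_apply_eq_comp, Wz78.pm_rho h.B o.ok, mul_apply_eq_comp, ← mul_apply_eq_comp (o.m.pp _ _),
    ← Wz78.g_pp o.ok (Submodule.sum_mem _ fun b _ => Submodule.smul_mem _ _ (α_mem h y x b)),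
    mul_apply_eq_comp, pp_Φ h]

theorem incl_jY (hj : j ≤ k) (w : 𝔉.F0.H k (bd o).pE) :
    o.iY n m j k (jY o n m k w) = jY o n m j (𝔉.F0.incl k j _ w) :=
  Prod.ext (incl_fH hj w) (Prod.ext (incl_sH hj w) rfl)

theorem incl_jC (hj : j ≤ k) (v : o.C r k) :
    𝔉.F0.incl (k + 1) (j + 1) _ (jC o r k v) = jC o r j (o.iC r j k v) := by
  rw [jC_apply, map_add, incl_iH1 (by omega), incl_iH2 (by omega)]; rfl

theorem incl_SH (hj : j ≤ k) {t : T} (ht : t ∈ 𝔉.Q) (v : 𝔉.F0.H k (bd o).pC) :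
    𝔉.F0.incl k j _ (SH k o (𝔉.S t) v) = SH j o (𝔉.S t) (𝔉.F0.incl k j _ v) :=
  Rep_incl (rep_SH o h ht) (rep_SH o h ht) hj hj v

theorem sm_hC : ContDiffOn ℝ ∞ (hC o r k) (o.U r k) :=
  ((sm_SH o h).comp (tC o r k).contDiff.contDiffOn fun _ hv => hv).clm_apply
    (jC o r k).contDiff.contDiffOn

end ok

namespace Adj
variable (h : Adj 𝔉 Fs)
include h

theorem f2_N (y : Pnt o r) (x : M) : o.Pm x (f2 _ _ ((bd o).N (Fs y.t) (uy y) x)) =
    eD n m y x := by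
  rw [Bd.f2_N _ (cb_uy h.toOK y).choose_spec.1, h.e _ y.ht]
  simp only [uy, oa_base, fp_base]
  by_cases hx : x ∈ 𝔉.Om'
  · rw [Ref.Pm, indicator_of_mem hx]
    exact (pm_dir h.toOK y x).trans (indicator_of_mem hx _).symm
  · rw [Ref.Pm, indicator_of_notMem hx]
    exact (indicator_of_notMem hx _).symm

theorem s2_N (y : Pnt o r) (x : M) : o.P2 x (s2 _ _ ((bd o).N (Fs y.t) (uy y) x)) =
    eC n m y x := by
  have e := Bd.s2_N (d := bd o) (h.P _ y.ht) _ (cb_uy h.toOK y).choose_spec.1 x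
  rw [h.e _ y.ht, h.c _ y.ht] at e
  simp only [uy, oa_base, fp_base] at e
  by_cases hx : x ∈ 𝔉.Om
  · refine Eq.trans ?_ (indicator_of_mem hx _).symm
    change _ = o.m.p2 𝔉.B x (o.m.Fg _ (o.W y.t y.α) x) - o.m.mu 𝔉.B x _ _
    refine fm_ext fun s => ?_
    simp only [Ref.P2, Ref.Pg, indicator_of_mem hx, Md.p2, Md.mu, Md.Fg, Md.q, uy, e,
      PiLp.sub_apply, idx_apply, Wz78.pg_pg, map_sub, smul_sub, Finset.sum_sub_distrib]
    rfl
  · refine Eq.trans ?_ (indicator_of_notMem hx _).symm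
    exact fm_ext fun s => by simp [Ref.P2, Ref.Pg, hx]

theorem sm_f0 : ContDiffOn ℝ ∞ (f0 o Fs r n m k) (o.U r k) :=
  (jY o n m k).contDiff.comp_contDiffOn ((((h.sm_LL o (sb_u0 o h.toOK)).comp
    (tC o r k).contDiff.contDiffOn fun _ hv => hv).clm_apply (sm_hC h.toOK)).add
    ((𝔉.F0.incl (k + 1) k _).contDiff.comp_contDiffOn
      ((((bd o).βH 𝔉.F0.toPre (k + 1)).contDiff.comp_contDiffOn (sm_hC h.toOK)).clm_apply
        (sm_hC h.toOK))))

theorem val_NH (hk : 6 ≤ k) (y : Pnt o r) (x : M) :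
    𝔉.F0.val _ _ ((bd o).NH 𝔉.F0.toPre (Fs y.t) k (u0 o y.t) (hC o r k (y.pt k))) x =
      (bd o).pE x ((bd o).N (Fs y.t) (uy y) x) - (bd o).pE x ((bd o).N (Fs y.t) (u0 o y.t) x) := by
  rw [(h.hy o y.ht).val_NH ((sb_u0 o h.toOK).cb _ y.ht) hk _
    (cb_hC h.toOK (by omega) y).choose_spec.1, ← uy_val h.toOK (by omega), map_sub]

/-- **the affine form of the leaf `Rp`** -/
theorem val_f0 (hk : 6 ≤ k) (y : Pnt o r) :
    𝔉.F0.val _ _ (f0 o Fs r n m k (y.pt k)).1 = eD n m y - eD n m (bs y) ∧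
    𝔉.F0.val _ _ (f0 o Fs r n m k (y.pt k)).2.1 = eC n m y - eC n m (bs y) ∧
    (f0 o Fs r n m k (y.pt k)).2.2 = 0 := by
  refine ⟨funext fun x => ?_, funext fun x => ?_, rfl⟩
  · refine (val_mulH (sup0 h.toOK) (by omega) (Cb_const _) maps_f2 _ x).trans ?_
    rw [Pi.sub_apply, ← h.f2_N y, ← h.f2_N (bs y), uy_bs]
    exact (congrArg _ (h.val_NH hk y x)).trans (by rw [map_sub, f2_ps, f2_ps]; rfl)
  · refine (val_mulH (sup0 h.toOK) (by omega) (Cb_const _) maps_s2 _ x).trans ?_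
    rw [Pi.sub_apply, ← h.s2_N y, ← h.s2_N (bs y), uy_bs]
    exact (congrArg _ (h.val_NH hk y x)).trans (by rw [map_sub, s2_ps, s2_ps]; rfl)

theorem incl_f0 (hj : 6 ≤ j) (hk : j ≤ k) {v : o.C r k} (hv : v ∈ o.U r k) :
    o.iY n m j k (f0 o Fs r n m k v) = f0 o Fs r n m j (o.iC r j k v) := by
  rw [f0, incl_jY h.toOK hk, (h.hy o hv).incl_NH ((sb_u0 o h.toOK).cb _ hv) hj hk, hC,
    incl_SH h.toOK (by omega) hv, incl_jC h.toOK hk, f0, hC, iC_t]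

theorem repF {e : T → PtX M ι lam r n m} {g : o.C r j → o.Y n m (j + 1)}
    (h1 : ContDiffOn ℝ ∞ g (o.U r j))
    (h2 : ∀ y : Pnt o r, RepE e y (f0 o Fs r n m j (y.pt j) + o.iY n m j (j + 1) (g (y.pt j)))) :
    RepF e fun v => f0 o Fs r n m j v + o.iY n m j (j + 1) (g v) :=
  ⟨h.sm_f0.add ((o.iY n m j (j + 1)).contDiff.comp_contDiffOn h1), h2⟩

theorem rp {e : T → PtX M ι lam r n m} (he : Aff o Fs r n m e) : o.Rp e := fun k hk =>
  let ⟨_, h1, h2⟩ := he k hk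
  ⟨_, h.repF h1 h2⟩

theorem sb_N : SB 𝔉.F0.toPre 𝔉.Q fun t x => (bd o).pE x ((bd o).N (Fs t) (u0 o t) x) :=
  have hu : h.K.mem (u0 o) := sb_u0 o h.toOK
  h.K.app (h.inK o).pE (h.K.add (h.K.add (Cls.sum fun a => h.K.app ((h.inK o).σ a) (h.K.D hu a))
    (h.K.app (Bd.In.Bc fun a b c => (h.sc a b c).congr fun t ht => by rw [h.c t ht]) hu))
    (h.K.app (h.K.app (h.inK o).β hu) hu))

open Classical in
/-- the equations at the base configuration on a closed manifold -/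
def res [CompactSpace M] (o : Ref 𝔉) (t : T) : Sec I (bd o).pE :=
  if ht : t ∈ 𝔉.Q then ⟨fun x => (bd o).pE x ((bd o).N (Fs t) (u0 o t) x),
    (h.sb_N.cb t ht).choose_spec.1, HasCompactSupport.of_compactSpace _,
    fun x => (ok_bd o h.toOK).prjE.idem x _⟩ else 0

theorem sm_res [CompactSpace M] : ContDiffOn ℝ ∞ (fun t => 𝔉.F0.toH k _ (h.res o t)) 𝔉.Q :=
  SB.toH_compact (h.sb_N.congr fun t ht => by rw [res, dif_pos ht])
    (Cb_ps (cb_Pm o h.toOK) (cb_P2 o h.toOK)) (ok_bd o h.toOK).prjE.idem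

theorem repE_res [CompactSpace M] (hk : 6 ≤ k) (y : Pnt o r) : RepE (𝔉.eq0 r n m) y
    (f0 o Fs r n m k (y.pt k) + jY o n m k (𝔉.F0.toH k _ (h.res o y.t))) := by
  have e : ∀ x, 𝔉.F0.val _ _ ((bd o).NH 𝔉.F0.toPre (Fs y.t) k (u0 o y.t) (hC o r k (y.pt k)) +
      𝔉.F0.toH k _ (h.res o y.t)) x = (bd o).pE x ((bd o).N (Fs y.t) (uy y) x) := fun x => by
    rw [val_add, Pi.add_apply, h.val_NH hk, val_toH (sup0 h.toOK) (by omega), res, dif_pos y.ht,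
      sub_add_cancel]
  rw [f0, ← map_add]
  refine ⟨funext fun x => ?_, funext fun x => ?_, rfl, rfl⟩
  · refine (val_mulH (sup0 h.toOK) (by omega) (Cb_const _) maps_f2 _ x).trans ?_
    exact (congrArg _ (e x)).trans ((f2_ps _ _).trans (h.f2_N y x))
  · refine (val_mulH (sup0 h.toOK) (by omega) (Cb_const _) maps_s2 _ x).trans ?_
    exact (congrArg _ (e x)).trans ((s2_ps _ _).trans (h.s2_N y x))

theorem aff_eq0 [CompactSpace M] : Aff o Fs r n m (𝔉.eq0 r n m) := fun j hj =>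
  ⟨fun v => jY o n m (j + 1) (𝔉.F0.toH _ _ (h.res o v.2.2.2)), (jY o n m _).contDiff.comp_contDiffOn
    (h.sm_res.comp (tC o r j).contDiff.contDiffOn fun _ hv => hv), fun y => by
      rw [incl_jY h.toOK j.le_succ, incl_toH j.le_succ]
      exact h.repE_res (by omega) y⟩

end Adj

/-- **LEAF `Rp` on a closed manifold.** -/
theorem rp_eq0 [CompactSpace M] (h : 𝔉.OK) (o : Ref 𝔉) (r n m : ℕ) : o.Rp (𝔉.eq0 r n m) :=
  (adj_closed h).rp (adj_closed h).aff_eq0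

end Crest.Agent.X212.Map77
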