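import Crest.Agent.X212.Map77.Tw
import Crest.Agent.X212.Map77.Mono

/-! The monopole map on Sobolev spaces, relative to a base configuration. -/

set_option autoImplicit false
set_option linter.unusedSectionVars false
noncomputable section
open scoped Manifold ContDiff Topology InnerProductSpace
open MeasureTheory Set Function Filter

namespace Crest.Agent.X212.Map77
open An An.Pre Sob92 Ell97 Prm93 Fred93

theorem fr_blk {X Y K Q : Type*} [NormedAddCommGroup X] [NormedSpace ℝ X] [CompleteSpace X]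
    [NormedAddCommGroup Y] [NormedSpace ℝ Y] [CompleteSpace Y] [NormedAddCommGroup K]
    [NormedSpace ℝ K] [FiniteDimensional ℝ K] [NormedAddCommGroup Q] [NormedSpace ℝ Q]
    [FiniteDimensional ℝ Q] {L : X × K →L[ℝ] Y × Q} {n : ℤ}
    (h : Fr (ContinuousLinearMap.fst ℝ Y Q ∘L L ∘L ContinuousLinearMap.inl ℝ X K) n) :
    Fr L (n + Module.finrank ℝ K - Module.finrank ℝ Q) := by
  have := FiniteDimensional.complete ℝ K
  refine ((h.coprod (ContinuousLinearMap.fst ℝ Y Q ∘L L ∘L ContinuousLinearMap.inr ℝ X K)).prod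
    (ContinuousLinearMap.snd ℝ Y Q ∘L L)).congr fun x => Prod.ext ?_ rfl
  simp [← Prod.fst_add, ← map_add]

variable {E : Type} [NormedAddCommGroup E] [NormedSpace ℝ E] [FiniteDimensional ℝ E]
  [MeasurableSpace E] [BorelSpace E]
  {HM : Type} [TopologicalSpace HM] {I : ModelWithCorners ℝ E HM} [I.Boundaryless]
  {M : Type} [TopologicalSpace M] [ChartedSpace HM M] [IsManifold I ∞ M]
  [MeasurableSpace M] [T2Space M] [BorelSpace M] [SecondCountableTopology M]
  {ι ι' κ : Type} [Fintype ι] [Fintype ι'] [Fintype κ] [DecidableEq κ]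
  {U V W : Type} [NormedAddCommGroup U] [InnerProductSpace ℝ U] [FiniteDimensional ℝ U]
  [NormedAddCommGroup V] [InnerProductSpace ℝ V] [FiniteDimensional ℝ V]
  [NormedAddCommGroup W] [InnerProductSpace ℝ W] [FiniteDimensional ℝ W]
  {F : Fr I M ι'} {G : Fr I M ι} {j k : ℕ}

section pair
variable {A : Op M ι V W} {A' : Op M ι V U}

theorem Nc.pair {F : Pre I M ι'} {P : ι → ι → M → ℝ} (hA : Nc F P A) (hA' : Nc F P A')
    (e : A'.p = A.p) : Nc F P (pair A A') :=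
  ⟨hA.p, Cb_ps hA.q hA'.q, fun a => Cb_pr2 (hA.σ a) (hA'.σ a), Cb_pr2 hA.B hA'.B,
    hA.alg.pair hA'.alg e⟩

theorem Tw.LH_pair (h : Tw F G) (hA : Nc F.toPre G.P A) (hA' : Nc F.toPre G.P A') (e : A'.p = A.p)
    (x : F.H (k + 1) A.p) : LH F.toPre G.toPre k A.p (ps A.q A'.q) (pair A A') x =
      iH1 _ k _ _ (LH F.toPre G.toPre k A.p A.q A x) +
        iH2 _ k _ _ (LH F.toPre G.toPre k A.p A'.q A' x) :=
  DFunLike.congr_fun (RepT_eq (h.rep (hA.pair hA' e) k) (RepT_add (RepT_comp rep_iH1 (h.rep hA k))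
    (RepT_comp rep_iH2 (e ▸ h.rep hA' k))) fun u => funext (op_pair G.toPre A A' u.1)) x

theorem Tw.reg_pair (h : Tw F G) (hA : Nc F.toPre G.P A) (hA' : Nc F.toPre G.P A') (e : A'.p = A.p)
    (hc : (pair A A').CliffL G) (hj : k ≤ j) {x : F.H (k + 1) A.p}
    (e1 : LH F.toPre G.toPre k A.p A.q A x ∈ range (F.incl j k A.q))
    (e2 : LH F.toPre G.toPre k A.p A'.q A' x ∈ range (F.incl j k A'.q)) :
    x ∈ range (F.incl (j + 1) (k + 1) A.p) := by
  obtain ⟨w, e1⟩ := e1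
  obtain ⟨w', e2⟩ := e2
  exact h.reg (hA.pair hA' e) hc hj (w := iH1 _ j _ _ w + iH2 _ j _ _ w')
    ((h.LH_pair hA hA' e x).trans (by
      rw [← e1, ← e2, ← incl_iH1 hj, ← incl_iH2 hj, ← map_add]; rfl))

end pair

namespace Bd
variable {d : Bd M ι κ}

theorem N_add (u v : M → Cf ι κ) (hu : Sm I u) (hv : Sm I v) (x : M) :
    d.N G (fun y => u y + v y) x - d.N G u x = G.op d.σ (fun x => Bc G x +
      (d.β x (u x) + (d.β x).flip (u x))) v x + d.β x (v x) (v x) := by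
  have e : ∀ a, G.D a (fun y => u y + v y) x = G.D a u x + G.D a v x := fun a =>
    congrFun (G.D_add hu hv a) x
  simp only [N, Nq, Pre.op, e, map_add, Finset.sum_add_distrib, _root_.add_apply,
    ContinuousLinearMap.flip_apply]
  abel

theorem lin_congr {G' : Fr I M ι} (he : G'.e = G.e) (hc : G'.c = G.c) (u : M → Cf ι κ) :
    d.lin G' u = d.lin G u := by simp only [lin, cut, Bc, D_def, he, hc]

variable (d) in
/-- the quadratic term on Sobolev spaces -/
def βH (F : Pre I M ι') (k : ℕ) : F.H k d.pC →L[ℝ] F.H k d.pC →L[ℝ] F.H k d.pE :=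
  F.bilH k k d.pC d.pC d.pE k fun x => post (d.pE x) (d.β x)

variable (d) in
/-- the linearisation at `u` -/
abbrev LL (F : Pre I M ι') (G : Fr I M ι) (k : ℕ) (u : M → Cf ι κ) :
    F.H (k + 1) d.pC →L[ℝ] F.H k d.pE := LH F G.toPre k d.pC d.pE (d.lin G u)

variable (d) in
/-- the Coulomb row at `u` -/
abbrev RR (F : Pre I M ι') (G : Fr I M ι) (k : ℕ) (u : M → Cf ι κ) :
    F.H (k + 1) d.pC →L[ℝ] F.H k d.g := LH F G.toPre k d.pC d.g ((d.d0 G u).adj G)

variable (d) in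
/-- the infinitesimal action at `u` -/
abbrev DD (F : Pre I M ι') (G : Fr I M ι) (k : ℕ) (u : M → Cf ι κ) :
    F.H (k + 1) d.g →L[ℝ] F.H k d.pC := LH F G.toPre k d.g d.pC (d.d0 G u)

variable (d) in
/-- the gauge fixed linearisation at `u` -/
abbrev FF (F : Pre I M ι') (G : Fr I M ι) (k : ℕ) (u : M → Cf ι κ) :
    F.H (k + 1) d.pC →L[ℝ] F.H k (ps d.g d.pE) := LH F G.toPre k d.pC (ps d.g d.pE) (d.full G u)

variable (d) in
/-- `N (u + h) - N u` -/
def NH (F : Pre I M ι') (G : Fr I M ι) (k : ℕ) (u : M → Cf ι κ) (h : F.H (k + 1) d.pC) :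
    F.H k d.pE := d.LL F G k u h + F.incl (k + 1) k d.pE (d.βH F (k + 1) h h)

variable (d F G) in
/-- all the hypotheses on the bundles and the two frames -/
structure Hy : Prop extends Tw F G, d.OK where
  P : G.P = d.P
  cP : ∀ a b, F.Cb (d.P a b)
  cρ : ∀ a, F.Cb (d.ρ a)
  cg : F.Cb d.g
  c1 : F.Cb d.p1
  c2 : F.Cb d.p2
  cp : F.Cb d.sp
  cm : F.Cb d.sm

namespace Hy
variable (h : d.Hy F G) {u : M → Cf ι κ}
include h

theorem inG : d.In (cb (fun _ : Unit => G.toPre) univ) :=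
  ⟨fun a b _ _ => h.cmp.Cb_iff.1 (h.cP a b), fun a _ _ => h.cmp.Cb_iff.1 (h.cρ a),
    fun _ _ => h.cmp.Cb_iff.1 h.cg, fun _ _ => h.cmp.Cb_iff.1 h.c1, fun _ _ => h.cmp.Cb_iff.1 h.c2,
    fun _ _ => h.cmp.Cb_iff.1 h.cp, fun _ _ => h.cmp.Cb_iff.1 h.cm⟩

theorem nc {A : Op M ι V W} (hA : (cb (fun _ : Unit => G.toPre) univ).op fun _ => A)
    (ha : Alg d.P A) : Nc F.toPre G.P A :=
  ⟨h.cmp.Cb_iff.2 (hA.p () trivial), h.cmp.Cb_iff.2 (hA.q () trivial),
    fun a => h.cmp.Cb_iff.2 (hA.σ a () trivial), h.cmp.Cb_iff.2 (hA.B () trivial), h.P ▸ ha⟩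

theorem cC : F.Cb d.pC := Cb_ps h.c1 h.cp
theorem cE : F.Cb d.pE := Cb_ps h.cm h.c2
theorem cβ : F.Cb d.β := h.cmp.Cb_iff.2 (In.β (F := fun _ => G) h.inG () trivial)

theorem cβ' : F.Cb fun x => post (d.pE x) (d.β x) :=
  h.cmp.Cb_iff.2 (Cls.post (In.pE (F := fun _ => G) h.inG) (In.β (F := fun _ => G) h.inG) () trivial)

theorem mβ : Maps₂ d.pC d.pC d.pE fun x => post (d.pE x) (d.β x) :=
  Maps₂.of_left fun x _ _ => h.prjE.idem x _

theorem nc_d0 (hu : F.Cb u) : Nc F.toPre G.P (d.d0 G u) :=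
  h.nc (In.d0 (F := fun _ => G) h.inG fun _ _ => h.cmp.Cb_iff.1 hu) (h.alg_d0 u)

theorem nc_row (hu : F.Cb u) : Nc F.toPre G.P ((d.d0 G u).adj G) := h.nc_adj (h.nc_d0 hu)

theorem nc_lin (hu : F.Cb u) : Nc F.toPre G.P (d.lin G u) :=
  h.nc (In.lin (F := fun _ => G) h.inG (fun a b c _ _ => ⟨_, h.t1.choose_spec.c a b c⟩)
    fun _ _ => h.cmp.Cb_iff.1 hu) (h.alg_lin u)

theorem nc_full (hu : F.Cb u) : Nc F.toPre G.P (d.full G u) := (h.nc_row hu).pair (h.nc_lin hu) rfl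

theorem FF_eq (hu : F.Cb u) (x : F.H (k + 1) d.pC) : d.FF F.toPre G k u x =
    iH1 _ k _ _ (d.RR F.toPre G k u x) + iH2 _ k _ _ (d.LL F.toPre G k u x) :=
  h.LH_pair (h.nc_row hu) (h.nc_lin hu) rfl x

theorem val_βH (hk : 7 ≤ k) (x y : F.H k d.pC) (z : M) : F.val k _ (d.βH F.toPre k x y) z =
    d.pE z (d.β z (F.val k _ x z) (F.val k _ y z)) :=
  val_bilH h.sup (Lev.self hk) (by omega) h.cβ' h.mβ x y z

theorem incl_βH (hj : 7 ≤ j) (hk : j ≤ k) (x y : F.H k d.pC) : F.incl k j _ (d.βH F.toPre k x y) =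
    d.βH F.toPre j (F.incl k j _ x) (F.incl k j _ y) :=
  incl_bilH h.sup (Lev.self (hj.trans hk)) (Lev.self hj) hk hk hk h.cβ' h.mβ x y

theorem incl_NH (hu : F.Cb u) (hj : 6 ≤ j) (hk : j ≤ k) (x : F.H (k + 1) d.pC) :
    F.incl k j _ (d.NH F.toPre G k u x) = d.NH F.toPre G j u (F.incl (k + 1) (j + 1) _ x) := by
  rw [NH, NH, map_add, ← h.incl_βH (by omega) (by omega), incl_incl k.le_succ hk,
    incl_incl (by omega) j.le_succ]
  exact congrArg (· + _) (h.toTw.incl (h.nc_lin hu) hk x)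

/-- the value of `NH` at a smooth point -/
theorem val_NH (hu : F.Cb u) (hk : 6 ≤ k) (x : F.H (k + 1) d.pC) (hx : Sm I (F.val _ _ x)) (z : M) :
    F.val k _ (d.NH F.toPre G k u x) z =
      d.pE z (d.N G (fun y => u y + F.val _ _ x y) z - d.N G u z) := by
  have e := congrFun (h.toTw.val (h.nc_lin hu) (by omega : 4 ≤ k) x) z
  rw [NH, val_add, Pi.add_apply, val_incl h.sup (by omega) k.le_succ, h.val_βH (by omega),
    N_add u _ hu.choose_spec.1 hx, map_add]
  exact congrArg (· + _) (e.trans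
    (op_cut G.toPre h.cC.choose_spec.1 hx (val_proj h.sup (by omega) x) z))

/-- moving the base point -/
theorem LL_add (hu : F.Cb u) (hk : 6 ≤ k) (x : F.H (k + 1) d.pC) (hx : F.Cb (F.val _ _ x))
    (v : F.H (k + 1) d.pC) : d.LL F.toPre G k (fun y => u y + F.val _ _ x y) v =
      d.LL F.toPre G k u v + F.incl (k + 1) k d.pE (d.βH F.toPre _ x v + d.βH F.toPre _ v x) := by
  refine val_injective h.sup (by omega : 4 ≤ k) (funext fun z => ?_)
  have e := congrFun (h.toTw.val (h.nc_lin hu) (by omega : 4 ≤ k) v) z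
  have e' := congrFun (h.toTw.val (h.nc_lin (Cb_add hu hx)) (by omega : 4 ≤ k) v) z
  rw [val_add, Pi.add_apply, val_incl h.sup (by omega) k.le_succ, val_add, Pi.add_apply,
    h.val_βH (by omega), h.val_βH (by omega)]
  refine e'.trans (Eq.trans ?_ (congrArg (· + _) e.symm))
  simp only [Pre.op, lin, cut, ContinuousLinearMap.comp_apply, _root_.add_apply, map_add,
    ContinuousLinearMap.flip_apply, Pi.add_apply]
  abel

theorem cliff_mix (u u' : M → Cf ι κ) : (pair ((d.d0 G u').adj G) (d.lin G u)).CliffL G := by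
  have e : ∀ a, (pair ((d.d0 G u').adj G) (d.lin G u)).σ a = (d.full G u).σ a := fun a => by
    simp only [full, pair, Op.adj, d0, cut]
  intro a b x v w
  rw [e, e]
  exact h.cliffL_full h.P u a b x v w

/-- **one step of elliptic regularity** -/
theorem boot {u' : M → Cf ι κ} (hu : F.Cb u) (hu' : F.Cb u') {x : F.H (k + 1) d.pC}
    (e1 : d.RR F.toPre G k u' x ∈ range (F.incl (k + 1) k d.g))
    (e2 : d.NH F.toPre G k u x ∈ range (F.incl (k + 1) k d.pE)) :
    x ∈ range (F.incl (k + 2) (k + 1) d.pC) := by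
  obtain ⟨w, e2⟩ := e2
  have e3 : d.LL F.toPre G k u x ∈ range (F.incl (k + 1) k d.pE) :=
    ⟨w - d.βH F.toPre _ x x, (map_sub _ _ _).trans (sub_eq_of_eq_add e2)⟩
  exact h.reg_pair (h.nc_row hu') (h.nc_lin hu) rfl (h.cliff_mix u u') k.le_succ e1 e3

end Hy
end Bd

end Crest.Agent.X212.Map77
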