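import Crest.Agent.X212.Map77.Slc
import Crest.Agent.X212.Grp76.Fre
import Crest.Agent.X212.Nk89.Idx
import Crest.Agent.X212.Mod61.Tr

/-! The leaf `GrpM.Slc` for the gauge groups `gm1`, `gmE`, `gmA`, `gmC`. -/

set_option autoImplicit false
set_option linter.unusedSectionVars false
noncomputable section
open scoped Manifold ContDiff Topology InnerProductSpace
open MeasureTheory Set Function Filter Module

namespace Crest.Agent.X212.Map77
open An An.Pre Sob92 Ell97 Prm93 Fred93 Mod61 Grp76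

variable {E : Type} [NormedAddCommGroup E] [NormedSpace ℝ E] [FiniteDimensional ℝ E]
  [MeasurableSpace E] [BorelSpace E]
  {HM : Type} [TopologicalSpace HM] {I : ModelWithCorners ℝ E HM} [I.Boundaryless]
  {M : Type} [TopologicalSpace M] [ChartedSpace HM M] [IsManifold I ∞ M]
  [MeasurableSpace M] [T2Space M] [BorelSpace M] [SecondCountableTopology M]
  {ι : Type} [Fintype ι] {lam : Type} [Fintype lam]
  {T : Type} [NormedAddCommGroup T] [NormedSpace ℝ T] {𝔉 : Fam I M ι lam T} {k : ℕ}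
  {o : Ref 𝔉} {Fs : T → Fr I M ι} {r n m : ℕ} {e : T → PtX M ι lam r n m} {d : ℤ}

/-- positive divergence at infinity depends on the measure only -/
theorem hdy_mix {ι' : Type} [Fintype ι'] {F : Fr I M ι'} {G : Fr I M ι} {A : ι' → ι → M → ℝ}
    (h : Mix G.toPre F.toPre A) (hA : ∀ a b, F.Cb (A a b)) (hμ : G.μ = F.μ) (hy : Nk89.Hdy F) :
    Nk89.Hdy G := by
  obtain ⟨X, χ, c, B, R, H, hc⟩ := hy
  obtain ⟨C, hC⟩ := Cb_unif (f := fun s : ι' × ι => A s.1 s.2) fun s => hA _ _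
  have s : ∀ a b, Sm I (A a b) := fun a b => (hC (a, b)).1
  have e : ∀ b x, F.dv b x = ∑ a, (G.D a (A b a) x + A b a x * G.dv a x) := fun b x =>
    (Met55.dvg_eq isOpen_univ (fun y _ => F.sm b y) (fun f h1 h2 _ => hμ ▸ F.ibp b f h1 h2)
      (fun y _ => F.dv_sm b y) (mem_univ x)).symm.trans (congrFun (rem_dv h s b) x)
  refine ⟨fun a x => ∑ b, A b a x * X b x, χ, c, B, ∑ _b : ι', C 0 * R,
    ⟨fun a => contMDiff_finsetSum fun b _ => (s b a).mul (H.sX b), fun a x =>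
      (Finset.abs_sum_le_sum_abs _ _).trans (Finset.sum_le_sum fun b _ => ?_), H.sχ, H.c0, H.B0,
      fun x => (H.le x).trans_eq (congrArg (· + _) ?_)⟩, hc⟩
  · have := CB_bound ((hC (b, a)).2 0) x
    rw [abs_mul]
    exact mul_le_mul this (H.bX b x) (abs_nonneg _) ((norm_nonneg _).trans this)
  · have e1 : ∀ a, G.D a (fun x => ∑ b, A b a x * X b x) x =
        ∑ b, (A b a x * G.D a (X b) x + G.D a (A b a) x * X b x) := fun a => by
      refine (dv_sum _ fun b _ => md ((s b a).mul (H.sX b)) x).trans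
        (Finset.sum_congr rfl fun b _ => ?_)
      exact (Met55.dv_mul (X := G.e a) (s b a x) (H.sX b x)).trans (add_comm _ _)
    simp only [e, e1, h.D, smul_eq_mul, Finset.sum_mul, Finset.mul_sum, ← Finset.sum_add_distrib]
    rw [Finset.sum_comm]
    exact Finset.sum_congr rfl fun a _ => Finset.sum_congr rfl fun b _ => by ring

theorem hdy_rem (h : 𝔉.OK) (hy : Nk89.Hdy 𝔉.F0) {t : T} (ht : t ∈ 𝔉.Q) :
    Nk89.Hdy (Nk89.Fs 𝔉 t) :=
  hdy_mix (G := Nk89.Fs 𝔉 t) (mix_inv h ht) (fun a b => (h.sSi a b).cb t ht) rfl hy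

theorem isD_ga [o.B0] (h : 𝔉.OK) (hk : 7 ≤ k) (y : Pnt o r) :
    IsD y ((gaM o h hk r).d (y.pt k)) :=
  ⟨fun ξ x a => ((hy1 o h hk).val_d1 _ ξ x a).trans
      (by simp only [QB.conn, o.A_eq, y.val_α (k := k) (by omega)]),
    fun ξ x => ((hy1 o h hk).val_d2 _ ξ x).trans
      (by simp only [QB.spin, y.val_φ (k := k) (by omega)]), (hy1 o h hk).d_z _⟩

theorem sig_eq_row (y : Pnt o r) : sig (Nk89.Fs 𝔉) k y = Nk89.row k y ∘L Nk89.prC o r k := rfl

/-- perturbations that gain a derivative may be added -/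
theorem Aff.add (he : Aff o Fs r n m e) (h : 𝔉.OK) {τ : T → PtX M ι lam r n m} (hτ : o.Sm τ) :
    Aff o Fs r n m (e + τ) := fun j hj =>
  let ⟨g, g1, g2⟩ := he j hj
  let ⟨f, hf⟩ := hτ j hj
  ⟨g + f, g1.add hf.1, fun y => by
    rw [Pi.add_apply, map_add, ← add_assoc]
    exact (g2 y).add ((hf.2 y).iY h (by omega) j.le_succ)⟩

theorem Aff.tot (he : Aff o Fs r n m e) (h : 𝔉.OK) {W : Type} {τ : W → T → PtX M ι lam r n m}
    (hτ : ∀ w, o.Sm (τ w)) (q : W →₀ ℝ) : Aff o Fs r n m (e + q.sum fun w c => c • τ w) :=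
  he.add h (mem_SmS.1 (Submodule.sum_mem _ fun w _ => Submodule.smul_mem _ _ (mem_SmS.2 (hτ w))))

namespace Adj
variable (h : Adj 𝔉 Fs)
include h

/-- ends: `τ` plus the unperturbed equations at the base point gains a derivative -/
theorem aff_of {τ : T → PtX M ι lam r n m} (hg : ∀ j, 7 ≤ j → ∃ g : o.C r j → o.Y n m (j + 1),
    ContDiffOn ℝ ∞ g (o.U r j) ∧ ∀ y : Pnt o r,
      𝔉.F0.val _ _ (g (y.pt j)).1 - eD n m (bs y) = 𝔉.Om'.indicator ((τ y.t).D y.cfg) ∧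
      𝔉.F0.val _ _ (g (y.pt j)).2.1 - eC n m (bs y) = 𝔉.Om.indicator ((τ y.t).C y.cfg) ∧
      (g (y.pt j)).2.2 = ((τ y.t).S y.cfg, (τ y.t).R y.cfg)) :
    Aff o Fs r n m (𝔉.eq0 r n m + τ) := fun j hj => by
  obtain ⟨g, g1, g2⟩ := hg j hj
  refine ⟨g, g1, fun y => ?_⟩
  obtain ⟨a1, a2, a3⟩ := h.val_f0 (n := n) (m := m) (k := j) (by omega) y
  obtain ⟨b1, b2, b3⟩ := g2 y
  obtain ⟨c1, c2, c3⟩ := snd_snd (iY_apply (k := j) (g (y.pt j)))
  have S := sup0 h.toOK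
  have e3 := congrArg₂ (· + ·) a3 (c3.trans b3)
  refine ⟨?_, ?_, congrArg Prod.fst e3, congrArg Prod.snd e3⟩
  · rw [Prod.fst_add, val_add, a1, c1, val_incl S (by omega) j.le_succ, sub_add_eq_add_sub,
      add_sub_assoc, b1]
    exact (indicator_add' _ _ _).symm
  · rw [Prod.snd_add, Prod.fst_add, val_add, a2, c2, val_incl S (by omega) j.le_succ,
      sub_add_eq_add_sub, add_sub_assoc, b2]
    exact (indicator_add' _ _ _).symm

theorem fa_d0 (hk : 3 ≤ k) {y : Pnt o r} {D : 𝔉.F0.H (k + 2) o.Pg →L[ℝ] o.C r k} (hd : IsD y D)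
    (u : Sec I o.Pg) (x : M) (a : ι) : fa (((bd o).d0 (Fs y.t) (uy y)).app (Fs y.t) u.1 x) a =
      -Wz78.nab I (Fs y.t).e (o.m.adW y.cfg.W) a u.1 x := by
  have S := sup0 h.toOK
  have H := h.hy o y.ht
  have e1 : 𝔉.F0.val (k + 2) o.Pg (𝔉.F0.toH _ _ u) = u.1 := val_toH S (by omega) u
  have e := congrFun (H.toTw.val (H.nc_d0 (cb_uy h.toOK y)) (by omega : 4 ≤ k + 1)
    (𝔉.F0.toH _ _ u)) x
  have e2 : ((bd o).d0 (Fs y.t) (uy y)).app (Fs y.t) u.1 x = SC o (𝔉.S y.t) x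
      (𝔉.F0.val _ _ (jC o r k (D (𝔉.F0.toH _ _ u))) x) :=
    ((congrArg (fun u => (Fs y.t).op _ _ u x) e1.symm).trans e.symm).trans
      ((congrArg (𝔉.F0.val _ _ · x) (DFunLike.congr_fun (h.sC_d hk hd) _).symm).trans
        (val_SH h.toOK (by omega) y.ht (jC o r k (D (𝔉.F0.toH _ _ u))) x))
  rw [e2, val_jC h.toOK hk]
  simp only [SC, f2_sm2, map_add, f2_i1, f2_i2, map_zero, add_zero, idx_apply, ContinuousLinearMap.id_apply,
    hd.a, e1, Finset.sum_neg_distrib, Md.adW, Pnt.cfg, adc_W h.toOK y (mem_g o (u.2.2.2 x)),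
    Wz78.nab, smul_neg, smul_add, Finset.sum_add_distrib, neg_add]
  rw [← D_def, (h.mx _ y.ht).D]
  rfl

/-- the slice condition from a Hardy inequality -/
theorem sig_bij_hdy (hk : 3 ≤ k) {y : Pnt o r} (hy : Nk89.Hdy (Fs y.t))
    {D : 𝔉.F0.H (k + 2) o.Pg →L[ℝ] o.C r k} (hd : IsD y D) (hi : Injective D) :
    Bijective (sig Fs k y ∘L D) := by
  have H := h.hy o y.ht
  have N := H.nc_d0 (cb_uy h.toOK y)
  obtain ⟨C, h1, h2⟩ := H.toTw.good N
  have c := (y.ad0 h.toOK).conn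
  let L : ι → CL (Cf ι (Fin o.m.N)) o.m.A := fun a => -(pj _ a ∘L fa)
  refine h.sig_bij' hk hd (hy.LL_bij h1 h2 (H.cliffL_d0 H.P _) (T := o.m.adW y.cfg.W)
    (fun a x => Wz78.SA.clm Wz78.adcL (c.cc.sm a x)) (fun a x => Wz78.adc_skw (c.sk a x))
    (Real.sqrt_nonneg (∑ a, ‖L a‖ ^ 2))
    (fun u => ?_) (j := k + 1) ((injective_iff_map_eq_zero _).2 fun x hx => ?_) k)
  · rw [Real.sq_sqrt (by positivity), Finset.sum_mul]
    refine Finset.sum_le_sum fun a _ => ?_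
    have := n2_clm_le (μ := (Fs y.t).μ) (Fs y.t).sm (L a) 0 (LS h2 u).2.1
      (FL_of_hcs 0 (LS h2 u).2.1 (LS h2 u).2.2.1)
    exact (congrArg (N2 _ 0) (funext fun x =>
      (neg_eq_iff_eq_neg.2 (h.fa_d0 hk hd u x a)).symm)).trans_le this
  · obtain ⟨ξ, rfl⟩ := (chg (k + 2) o.Pg H.cmp).surjective x
    have e := (chg (k + 1) _ H.cmp).injective
      (((H.toTw.chg_LH N ξ).trans hx).trans (map_zero _).symm)
    exact (congrArg _ (hi ((sC_inj h.toOK y.ht (((DFunLike.congr_fun (h.sC_d hk hd) ξ).trans e).trans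
      (map_zero _).symm) (hd.z ξ)).trans (map_zero D).symm))).trans (map_zero _)

variable [FiniteDimensional ℝ T] (he : Aff o Fs r n m e) (hk : 7 ≤ k) (y : Pnt o r)
  (hF : ∀ f : o.C r k → o.Y n m k, RepF e f → Fr ((fderiv ℝ f (y.pt k)).prod (sig Fs k y)) d)
include he hF

theorem slc_gm1 [o.B0] (hy : Nk89.Hdy 𝔉.F0) (hy' : Nk89.Hdy (Fs y.t))
    (Al : (M → CL o.m.V o.m.V) → Circle → Prop)
    (h1 : ∀ w, dif o w ∈ Mod61.Hs 𝔉.F0.toPre (Ph o) → Al w 1)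
    (h2 : ∀ w c, Al w c → MEq I o.m o.m 𝔉.Om id (fun x b a => 𝔉.B.P b a x) 𝔉.B.l w →
      c = 1 ∧ dif o w ∈ Mod61.Hs 𝔉.F0.toPre (Ph o)) :
    (gm1 o h.toOK hk r hy Al h1 h2).Slc e d y := by
  have := h.slc_of he hk (gm1 o h.toOK hk r hy Al h1 h2) y (K := PUnit)
    (ContinuousLinearEquiv.prodUnique ℝ (𝔉.F0.H k o.Pg) PUnit :) (fun hf => ?_) hF
  · rwa [finrank_zero_of_subsingleton, Nat.cast_zero, sub_zero] at this
  obtain ⟨D, s, e, -⟩ := gm1_slice o h.toOK hk r hy Al h1 h2 hf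
    ((gm1 o h.toOK hk r hy Al h1 h2).proper y y) (sig Fs k y)
    (h.sig_bij_hdy (by omega) hy' (isD_ga h.toOK hk y) (gm1_inj o h.toOK hk r hy Al h1 h2 hf))
  exact ⟨0, D, e, s.nh, s.du, s.dζ⟩

theorem slc_gmC [o.B0] [CompactSpace M] (h0 : o.Φ0 = 0) (hne : 𝔉.Om'.Nonempty ∨ r ≠ 0) :
    (gmC o h.toOK hk r h0).Slc e (d - 1) y := by
  have := h.slc_of he hk (gmC o h.toOK hk r h0) y (K := ℝ) (.refl ℝ _) (fun hf => ?_) hF
  · simpa using this
  obtain ⟨l, D, s, e, -⟩ := gmC_slice o h.toOK hk r h0 hne hf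
    ((gmC o h.toOK hk r h0).proper y y) (sig Fs k y)
    (h.sig_bij (by omega) (isD_ga h.toOK hk y) (gmC_inj o h.toOK hk r h0 hf))
  exact ⟨l, D, e, s.nh, s.du, s.dζ⟩

end Adj

/-! ### ends: `Slc` from the index of `Nk89` -/

section
variable [FiniteDimensional ℝ T] (h : 𝔉.OK) (hk : 7 ≤ k) (y : Pnt o r)

/-- **`Slc` on a manifold with ends** -/
theorem slc_gmE [o.B0] (hy : Nk89.Hdy 𝔉.F0) (he : Aff o (Nk89.Fs 𝔉) r n m e)
    (hI : Nk89.Idx k e y d) :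
    (gmE o h hk r hy).Slc e (d + 2 * r + finrank ℝ T - 2 * n - m) y :=
  (adj_rem h).slc_gm1 he hk y (fun _ hf => hI.slc h (by omega) hf) hy (hdy_rem h hy y.ht) _ _ _

variable [CompactSpace M]

/-- the index of the gauge fixed linearisation on a closed manifold (`= Idg99.ind ..` by `rfl`) -/
def n0 (y : Pnt o r) : ℤ :=
  (finrank ℝ (kerS (𝔉.G y.t).F ((bd o).full (𝔉.G y.t).F (uy y))) : ℤ) -
    finrank ℝ (kerS (𝔉.G y.t).F (((bd o).full (𝔉.G y.t).F (uy y)).adj (𝔉.G y.t).F))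

omit [FiniteDimensional ℝ T] in
include h in
theorem fr_n0 (k : ℕ) : Fr (((bd o).full (𝔉.G y.t).F (uy y)).H (𝔉.G y.t).F k) (n0 y) :=
  have H := (adj_closed h).hy o y.ht
  let ⟨_, h1, h2⟩ := H.toTw.good (H.nc_full (cb_uy h y))
  Ell97.fr h1 h2 (H.cliff_full H.P _) k

/-- **`Slc` on a closed manifold, without the circle** -/
theorem slc_gmA [o.B0] (he : Aff o (fun t => (𝔉.G t).F) r n m e) :
    (gmA o h hk r).Slc e (n0 y + 2 * r + finrank ℝ T - 2 * n - m) y :=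
  (adj_closed h).slc_gm1 he hk y (fun _ => (adj_closed h).fred he hk y (fr_n0 h y k)) _
    (Nk89.hdy_compact _) _ _ _

/-- **`Slc` on a closed manifold, with the circle** -/
theorem slc_gmC [o.B0] (h0 : o.Φ0 = 0) (hne : 𝔉.Om'.Nonempty ∨ r ≠ 0)
    (he : Aff o (fun t => (𝔉.G t).F) r n m e) :
    (gmC o h hk r h0).Slc e (n0 y + 2 * r + finrank ℝ T - 2 * n - m - 1) y :=
  (adj_closed h).slc_gmC he hk y (fun _ => (adj_closed h).fred he hk y (fr_n0 h y k)) h0 hne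

end

end Crest.Agent.X212.Map77
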