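import Crest.Agent.X212.Map77.Fin
import Crest.Agent.X212.Idg99.Md

/-! The index `n0` on a closed manifold as an integral. -/

set_option autoImplicit false
set_option linter.unusedSectionVars false
noncomputable section
open scoped Manifold ContDiff Topology InnerProductSpace
open MeasureTheory Set Function Filter Module

namespace Crest.Agent.X212.Map77
open An Mod61 Idg99 Ind95

variable {E : Type} [NormedAddCommGroup E] [NormedSpace ℝ E] [FiniteDimensional ℝ E]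
  [MeasurableSpace E] [BorelSpace E]
  {HM : Type} [TopologicalSpace HM] {I : ModelWithCorners ℝ E HM} [I.Boundaryless]
  {M : Type} [TopologicalSpace M] [ChartedSpace HM M] [IsManifold I ∞ M]
  [MeasurableSpace M] [T2Space M] [BorelSpace M] [SecondCountableTopology M] [CompactSpace M]
  {ι : Type} [Fintype ι] {lam : Type} [Fintype lam]
  {T : Type} [NormedAddCommGroup T] [NormedSpace ℝ T] {𝔉 : Fam I M ι lam T} {o : Ref 𝔉} {r : ℕ}

theorem n0_ind (y : Pnt o r) : n0 y = ind (𝔉.G y.t).F ((bd o).full (𝔉.G y.t).F (uy y)) := rfl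

/-- **the index formula** -/
theorem n0_eq (h : 𝔉.OK) (h4 : finrank ℝ E = 4) (y : Pnt o r) : (n0 y : ℝ) =
    ∫ x in 𝔉.Om, (8 * o.m.kd 𝔉.B (𝔉.G y.t).F y.cfg.W x
      - 3 * (eud (𝔉.G y.t).F 𝔉.B.o x + sgd (𝔉.G y.t).F 𝔉.B.o x) / 2) ∂(𝔉.G y.t).F.μ
    + ∫ x in 𝔉.Om', (lad 𝔉.B (𝔉.G y.t) x / 2 - 2 * o.m.kd 𝔉.B (𝔉.G y.t).F y.cfg.W x
      - sgd (𝔉.G y.t).F 𝔉.B.o x / 2) ∂(𝔉.G y.t).F.μ :=
  ind_md h.B (h.G _ y.ht) o.ok (y.ad0 h).conn h4 h.Om h.Om' (ok_bd o h) rfl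
    (cb_uy h y).choose_spec.1

end Crest.Agent.X212.Map77
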