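import Crest.Agent.X212.Map77.Qm
import Crest.Agent.X212.Mod61.Fmt
import Crest.Agent.X212.Std94.Smo
import Crest.Agent.X212.Eqv71.Res
import Crest.Agent.X212.Wz78.Gw

/-! The bundles, frames and coordinates of a reference object. -/

set_option autoImplicit false
set_option linter.unusedSectionVars false
noncomputable section
open scoped Manifold ContDiff Topology InnerProductSpace
open MeasureTheory Set Function Filter

namespace Crest.Agent.X212.Map77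
open An An.Pre Sob92 Ell97 Prm93 Fred93 Mod61

variable {E : Type} [NormedAddCommGroup E] [NormedSpace ℝ E] [FiniteDimensional ℝ E]
  [MeasurableSpace E] [BorelSpace E]
  {HM : Type} [TopologicalSpace HM] {I : ModelWithCorners ℝ E HM} [I.Boundaryless]
  {M : Type} [TopologicalSpace M] [ChartedSpace HM M] [IsManifold I ∞ M]
  [MeasurableSpace M] [T2Space M] [BorelSpace M] [SecondCountableTopology M]
  {ι : Type} [Fintype ι] {lam : Type} [Fintype lam]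
  {T : Type} [NormedAddCommGroup T] [NormedSpace ℝ T] {𝔉 : Fam I M ι lam T} {j k : ℕ}

section hs
variable {V : Type} [NormedAddCommGroup V] [InnerProductSpace ℝ V] [CompleteSpace V]
  {F : Fr I M ι} {p : M → V →L[ℝ] V} {u : M → V} {S : ℝ}

theorem incl_ofV (hS : Sup F.toPre S) (hu : u ∈ Mod61.Hs F.toPre p) (hj : 4 ≤ j) (hk : j ≤ k) :
    F.incl k j p (ofV F.toPre k p u) = ofV F.toPre j p u :=
  val_injective hS hj (by rw [val_incl hS hj hk, val_ofV hu hj, val_ofV hu (hj.trans hk)])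

theorem cb_hs (hS : Sup F.toPre S) (hu : u ∈ Mod61.Hs F.toPre p) : F.Cb u :=
  val_ofV hu le_rfl ▸ Cb_val hS le_rfl fun _ hj => ⟨_, incl_ofV hS hu le_rfl hj⟩

theorem proj_hs (hS : Sup F.toPre S) (hu : u ∈ Mod61.Hs F.toPre p) (x : M) : p x (u x) = u x :=
  val_ofV hu le_rfl ▸ val_proj hS le_rfl _ x

theorem sec_hs (hS : Sup F.toPre S) (s : Sec I p) : s.1 ∈ Mod61.Hs F.toPre p :=
  fun _ hk => ⟨_, val_toH hS hk s⟩

theorem ofV_sec (hS : Sup F.toPre S) (hk : 4 ≤ k) (s : Sec I p) :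
    ofV F.toPre k p s.1 = F.toH k p s :=
  val_injective hS hk (by rw [val_ofV (sec_hs hS s) hk, val_toH hS hk])

theorem prj_ind (O : Set M) (h : Prj p) : Prj (O.indicator p) := by
  refine ⟨fun x v => ?_, fun x v w => ?_⟩ <;> by_cases hx : x ∈ O <;> simp [hx, h.idem, h.symm]

end hs

/-- a family of frames for the adjoint: the frame of `G t` with some measure -/
structure Adj (𝔉 : Fam I M ι lam T) (Fs : T → Fr I M ι) : Prop extends 𝔉.OK where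
  e : ∀ t ∈ 𝔉.Q, (Fs t).e = (𝔉.G t).F.e
  c : ∀ t ∈ 𝔉.Q, (Fs t).c = (𝔉.G t).F.c
  P : ∀ t ∈ 𝔉.Q, (Fs t).P = 𝔉.B.P
  tw : ∀ t ∈ 𝔉.Q, Tw 𝔉.F0 (Fs t)
  dv : ∀ a, SB 𝔉.F0.toPre 𝔉.Q fun t => (Fs t).dv a

theorem adj_closed [CompactSpace M] (h : 𝔉.OK) : Adj 𝔉 fun t => (𝔉.G t).F :=
  ⟨h, fun _ _ => rfl, fun _ _ => rfl, fun t ht => (h.G t ht).P,
    fun t ht => ⟨h.tame, h.tameG t ht, cmp_compact _ _⟩, h.sdv⟩

theorem cb_P (h : 𝔉.OK) (a b : ι) : 𝔉.F0.Cb (𝔉.B.P a b) := h.P0 ▸ ⟨_, h.tame.choose_spec.P a b⟩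

theorem mix_inv (h : 𝔉.OK) {t : T} (ht : t ∈ 𝔉.Q) :
    Mix (𝔉.G t).F.toPre 𝔉.F0.toPre fun a b x => 𝔉.Si t x a b := fun a x => by
  simp only [h.mix t ht _ x, Finset.smul_sum, smul_smul]
  rw [Finset.sum_comm]
  simp only [← Finset.sum_smul, h.SiS t ht, ← h.P0, 𝔉.F0.P_e]

/-- the frame of `G t` with the measure of `F0` -/
theorem adj_rem (h : 𝔉.OK) : Adj 𝔉 fun t => rem (𝔉.G t).F 𝔉.F0.toPre :=
  ⟨h, fun _ _ => rfl, fun _ _ => rfl, fun t ht => (h.G t ht).P, fun t ht => ⟨h.tame,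
    tame_rem h.tame.choose_spec (h.mix t ht) (fun a b => (h.sS a b).cb t ht) (mix_inv h ht)
      (fun a b => (h.sSi a b).cb t ht) (fun a b => (h.G t ht).P ▸ cb_P h a b)
      fun a b c => (h.sc a b c).cb t ht,
    cmp_rem (h.mix t ht) (fun a b => (h.sS a b).cb t ht) (mix_inv h ht)
      fun a b => (h.sSi a b).cb t ht⟩,
    fun a => (SB.sum fun b => ((h.sS a b).D b).add ((h.sS a b).smul
      (SB.fixed ⟨_, h.tame.choose_spec.dv b⟩))).congr fun t ht =>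
        rem_dv (h.mix t ht) (fun a b => ((h.sS a b).cb t ht).choose_spec.1) a⟩

variable (o : Ref 𝔉)

/-- the bundles of a reference object -/
abbrev bd : Bd M ι (Fin o.m.N) := ⟨𝔉.B.P, 𝔉.B.o, o.m.ρ, o.Pg, o.P1, o.P2, o.Pp, o.Pm⟩

/-- the base configuration -/
def u0 (t : T) : M → Cf ι (Fin o.m.N) := base (𝔉.W0 o.m (o.A t) t) o.Φ0

/-- a matrix acting on the form part -/
def SC (S : M → ι → ι → ℝ) (x : M) : CL (Cf ι (Fin o.m.N)) (Cf ι (Fin o.m.N)) :=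
  sm2 (idx (S x) (ContinuousLinearMap.id ℝ o.m.A)) (ContinuousLinearMap.id ℝ o.m.V)

theorem ok_bd (h : 𝔉.OK) : (bd o).OK := by
  have ap : ∀ {S S' : En (Fin o.m.N)}, S = S' → ∀ v, S v = S' v := fun e v => by rw [e]
  have H := o.ok
  have hB := h.B
  refine ⟨fun x => ⟨hB.pr x, hB.rk x, fun a b c d => hB.o12 a b c d x,
      fun a b c d => hB.o23 a b c d x, fun a b c d => hB.o34 a b c d x,
      fun a b c d => hB.oP a b c d x, hB.onm x⟩, prj_ind _ ⟨Wz78.pg_pg, Wz78.inner_pg⟩,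
    fun _ => rfl, fun _ => rfl, prj_ind _ ⟨fun x => ap (Wz78.pp_pp hB H x), Wz78.pp_sym hB H⟩,
    prj_ind _ ⟨fun x => ap (Wz78.pm_pm hB H x), Wz78.pm_sym hB H⟩, H.ρsk,
    fun a x => (H.cl x).proj a, fun a b x v => ?_, fun a b x v => ?_, fun a x v => ?_,
    fun a x v => ?_⟩ <;> by_cases hx : x ∈ 𝔉.Om' <;>
    simp only [Ref.Pp, Ref.Pm, indicator_of_mem, indicator_of_notMem, hx, not_false_eq_true,
      _root_.zero_apply, map_zero, add_zero, smul_zero]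
  · exact (ap ((H.cl x).rel a b) _).trans
      (congrArg ((-2 * 𝔉.B.P a b x) • ·) (ap (Wz78.p_pp H x) v))
  · exact (ap ((H.cl x).rel a b) _).trans
      (congrArg ((-2 * 𝔉.B.P a b x) • ·) (ap (Wz78.p_pm H x) v))
  · exact (ap (Wz78.pm_rho hB H a x) _).trans
      (congrArg (o.m.ρ a x) (ap (Wz78.pp_pp hB H x) v))
  · exact (ap (Wz78.pp_rho hB H a x) _).trans
      (congrArg (o.m.ρ a x) (ap (Wz78.pm_pm hB H x) v))

theorem dat (h : 𝔉.OK) : Std94.Kl.Dat (Std94.cbK 𝔉.F0.toPre) 𝔉.B o.m id :=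
  ⟨cb_P h, h.co, o.cp, o.cρ, o.cj⟩

theorem cb_Pg (h : 𝔉.OK) : 𝔉.F0.Cb o.Pg :=
  Eqv71.Cb_ind h.Om ((dat o h).pg h.B (Std94.pmx o.ok))
theorem cb_P1 (h : 𝔉.OK) : 𝔉.F0.Cb o.P1 :=
  Std94.Kl.idx (K := Std94.cbK 𝔉.F0.toPre) (cb_P h) (cb_Pg o h)
theorem cb_P2 (h : 𝔉.OK) : 𝔉.F0.Cb o.P2 :=
  Std94.Kl.idx (K := Std94.cbK 𝔉.F0.toPre) (dat o h).sd (cb_Pg o h)
theorem cb_Pp (h : 𝔉.OK) : 𝔉.F0.Cb o.Pp := Eqv71.Cb_ind h.Om' (dat o h).pp
theorem cb_Pm (h : 𝔉.OK) : 𝔉.F0.Cb o.Pm := Eqv71.Cb_ind h.Om' (dat o h).pm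

theorem sup0 (h : 𝔉.OK) : Sup 𝔉.F0.toPre (h.tame.choose 0) := Sup.of_tame h.tame.choose_spec

theorem mem_g {x : M} {ξ : o.m.A} (h : o.Pg x ξ = ξ) : ξ ∈ o.m.gS x := by
  by_cases hx : x ∈ 𝔉.Om
  · rw [← h, Ref.Pg, indicator_of_mem hx]; exact Wz78.pg_mem x ξ
  · rw [← h, Ref.Pg, indicator_of_notMem hx]; exact Submodule.zero_mem _

theorem maps_SC (h : 𝔉.OK) {S : M → ι → ι → ℝ}
    (hS : ∀ x a b, ∑ c, 𝔉.B.P a c x * S x c b = S x a b) :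
    Maps (bd o).pC (bd o).pC (SC o S) := fun x v hv => by
  have H := ok_bd o h
  have h1 : o.P1 x (fa v) = fa v := maps_f2 x v hv
  have h2 : o.Pp x (fp v) = fp v := maps_s2 x v hv
  refine ext2 ?_ (by simpa [SC] using h2)
  simp only [f2_ps, SC, f2_sm2]
  refine H.p1_fix x (fun a => ?_) fun a => ?_
  · have : ∀ b, o.Pg x (fa v b) = fa v b := fun b => h1 ▸ H.g_p1 x _ b
    simp only [idx_apply, map_sum, map_smul, ContinuousLinearMap.id_apply, this]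
  · simp only [idx_apply, Finset.smul_sum, smul_smul]
    rw [Finset.sum_comm]
    simp only [← Finset.sum_smul, hS]

theorem SC_SC (h : 𝔉.OK) {S S' : M → ι → ι → ℝ}
    (hS : ∀ x a b, ∑ c, S x a c * S' x c b = 𝔉.B.P a b x) (x : M) (v : Cf ι (Fin o.m.N))
    (hv : (bd o).pC x v = v) : SC o S x (SC o S' x v) = v := by
  have h1 : o.P1 x (fa v) = fa v := maps_f2 x v hv
  refine ext2 (fm_ext fun a => ?_) (by simp [SC])
  simp only [SC, f2_sm2, idx_idx, idx_apply, hS, ContinuousLinearMap.comp_apply,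
    ContinuousLinearMap.id_apply]
  rw [← h1]
  exact (ok_bd o h).P_p1 x _ a

theorem sb_SC {S : T → M → ι → ι → ℝ} (hS : ∀ a b, SB 𝔉.F0.toPre 𝔉.Q fun t x => S t x a b) :
    SB 𝔉.F0.toPre 𝔉.Q fun t => SC o (S t) := by
  classical
  let K := sb (G := fun _ : T => 𝔉.F0.toPre) (A := fun a b _ _ => if a = b then 1 else 0)
    𝔉.F0.toPre (O := 𝔉.Q) (fun _ _ a x => by simp) fun a b => SB.fixed (Cb_const _)
  exact Cls.pr2 (K := K) (Cls.comp (Cls.idx hS (K.const _)) (K.const _)) (K.const _)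

theorem sb_u0 (h : 𝔉.OK) : SB 𝔉.F0.toPre 𝔉.Q (u0 o) := by
  let K := sb (G := fun t => (𝔉.G t).F.toPre) 𝔉.F0.toPre h.mix h.sS
  exact Cls.base (K := K) (fun a => ((SB.sum fun b => (h.sS a b).smul
    ((o.sbA b).mono (subset_univ _))).add
    (SB.sum fun b => SB.sum fun c => (h.scf a b c).smul
      ((SB.fixed (o.cρ b)).mul (SB.fixed (o.cρ c))))).add
    ((h.sla a).smul ((SB.fixed (Cb_const o.m.J)).mul (SB.fixed o.cp)))) (SB.fixed o.cΦ)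

variable (k) in
/-- the coordinates of the family on Sobolev spaces -/
def SH (S : M → ι → ι → ℝ) : 𝔉.F0.H k (bd o).pC →L[ℝ] 𝔉.F0.H k (bd o).pC :=
  𝔉.F0.mulH k _ _ (SC o S)

theorem rep_SH (h : 𝔉.OK) {t : T} (ht : t ∈ 𝔉.Q) :
    𝔉.F0.Rep (SH k o (𝔉.S t)) fun u x => SC o (𝔉.S t) x (u x) :=
  rep_mulH ((sb_SC o h.sS).cb t ht) (maps_SC o h (h.PS t ht))

theorem rep_SH' (h : 𝔉.OK) {t : T} (ht : t ∈ 𝔉.Q) :
    𝔉.F0.Rep (SH k o (𝔉.Si t)) fun u x => SC o (𝔉.Si t) x (u x) :=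
  rep_mulH ((sb_SC o h.sSi).cb t ht) (maps_SC o h (h.PSi t ht))

variable (k) in
/-- the coordinates as an isomorphism -/
def SE (h : 𝔉.OK) {t : T} (ht : t ∈ 𝔉.Q) : 𝔉.F0.H k (bd o).pC ≃L[ℝ] 𝔉.F0.H k (bd o).pC :=
  ContinuousLinearEquiv.equivOfInverse (SH k o (𝔉.S t)) (SH k o (𝔉.Si t))
    (DFunLike.congr_fun (RepT_eq (RepT_comp (rep_SH' o h ht) (rep_SH o h ht)) Rep_id
      fun u => funext fun x => SC_SC o h (h.SiS t ht) x _ (u.2.2.2 x)))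
    (DFunLike.congr_fun (RepT_eq (RepT_comp (rep_SH o h ht) (rep_SH' o h ht)) Rep_id
      fun u => funext fun x => SC_SC o h (h.SSi t ht) x _ (u.2.2.2 x)))

theorem sm_SH (h : 𝔉.OK) : ContDiffOn ℝ ∞ (fun t => SH k o (𝔉.S t)) 𝔉.Q :=
  (sb_SC o h.sS).mulH (Cb_ps (cb_P1 o h) (cb_Pp o h)) (ok_bd o h).prjC.idem
    fun t ht => maps_SC o h (h.PS t ht)

namespace Adj
variable {Fs : T → Fr I M ι} (h : Adj 𝔉 Fs) {t : T}
include h

theorem hy (ht : t ∈ 𝔉.Q) : (bd o).Hy 𝔉.F0 (Fs t) :=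
  ⟨h.tw t ht, ok_bd o h.toOK, h.P t ht, cb_P h.toOK, o.cρ, cb_Pg o h.toOK, cb_P1 o h.toOK,
    cb_P2 o h.toOK, cb_Pp o h.toOK, cb_Pm o h.toOK⟩

theorem mx (t : T) (ht : t ∈ 𝔉.Q) : Mix 𝔉.F0.toPre (Fs t).toPre fun a b x => 𝔉.S t x a b :=
  fun a x => h.e t ht ▸ h.mix t ht a x

/-- the class of smooth families -/
abbrev K : Cls fun t => (Fs t).toPre := sb 𝔉.F0.toPre h.mx h.sS

theorem inK : (bd o).In h.K :=
  ⟨fun a b => SB.fixed (cb_P h.toOK a b), fun a => SB.fixed (o.cρ a), SB.fixed (cb_Pg o h.toOK),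
    SB.fixed (cb_P1 o h.toOK), SB.fixed (cb_P2 o h.toOK), SB.fixed (cb_Pp o h.toOK),
    SB.fixed (cb_Pm o h.toOK)⟩

variable {u : T → M → Cf ι (Fin o.m.N)}

theorem sm_LL (hu : SB 𝔉.F0.toPre 𝔉.Q u) :
    ContDiffOn ℝ ∞ (fun t => (bd o).LL 𝔉.F0.toPre (Fs t) k (u t)) 𝔉.Q :=
  sm_LH ((h.inK o).lin (fun a b c => (h.sc a b c).congr fun t ht => by rw [h.c t ht]) hu)
    (Cb_ps (cb_Pm o h.toOK) (cb_P2 o h.toOK)) (fun _ => rfl)
    (fun _ => (ok_bd o h.toOK).alg_lin _) (ok_bd o h.toOK).prjE k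

theorem sm_RR (hu : SB 𝔉.F0.toPre 𝔉.Q u) :
    ContDiffOn ℝ ∞ (fun t => (bd o).RR 𝔉.F0.toPre (Fs t) k (u t)) 𝔉.Q :=
  sm_LH (((h.inK o).d0 hu).adj h.dv) (cb_Pg o h.toOK) (fun _ => rfl)
    (fun _ => ((ok_bd o h.toOK).alg_d0 _).adj _) (ok_bd o h.toOK).g k

end Adj

end Crest.Agent.X212.Map77
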