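import Crest.Agent.X212.Map77.Vol
import Crest.Agent.X212.An.Gauge

/-! Pointwise algebra of forms with values in an inner product space: the projectors onto
one-forms and self-dual two-forms, the symbol of `d⁺` and its transpose. -/

set_option autoImplicit false
set_option linter.unusedSectionVars false
noncomputable section
open scoped InnerProductSpace
open Finset

namespace Crest.Agent.X212.Map77
open An Wz78

section pi
variable {α X Y : Type} [Fintype α] [NormedAddCommGroup X] [InnerProductSpace ℝ X]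
  [NormedAddCommGroup Y] [NormedSpace ℝ Y]

variable (X) in
/-- a component -/
def pj (a : α) : CL (Fm α X) X := PiLp.proj 2 (fun _ : α => X) a

/-- a family of maps as a map to tensors -/
def tp (f : α → Y →L[ℝ] X) : CL Y (Fm α X) :=
  (PiLp.continuousLinearEquiv 2 ℝ fun _ : α => X).symm.toContinuousLinearMap ∘L
    ContinuousLinearMap.pi f

@[simp] theorem pj_apply (a : α) (v : Fm α X) : pj X a v = v a := rfl
@[simp] theorem tp_apply (f : α → Y →L[ℝ] X) (y : Y) (a : α) : tp f y a = f a y := rfl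

theorem idx_apply (S : α → α → ℝ) (T : X →L[ℝ] X) (v : Fm α X) (a : α) :
    idx S T v a = ∑ b, S a b • T (v b) := by
  simp [idx]

theorem inner_fm (u v : Fm α X) : ⟪u, v⟫_ℝ = ∑ a, ⟪u a, v a⟫_ℝ := PiLp.inner_apply u v

theorem fm_ext {u v : Fm α X} (h : ∀ a, u a = v a) : u = v := PiLp.ext h

open Classical in
variable (X) in
/-- inclusion of a component -/
def ij (a : α) : CL X (Fm α X) := tp fun b => if b = a then ContinuousLinearMap.id ℝ X else 0

theorem tp_eq (f : α → Y →L[ℝ] X) : tp f = ∑ a, (ij X a).comp (f a) := by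
  classical
  ext y b
  simp only [tp_apply, _root_.sum_apply, WithLp.ofLp_sum, Finset.sum_apply,
    ContinuousLinearMap.comp_apply, ij]
  rw [sum_eq_single b (fun a _ h => by simp [h.symm]) (by simp)]
  simp

theorem idx_eq (S : α → α → ℝ) (T : X →L[ℝ] X) :
    idx S T = tp fun a => ∑ b, S a b • T.comp (pj X b) := rfl

theorem idx_idx (S S' : α → α → ℝ) (T T' : X →L[ℝ] X) (v : Fm α X) :
    idx S T (idx S' T' v) = idx (fun a c => ∑ b, S a b * S' b c) (T.comp T') v := by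
  refine fm_ext fun a => ?_
  simp only [idx_apply, map_sum, map_smul, smul_sum, smul_smul, sum_smul,
    ContinuousLinearMap.comp_apply]
  exact sum_comm

theorem idx_symm {S : α → α → ℝ} {T : X →L[ℝ] X} (hS : ∀ a b, S a b = S b a)
    (hT : ∀ v w, ⟪T v, w⟫_ℝ = ⟪v, T w⟫_ℝ) (u v : Fm α X) :
    ⟪idx S T u, v⟫_ℝ = ⟪u, idx S T v⟫_ℝ := by
  simp only [inner_fm, idx_apply, sum_inner, inner_sum, real_inner_smul_left,
    real_inner_smul_right, hT]
  rw [sum_comm]
  exact sum_congr rfl fun a _ => sum_congr rfl fun b _ => by rw [hS]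

theorem idx_idem {S : α → α → ℝ} {T : X →L[ℝ] X} (hS : ∀ a c, ∑ b, S a b * S b c = S a c)
    (hT : ∀ v, T (T v) = T v) (v : Fm α X) : idx S T (idx S T v) = idx S T v := by
  rw [idx_idx]
  exact fm_ext fun a => by simp only [idx_apply, hS, ContinuousLinearMap.comp_apply, hT]

theorem T_idx {S : α → α → ℝ} {T : X →L[ℝ] X} (hT : ∀ v, T (T v) = T v) (v : Fm α X) (a : α) :
    T (idx S T v a) = idx S T v a := by
  simp only [idx_apply, map_sum, map_smul, hT]

end pi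

variable {ι : Type} [Fintype ι] {P : ι → ι → ℝ} {o : ι → ι → ι → ι → ℝ}
  {X : Type} [NormedAddCommGroup X] [InnerProductSpace ℝ X]

/-- the matrix of the projector onto self-dual forms -/
def sdm (P : ι → ι → ℝ) (o : ι → ι → ι → ι → ℝ) (s t : ι × ι) : ℝ :=
  ((P s.1 t.1 * P s.2 t.2 - P s.1 t.2 * P s.2 t.1) / 2 + o s.1 s.2 t.1 t.2 / 2) / 2

/-- self-dual two-forms -/
structure SD (P : ι → ι → ℝ) (o : ι → ι → ι → ι → ℝ) (ω : ι × ι → X) : Prop where
  anti : ∀ a b, ω (a, b) = -ω (b, a)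
  pr : ∀ a b, ∑ k, P a k • ω (k, b) = ω (a, b)
  st : ∀ a b, ∑ c, ∑ d, o a b c d • ω (c, d) = (2 : ℝ) • ω (a, b)

theorem SD.pr' {ω : ι × ι → X} (h : SD P o ω) (a b : ι) : ∑ k, P b k • ω (a, k) = ω (a, b) := by
  rw [h.anti a b, ← h.pr b a, ← sum_neg_distrib]
  exact sum_congr rfl fun k _ => by rw [h.anti a k, smul_neg]

namespace Vol
variable (h : Vol P o)
include h

theorem sdm_symm (s t : ι × ι) : sdm P o s t = sdm P o t s := by
  simp only [sdm, h.swap s.1, h.pr.symm s.1, h.pr.symm s.2]; ring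

theorem sdm_anti (a b : ι) (t : ι × ι) : sdm P o (a, b) t = -sdm P o (b, a) t := by
  simp only [sdm, h.a1 a b]; ring

theorem sdm_pr (a b : ι) (t : ι × ι) : ∑ k, P a k * sdm P o (k, b) t = sdm P o (a, b) t := by
  simp only [sdm, ← h.po a b, ← h.pr.idem a t.1, ← h.pr.idem a t.2, sum_mul, sum_div,
    ← sum_sub_distrib, ← sum_add_distrib]
  exact sum_congr rfl fun k _ => by ring

theorem oPP (a b e f : ι) : ∑ c, ∑ d, o a b c d * (P c e * P d f) = o a b e f := by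
  rw [← h.po3 a b e f]
  refine sum_congr rfl fun c _ => ?_
  rw [← h.po4 a b c f, mul_sum]
  exact sum_congr rfl fun d _ => by rw [h.pr.symm c, h.pr.symm d]; ring

theorem sdm_st (a b : ι) (t : ι × ι) :
    ∑ c, ∑ d, o a b c d * sdm P o (c, d) t = 2 * sdm P o (a, b) t := by
  have e1 := h.oPP a b t.1 t.2
  have e2 := h.oPP a b t.2 t.1
  have e3 := h.i2 a b t.1 t.2
  have e4 : ∑ c, ∑ d, o a b c d * sdm P o (c, d) t =
      ((∑ c, ∑ d, o a b c d * (P c t.1 * P d t.2)) - (∑ c, ∑ d, o a b c d * (P c t.2 * P d t.1))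
        + ∑ c, ∑ d, o a b c d * o t.1 t.2 c d) / 4 := by
    simp only [sdm, sum_div, ← sum_sub_distrib, ← sum_add_distrib]
    exact sum_congr rfl fun c _ => sum_congr rfl fun d _ => by rw [h.swap c d]; ring
  rw [e4, e1, e2, e3, h.a3 a b t.2 t.1, sdm]; ring

theorem sd_idx (T : X →L[ℝ] X) (v : Fm (ι × ι) X) : SD P o (idx (sdm P o) T v) := by
  refine ⟨fun a b => ?_, fun a b => ?_, fun a b => ?_⟩
  · simp only [idx_apply, h.sdm_anti a b, neg_smul, sum_neg_distrib]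
  · simp only [idx_apply, smul_sum, smul_smul, ← h.sdm_pr a b, sum_smul]
    exact sum_comm
  · simp only [idx_apply, smul_sum, smul_smul, ← h.sdm_st a b, sum_smul]
    rw [sum_comm (s := univ (α := ι × ι))]
    exact sum_congr rfl fun c _ => sum_comm

omit h in
theorem _root_.Crest.Agent.X212.Map77.SD.PP {ω : ι × ι → X} (hω : SD P o ω) (a b : ι) :
    ∑ c, ∑ d, (P a c * P b d) • ω (c, d) = ω (a, b) := by
  rw [← hω.pr a b]
  refine sum_congr rfl fun c _ => ?_
  rw [← hω.pr' c b, smul_sum]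
  exact sum_congr rfl fun d _ => by rw [smul_smul]

omit h in
theorem _root_.Crest.Agent.X212.Map77.SD.fix {ω : ι × ι → X} (hω : SD P o ω) (s : ι × ι) :
    ∑ t, sdm P o s t • ω t = ω s := by
  obtain ⟨a, b⟩ := s
  have e2 : ∑ c, ∑ d, (P a d * P b c) • ω (c, d) = -ω (a, b) := by
    rw [sum_comm, ← hω.PP a b, ← sum_neg_distrib]
    refine sum_congr rfl fun c _ => ?_
    rw [← sum_neg_distrib]
    exact sum_congr rfl fun d _ => by rw [hω.anti d c, smul_neg]
  have e4 : ∑ t, sdm P o (a, b) t • ω t = (1 / 4 : ℝ) • ((∑ c, ∑ d, (P a c * P b d) • ω (c, d))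
      - (∑ c, ∑ d, (P a d * P b c) • ω (c, d)) + ∑ c, ∑ d, o a b c d • ω (c, d)) := by
    rw [Fintype.sum_prod_type]
    simp only [sdm, smul_sum, ← sum_sub_distrib, ← sum_add_distrib, ← sub_smul, ← add_smul,
      smul_smul]
    exact sum_congr rfl fun c _ => sum_congr rfl fun d _ => by congr 1; ring
  rw [e4, hω.PP, e2, hω.st]; module

theorem sdm_idem (s t : ι × ι) : ∑ u, sdm P o s u * sdm P o u t = sdm P o s t :=
  SD.fix (X := ℝ) (ω := fun u => sdm P o u t)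
    ⟨fun a b => h.sdm_anti a b t, fun a b => h.sdm_pr a b t, fun a b => h.sdm_st a b t⟩ s

/-- the quaternion identity for self-dual forms -/
theorem quat {ω η : ι × ι → X} (hω : SD P o ω) (hη : SD P o η) (a b : ι) :
    ∑ c, ⟪ω (a, c), η (b, c)⟫_ℝ + ∑ c, ⟪ω (b, c), η (a, c)⟫_ℝ
      = P a b * (∑ s, ⟪ω s, η s⟫_ℝ) / 2 := by
  have hs := h.pr.symm
  have k1 : ∀ (x y : ι) (v : X), ∑ f, ∑ g, P x f * P y g * ⟪v, η (f, g)⟫_ℝ = ⟪v, η (x, y)⟫_ℝ :=
    fun x y v => by
      rw [← hη.PP x y]; simp only [inner_sum, real_inner_smul_right]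
  have k2 : ∀ (x y : ι) (v : X), ∑ f, ∑ g, P x g * P y f * ⟪v, η (f, g)⟫_ℝ = -⟪v, η (x, y)⟫_ℝ :=
    fun x y v => by
      rw [sum_comm, ← k1 x y v, ← sum_neg_distrib]
      refine sum_congr rfl fun f _ => ?_
      rw [← sum_neg_distrib]
      exact sum_congr rfl fun g _ => by rw [hη.anti g f, inner_neg_right]; ring
  have e0 : 4 * ∑ c, ⟪ω (a, c), η (b, c)⟫_ℝ = ∑ d, ∑ e, ∑ f, ∑ g,
      det3 P a d e b f g * ⟪ω (d, e), η (f, g)⟫_ℝ := by
    have : ∀ c, 4 * ⟪ω (a, c), η (b, c)⟫_ℝ = ∑ d, ∑ e, ∑ f, ∑ g,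
        o a d e c * o b f g c * ⟪ω (d, e), η (f, g)⟫_ℝ := fun c => by
      have : 4 * ⟪ω (a, c), η (b, c)⟫_ℝ = ⟪(2 : ℝ) • ω (a, c), (2 : ℝ) • η (b, c)⟫_ℝ := by
        rw [real_inner_smul_left, real_inner_smul_right]; ring
      rw [this, ← hω.st, ← hη.st]
      simp only [sum_inner]
      simp only [inner_sum, real_inner_smul_left, real_inner_smul_right]
      refine sum_congr rfl fun d _ => sum_congr rfl fun e _ => sum_congr rfl fun f _ =>
        sum_congr rfl fun g _ => ?_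
      rw [h.a2 a c d, h.a3 a d c, h.a2 b c f, h.a3 b f c]; ring
    simp only [mul_sum, this, ← h.i3, sum_mul]
    exact (comm41 _).symm
  have e1 : ∀ d e, ∑ f, ∑ g, det3 P a d e b f g * ⟪ω (d, e), η (f, g)⟫_ℝ =
      2 * P a b * ⟪ω (d, e), η (d, e)⟫_ℝ - 2 * (P d b * ⟪ω (d, e), η (a, e)⟫_ℝ)
        + 2 * (P e b * ⟪ω (d, e), η (a, d)⟫_ℝ) := fun d e => by
    have : ∑ f, ∑ g, det3 P a d e b f g * ⟪ω (d, e), η (f, g)⟫_ℝ =
        P a b * (∑ f, ∑ g, P d f * P e g * ⟪ω (d, e), η (f, g)⟫_ℝ)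
        - P a b * (∑ f, ∑ g, P d g * P e f * ⟪ω (d, e), η (f, g)⟫_ℝ)
        - P d b * (∑ f, ∑ g, P a f * P e g * ⟪ω (d, e), η (f, g)⟫_ℝ)
        + P e b * (∑ f, ∑ g, P a f * P d g * ⟪ω (d, e), η (f, g)⟫_ℝ)
        + P d b * (∑ f, ∑ g, P a g * P e f * ⟪ω (d, e), η (f, g)⟫_ℝ)
        - P e b * (∑ f, ∑ g, P a g * P d f * ⟪ω (d, e), η (f, g)⟫_ℝ) := by
      simp only [mul_sum, ← sum_sub_distrib, ← sum_add_distrib, det3]
      exact sum_congr rfl fun f _ => sum_congr rfl fun g _ => by ring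
    rw [this, k1, k2, k1, k1, k2, k2]; ring
  have e2 : ∑ d, ∑ e, P d b * ⟪ω (d, e), η (a, e)⟫_ℝ = ∑ c, ⟪ω (b, c), η (a, c)⟫_ℝ := by
    rw [sum_comm]
    refine sum_congr rfl fun c _ => ?_
    rw [← hω.pr b c]
    simp only [sum_inner, real_inner_smul_left, hs b]
  have e3 : ∑ d, ∑ e, P e b * ⟪ω (d, e), η (a, d)⟫_ℝ = -∑ c, ⟪ω (b, c), η (a, c)⟫_ℝ := by
    rw [← sum_neg_distrib]
    refine sum_congr rfl fun c _ => ?_
    rw [hω.anti b c, ← hω.pr' c b, inner_neg_left, neg_neg]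
    simp only [sum_inner, real_inner_smul_left, hs b]
  simp only [e1, sum_add_distrib, sum_sub_distrib] at e0
  simp only [← mul_sum (a := (2 : ℝ)), ← mul_sum (a := 2 * P a b), e2, e3] at e0
  rw [Fintype.sum_prod_type]
  linarith

end Vol

variable (X) in
/-- `α ↦ e^a ∧ α` -/
def wd2 (P : ι → ι → ℝ) (a : ι) : CL (Fm ι X) (Fm (ι × ι) X) :=
  tp fun s => P s.1 a • pj X s.2 - P s.2 a • pj X s.1

theorem wd2_apply (a : ι) (α : Fm ι X) (s : ι × ι) :
    wd2 X P a α s = P s.1 a • α s.2 - P s.2 a • α s.1 := rfl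

/-- the transpose of the wedge product on self-dual forms -/
theorem inner_wd2 (hP : Pr P) {ω : Fm (ι × ι) X} (hω : SD P o ω) (a : ι) (α : Fm ι X) :
    ⟪wd2 X P a α, ω⟫_ℝ = 2 * ∑ c, ⟪α c, ω (a, c)⟫_ℝ := by
  rw [inner_fm, Fintype.sum_prod_type]
  simp only [wd2_apply, inner_sub_left, real_inner_smul_left, sum_sub_distrib]
  have e1 : ∑ b, ∑ c, P b a * ⟪α c, ω (b, c)⟫_ℝ = ∑ c, ⟪α c, ω (a, c)⟫_ℝ := by
    rw [sum_comm]
    refine sum_congr rfl fun c _ => ?_
    rw [← hω.pr a c]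
    simp only [inner_sum, real_inner_smul_right, hP.symm a]
  have e2 : ∑ b, ∑ c, P c a * ⟪α b, ω (b, c)⟫_ℝ = -∑ c, ⟪α c, ω (a, c)⟫_ℝ := by
    rw [← sum_neg_distrib]
    refine sum_congr rfl fun c _ => ?_
    rw [hω.anti a c, ← hω.pr' c a, inner_neg_right, neg_neg]
    simp only [inner_sum, real_inner_smul_right, hP.symm a]
  rw [e1, e2]; ring

/-- the self-dual part of a wedge product -/
theorem Vol.sd_wd2 (h : Vol P o) {T : X →L[ℝ] X} {β : Fm ι X} (hT : ∀ a, T (β a) = β a)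
    (hβ : ∀ a, ∑ k, P a k • β k = β a) (b a c : ι) :
    (2 : ℝ) • idx (sdm P o) T (wd2 X P b β) (a, c) =
      P a b • β c - P c b • β a + ∑ d, o a c b d • β d := by
  have k : ∀ x y, ∑ e, ∑ f, (P x e * P y f * P e b) • β f = P x b • β y := fun x y => by
    rw [← hβ y, ← h.pr.idem x b, sum_smul]
    refine sum_congr rfl fun e _ => ?_
    rw [smul_sum]
    exact sum_congr rfl fun f _ => by rw [smul_smul]; congr 1; ring
  have k' : ∀ x y, ∑ e, ∑ f, (P x f * P y e * P f b) • β e = P x b • β y := fun x y => by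
    rw [sum_comm]; exact k x y
  have l : ∑ e, ∑ f, (o a c e f * P e b) • β f = ∑ d, o a c b d • β d := by
    rw [sum_comm]
    refine sum_congr rfl fun d _ => ?_
    rw [← sum_smul, ← h.po3 a c b d]
    congr 1
    exact sum_congr rfl fun e _ => by rw [h.pr.symm e]; ring
  have l' : ∑ e, ∑ f, (o a c e f * P f b) • β e = -∑ d, o a c b d • β d := by
    rw [sum_comm, ← l, ← sum_neg_distrib]
    refine sum_congr rfl fun e _ => ?_
    rw [← sum_neg_distrib]
    exact sum_congr rfl fun f _ => by rw [h.a3 a c f e, neg_mul, neg_smul]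
  have e : (2 : ℝ) • idx (sdm P o) T (wd2 X P b β) (a, c) = (1 / 2 : ℝ) •
      ((∑ e, ∑ f, (P a e * P c f * P e b) • β f) - (∑ e, ∑ f, (P c f * P a e * P f b) • β e)
      - (∑ e, ∑ f, (P c e * P a f * P e b) • β f) + (∑ e, ∑ f, (P a f * P c e * P f b) • β e)
      + (∑ e, ∑ f, (o a c e f * P e b) • β f) - ∑ e, ∑ f, (o a c e f * P f b) • β e) := by
    rw [idx_apply, Fintype.sum_prod_type]
    simp only [wd2_apply, map_sub, map_smul, hT, smul_sum, ← sum_sub_distrib, ← sum_add_distrib,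
      sdm]
    exact sum_congr rfl fun e _ => sum_congr rfl fun f _ => by module
  rw [e, k, k', k, k', l, l']; module

end Crest.Agent.X212.Map77
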