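import Crest.Agent.X212.Map77.Sum
import Crest.Agent.X212.Map77.Sym
import Crest.Agent.X212.Ell97.Est
import Crest.Agent.X212.Prm93.H

/-! Classes of coefficient families (uniformly bounded, smooth in a parameter) and the operations
`cut`, `pair`, `adj` on first order operators. -/

set_option autoImplicit false
set_option linter.unusedSectionVars false
noncomputable section
open scoped Manifold ContDiff Topology InnerProductSpace
open MeasureTheory Set Function Filter

namespace Crest.Agent.X212.Map77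
open An An.Pre Sob92 Ell97 Prm93

variable {E : Type} [NormedAddCommGroup E] [NormedSpace ℝ E] [FiniteDimensional ℝ E]
  [MeasurableSpace E] [BorelSpace E]
  {HM : Type} [TopologicalSpace HM] {I : ModelWithCorners ℝ E HM}
  {M : Type} [TopologicalSpace M] [ChartedSpace HM M] [IsManifold I ∞ M]
  [MeasurableSpace M] {ι ι' : Type} [Fintype ι] [Fintype ι'] {J : Type}
  {N N' N'' : Type} [NormedAddCommGroup N] [NormedSpace ℝ N] [NormedAddCommGroup N']
  [NormedSpace ℝ N'] [NormedAddCommGroup N''] [NormedSpace ℝ N'']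
  {U V W : Type} [NormedAddCommGroup U] [InnerProductSpace ℝ U]
  [NormedAddCommGroup V] [InnerProductSpace ℝ V] [NormedAddCommGroup W] [InnerProductSpace ℝ W]

/-- a class of coefficient families -/
structure Cls (F : J → Pre I M ι) : Type 1 where
  mem : ∀ {N : Type} [NormedAddCommGroup N] [NormedSpace ℝ N], (J → M → N) → Prop
  const : ∀ {N : Type} [NormedAddCommGroup N] [NormedSpace ℝ N] (c : N), mem fun _ _ => c
  add : ∀ {N : Type} [NormedAddCommGroup N] [NormedSpace ℝ N] {f g : J → M → N}, mem f → mem g →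
    mem fun j x => f j x + g j x
  app : ∀ {N N' : Type} [NormedAddCommGroup N] [NormedSpace ℝ N] [NormedAddCommGroup N']
    [NormedSpace ℝ N'] {f : J → M → N →L[ℝ] N'} {g : J → M → N}, mem f → mem g →
    mem fun j x => f j x (g j x)
  D : ∀ {N : Type} [NormedAddCommGroup N] [NormedSpace ℝ N] {f : J → M → N}, mem f → ∀ a,
    mem fun j => (F j).D a (f j)

/-- uniformly bounded families -/
def ub (F : J → Pre I M ι) : Cls F :=
  ⟨UB F, UB.const, UB.add, fun hf hg => UB.bil (ContinuousLinearMap.id ℝ _) hf hg, UB.D⟩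

/-- bounded families -/
def cb (F : J → Pre I M ι) (O : Set J) : Cls F :=
  ⟨fun f => ∀ j ∈ O, (F j).Cb (f j), fun c _ _ => Cb_const c,
    fun hf hg j h => Cb_add (hf j h) (hg j h), fun hf hg j h => Cb_app (hf j h) (hg j h),
    fun hf a j h => Cb_D (hf j h) a⟩

/-- families depending smoothly on a parameter, on the scale of `F₀` -/
def sb {T : Type} [NormedAddCommGroup T] [NormedSpace ℝ T] (F₀ : Pre I M ι') {O : Set T}
    {G : T → Pre I M ι} {A : ι → ι' → T → M → ℝ} (hG : ∀ t ∈ O, Mix F₀ (G t) fun a b => A a b t)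
    (hA : ∀ a b, SB F₀ O (A a b)) : Cls G :=
  ⟨SB F₀ O, fun c => SB.fixed (Cb_const c), SB.add, SB.app, fun h a => SB.D' hG hA h a⟩

namespace Cls
variable {F : J → Pre I M ι} {K : Cls F} {f g : J → M → N}

theorem clm (L : N →L[ℝ] N') (hf : K.mem f) : K.mem fun j x => L (f j x) := K.app (K.const L) hf

theorem bil (B : N →L[ℝ] N' →L[ℝ] N'') {g : J → M → N'} (hf : K.mem f) (hg : K.mem g) :
    K.mem fun j x => B (f j x) (g j x) := K.app (clm B hf) hg

theorem neg (hf : K.mem f) : K.mem fun j x => -f j x := clm (-ContinuousLinearMap.id ℝ N) hf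

theorem sub (hf : K.mem f) (hg : K.mem g) : K.mem fun j x => f j x - g j x := by
  simpa only [sub_eq_add_neg] using K.add hf (neg hg)

theorem fsum {κ : Type*} (s : Finset κ) {f : κ → J → M → N} (hf : ∀ i, K.mem (f i)) :
    K.mem fun j x => ∑ i ∈ s, f i j x := by
  classical
  induction s using Finset.induction_on with
  | empty => exact K.const 0
  | insert a s ha ih => simpa only [Finset.sum_insert ha] using K.add (hf a) ih

theorem sum {κ : Type*} [Fintype κ] {f : κ → J → M → N} (hf : ∀ i, K.mem (f i)) :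
    K.mem fun j x => ∑ i, f i j x := fsum _ hf

theorem comp {f : J → M → N' →L[ℝ] N''} {g : J → M → N →L[ℝ] N'} (hf : K.mem f) (hg : K.mem g) :
    K.mem fun j x => (f j x).comp (g j x) := bil (ContinuousLinearMap.compL ℝ N N' N'') hf hg

theorem smul {f : J → M → ℝ} (hf : K.mem f) (hg : K.mem g) : K.mem fun j x => f j x • g j x :=
  bil (ContinuousLinearMap.lsmul ℝ ℝ) hf hg

theorem mul {f g : J → M → ℝ} (hf : K.mem f) (hg : K.mem g) : K.mem fun j x => f j x * g j x :=
  smul hf hg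

theorem flip {f : J → M → N →L[ℝ] N' →L[ℝ] N''} (hf : K.mem f) : K.mem fun j x => (f j x).flip :=
  clm (N' := N' →L[ℝ] N →L[ℝ] N'')
    (ContinuousLinearMap.flipₗᵢ ℝ N N' N'').toContinuousLinearEquiv.toContinuousLinearMap hf

theorem pr2 {A : J → M → N →L[ℝ] N'} {B : J → M → N →L[ℝ] N''} (hA : K.mem A) (hB : K.mem B) :
    K.mem fun j x => pr2 (A j x) (B j x) := K.add (comp (K.const _) hA) (comp (K.const _) hB)

theorem ps {p : J → M → V →L[ℝ] V} {q : J → M → W →L[ℝ] W} (hp : K.mem p) (hq : K.mem q) :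
    K.mem fun j => ps (p j) (q j) := pr2 (comp hp (K.const _)) (comp hq (K.const _))

theorem tp {α : Type} [Fintype α] {f : α → J → M → N →L[ℝ] V} (hf : ∀ a, K.mem (f a)) :
    K.mem fun j x => tp fun a => f a j x := by
  simp only [tp_eq]
  exact sum fun a => comp (K.const _) (hf a)

theorem idx {α : Type} [Fintype α] {S : J → M → α → α → ℝ} {T : J → M → V →L[ℝ] V}
    (hS : ∀ a b, K.mem fun j x => S j x a b) (hT : K.mem T) :
    K.mem fun j x => idx (S j x) (T j x) := by
  simp only [idx_eq]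
  exact tp fun a => sum fun b => smul (hS a b) (comp hT (K.const _))

theorem toLp {α : Type} [Fintype α] {f : α → J → M → V} (hf : ∀ a, K.mem (f a)) :
    K.mem fun j x => (WithLp.toLp 2 fun a => f a j x : Fm α V) := by
  have : ∀ j x, (WithLp.toLp 2 fun a => f a j x : Fm α V) = ∑ a, ij V a (f a j x) := fun j x => by
    have := congrArg (fun T : ℝ →L[ℝ] Fm α V => T 1)
      (tp_eq fun a => (ContinuousLinearMap.id ℝ ℝ).smulRight (f a j x))
    simp only [_root_.sum_apply, ContinuousLinearMap.comp_apply, ContinuousLinearMap.smulRight_apply,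
      ContinuousLinearMap.id_apply, one_smul] at this
    rw [← this]
    exact fm_ext fun a => by simp
  simp only [this]
  exact sum fun a => clm _ (hf a)

variable (K) in
/-- the coefficients of a family of operators lie in the class -/
structure op (A : J → Op M ι V W) : Prop where
  p : K.mem fun j => (A j).p
  q : K.mem fun j => (A j).q
  σ : ∀ a, K.mem fun j => (A j).σ a
  B : K.mem fun j => (A j).B

end Cls

/-- symmetric idempotent fields -/
structure Prj (p : M → V →L[ℝ] V) : Prop where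
  idem : ∀ x v, p x (p x v) = p x v
  symm : ∀ x v w, ⟪p x v, w⟫_ℝ = ⟪v, p x w⟫_ℝ

theorem Prj.ps {p : M → V →L[ℝ] V} {q : M → W →L[ℝ] W} (hp : Prj p) (hq : Prj q) : Prj (ps p q) :=
  ⟨fun x v => ext2 (by simp [hp.idem]) (by simp [hq.idem]),
    fun x v w => by simp only [inner2, f2_ps, s2_ps, hp.symm, hq.symm]⟩

/-- the pointwise part of `Op.Good` -/
structure Alg (P : ι → ι → M → ℝ) (A : Op M ι V W) : Prop where
  p : Prj A.p
  q : Prj A.q
  σp : ∀ a x v, A.σ a x (A.p x v) = A.σ a x v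
  qσ : ∀ a x v, A.q x (A.σ a x v) = A.σ a x v
  qB : ∀ x v, A.q x (A.B x v) = A.B x v
  Pσ : ∀ a x, ∑ b, P a b x • A.σ b x = A.σ a x

theorem good_fam {F : J → Fr I M ι} {A : J → Op M ι V W}
    (h : (ub fun j => (F j).toPre).op A) (ha : ∀ j, Alg (F j).P (A j)) (C : ℕ → ℝ) :
    ∃ C' : ℕ → ℝ, (∀ k, C k ≤ C' k) ∧ ∀ j, (A j).Good (F j) C' := by
  obtain ⟨C1, h1⟩ := h.p
  obtain ⟨C2, h2⟩ := h.q
  obtain ⟨C3, h3⟩ := UB.unif h.σ
  obtain ⟨C4, h4⟩ := h.B
  refine ⟨fun k => max (max (C k) (C1 k)) (max (C2 k) (max (C3 k) (C4 k))), fun k => by simp,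
    fun j => ⟨⟨CBs_mono (h1 j) fun k => by simp, (ha j).p.idem, (ha j).p.symm⟩,
      ⟨CBs_mono (h2 j) fun k => by simp, (ha j).q.idem, (ha j).q.symm⟩,
      fun a => CBs_mono (h3 j a) fun k => by simp, CBs_mono (h4 j) fun k => by simp,
      (ha j).σp, (ha j).qσ, (ha j).qB, (ha j).Pσ⟩⟩

/-- one operator with bounded coefficients on a tame frame -/
theorem good_of [T2Space M] [BorelSpace M] {F : Fr I M ι} {A : Op M ι V W} {C : ℕ → ℝ} (hF : F.Tame C) (hp : F.Cb A.p)
    (hq : F.Cb A.q) (hσ : ∀ a, F.Cb (A.σ a)) (hB : F.Cb A.B) (ha : Alg F.P A) :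
    ∃ C', F.Tame C' ∧ A.Good F C' := by
  have e : ∀ {N : Type} [NormedAddCommGroup N] [NormedSpace ℝ N] {f : M → N}, F.Cb f →
      UB (fun _ : Unit => F.toPre) fun _ => f := fun ⟨C, h⟩ => ⟨C, fun _ => h⟩
  obtain ⟨C', h1, h2⟩ := good_fam (J := Unit) (F := fun _ => F) (A := fun _ => A)
    ⟨e hp, e hq, fun a => e (hσ a), e hB⟩ (fun _ => ha) C
  exact ⟨C', Tame_mono hF h1, h2 ()⟩

theorem Alg.of_good {F : Fr I M ι} {A : Op M ι V W} {C : ℕ → ℝ} (h : A.Good F C) : Alg F.P A :=
  ⟨⟨h.p.idem, h.p.symm⟩, ⟨h.q.idem, h.q.symm⟩, h.σp, h.qσ, h.qB, h.Pσ⟩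

/-- the compression of an operator on functions to the bundles `p`, `q` -/
def cut (F : Pre I M ι) (p : M → V →L[ℝ] V) (q : M → W →L[ℝ] W) (σ : ι → M → V →L[ℝ] W)
    (B : M → V →L[ℝ] W) : Op M ι V W :=
  ⟨p, q, fun a x => (q x).comp ((σ a x).comp (p x)),
    fun x => (q x).comp (B x + ∑ a, (σ a x).comp (F.D a p x))⟩

/-- two operators on the same bundle -/
def pair (A : Op M ι V W) (A' : Op M ι V U) : Op M ι V (P2 W U) :=
  ⟨A.p, ps A.q A'.q, fun a x => pr2 (A.σ a x) (A'.σ a x), fun x => pr2 (A.B x) (A'.B x)⟩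

/-- adding a term of order zero -/
def addB (A : Op M ι V W) (B : M → V →L[ℝ] W) : Op M ι V W :=
  ⟨A.p, A.q, A.σ, fun x => A.B x + (A.q x).comp (B x)⟩

section
variable {p : M → V →L[ℝ] V} {q : M → W →L[ℝ] W} {σ : ι → M → V →L[ℝ] W} {B : M → V →L[ℝ] W}
  {P : ι → ι → M → ℝ}

theorem op_cut (F : Pre I M ι) (hp : Sm I p) {u : M → V} (hu : Sm I u) (h : ∀ x, p x (u x) = u x)
    (x : M) : F.op (cut F p q σ B).σ (cut F p q σ B).B u x = q x (F.op σ B u x) := by
  have e : ∀ a, F.D a u x = F.D a p x (u x) + p x (F.D a u x) := fun a => by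
    rw [← D_app F a hp hu x, funext h]
  simp only [Pre.op, cut, ContinuousLinearMap.comp_apply, _root_.add_apply, _root_.sum_apply,
    map_add, map_sum]
  conv_rhs => enter [1, 2, a]; rw [e a]
  simp only [map_add, Finset.sum_add_distrib]
  abel

theorem Alg.cut (F : Pre I M ι) (hp : Prj p) (hq : Prj q)
    (hσ : ∀ a x, ∑ b, P a b x • σ b x = σ a x) : Alg P (cut F p q σ B) :=
  ⟨hp, hq, fun a x v => by simp [Map77.cut, hp.idem], fun a x v => hq.idem x _,
    fun x v => hq.idem x _, fun a x => by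
      ext v
      simp only [Map77.cut, ← hσ a x, _root_.sum_apply, _root_.smul_apply,
        ContinuousLinearMap.comp_apply, map_sum, map_smul]⟩

theorem op_pair (F : Pre I M ι) (A : Op M ι V W) (A' : Op M ι V U) (u : M → V) (x : M) :
    F.op (pair A A').σ (pair A A').B u x =
      i1 W U (F.op A.σ A.B u x) + i2 W U (F.op A'.σ A'.B u x) :=
  ext2 (by simp [Pre.op, pair]) (by simp [Pre.op, pair])

theorem Alg.pair {A : Op M ι V W} {A' : Op M ι V U} (h : Alg P A) (h' : Alg P A')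
    (e : A'.p = A.p) : Alg P (pair A A') :=
  ⟨h.p, h.q.ps h'.q,
    fun a x v => ext2 (by simp [Map77.pair, h.σp]) (by simp [Map77.pair, ← e, h'.σp]),
    fun a x v => ext2 (by simp [Map77.pair, h.qσ]) (by simp [Map77.pair, h'.qσ]),
    fun x v => ext2 (by simp [Map77.pair, h.qB]) (by simp [Map77.pair, h'.qB]), fun a x => by
      ext1 v
      refine ext2 ?_ ?_
      · simp [Map77.pair, ← h.Pσ a x]
      · simp [Map77.pair, ← h'.Pσ a x]⟩

theorem op_addB (F : Pre I M ι) (A : Op M ι V W) (u : M → V) (x : M) :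
    F.op (addB A B).σ (addB A B).B u x = F.op A.σ A.B u x + A.q x (B x (u x)) := by
  simp only [Pre.op, addB, _root_.add_apply, ContinuousLinearMap.comp_apply, add_assoc]

theorem Alg.addB {A : Op M ι V W} (h : Alg P A) : Alg P (addB A B) :=
  ⟨h.p, h.q, h.σp, h.qσ, fun x v => by simp [Map77.addB, h.qB, h.q.idem], h.Pσ⟩

theorem Alg.adj [FiniteDimensional ℝ V] [FiniteDimensional ℝ W] (F : Fr I M ι) {A : Op M ι V W}
    (h : Alg P A) : Alg P (A.adj F) := by
  refine ⟨h.q, h.p, fun a x w => ?_, fun a x w => ?_, fun x w => h.p.idem x _, fun a x => ?_⟩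
  · refine ext_inner_left ℝ fun v => ?_
    simp only [Op.adj, _root_.neg_apply, inner_neg_right, inner_tr, ← h.q.symm, h.qσ]
  · refine ext_inner_left ℝ fun v => ?_
    simp only [Op.adj, _root_.neg_apply, inner_neg_right, inner_tr, ← h.p.symm, h.σp]
  · simp only [Op.adj, ← trL_apply]
    conv_rhs => rw [← h.Pσ a x]
    simp only [map_sum, map_smul, smul_neg, Finset.sum_neg_distrib]

end

namespace Cls
variable {F : J → Pre I M ι} {K : Cls F}

theorem op.cut {p : J → M → V →L[ℝ] V} {q : J → M → W →L[ℝ] W} {σ : J → ι → M → V →L[ℝ] W}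
    {B : J → M → V →L[ℝ] W} (hp : K.mem p) (hq : K.mem q) (hσ : ∀ a, K.mem fun j => σ j a)
    (hB : K.mem B) : K.op fun j => cut (F j) (p j) (q j) (σ j) (B j) :=
  ⟨hp, hq, fun a => comp hq (comp (hσ a) hp),
    comp hq (K.add hB (sum fun a => comp (hσ a) (K.D hp a)))⟩

theorem op.pair {A : J → Op M ι V W} {A' : J → Op M ι V U} (h : K.op A) (h' : K.op A') :
    K.op fun j => pair (A j) (A' j) :=
  ⟨h.p, ps h.q h'.q, fun a => pr2 (h.σ a) (h'.σ a), pr2 h.B h'.B⟩

theorem op.addB {A : J → Op M ι V W} {B : J → M → V →L[ℝ] W} (h : K.op A) (hB : K.mem B) :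
    K.op fun j => addB (A j) (B j) := ⟨h.p, h.q, h.σ, K.add h.B (comp h.q hB)⟩

theorem op.adj [FiniteDimensional ℝ V] [FiniteDimensional ℝ W] {F : J → Fr I M ι}
    {K : Cls fun j => (F j).toPre} {A : J → Op M ι V W} (h : K.op A)
    (hd : ∀ a, K.mem fun j => (F j).dv a) : K.op fun j => (A j).adj (F j) :=
  have hσ : ∀ a, K.mem fun j x => Op.tr ((A j).σ a x) := fun a => clm (trL V W) (h.σ a)
  ⟨h.q, h.p, fun a => neg (hσ a), comp h.p (sub (clm (trL V W) h.B)
    (sum fun a => K.add (K.D (hσ a) a) (smul (hd a) (hσ a))))⟩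

end Cls

end Crest.Agent.X212.Map77
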