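import Crest.Agent.X212.Nk89.Gwp
import Crest.Agent.X212.Gb50.Ht

/-!
# Row 212, GW-CMP (helper77): the weights of a side and of a chart, the drift on the ends
-/

set_option autoImplicit false
set_option linter.unusedSectionVars false
noncomputable section
open scoped Manifold ContDiff Topology
open MeasureTheory Set Function Filter

namespace Crest.Agent.X212.Map77.Wc
open An An.Job M Nd18 Gj67 Rf65 Pte3 Prm93 Nk89 Cht98
open Gl67 (ka g0 g0_eq ka_zero ka_mono ka_lip ka_lin ka_nonneg ka_deriv)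

section gen
variable {E : Type} [NormedAddCommGroup E] [NormedSpace ℝ E] [FiniteDimensional ℝ E]
  [MeasurableSpace E] [BorelSpace E]
  {HM : Type} [TopologicalSpace HM] {I : ModelWithCorners ℝ E HM} [I.Boundaryless]
  {M : Type} [TopologicalSpace M] [ChartedSpace HM M] [IsManifold I ∞ M]
  [MeasurableSpace M] [T2Space M] [BorelSpace M] [SecondCountableTopology M]
  {ι lam : Type} [Fintype ι] [Fintype lam] {T : Type} [NormedAddCommGroup T] [NormedSpace ℝ T]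

theorem dom_of {𝔉 : Mod61.Fam I M ι lam T} (h : 𝔉.OK) {t : T} (ht : t ∈ 𝔉.Q) :
    Dom 𝔉.F0.toPre (𝔉.G t).F.toPre := by
  obtain ⟨ρ, h1, h2⟩ := h.dens
  obtain ⟨C, hC⟩ := h1.cb t ht
  refine ⟨⟨_, h.mix t ht, fun a b => (h.sS a b).cb t ht⟩, (C 0).toNNReal, ?_⟩
  rw [(h2 t ht).2]
  exact (withDensity_mono (.of_forall fun x => ENNReal.ofReal_le_ofReal
    ((le_abs_self _).trans (hC.2 0 [] le_rfl x)))).trans_eq (withDensity_const _)

theorem dom_wt {F F' G G' : Pre I M ι} {φ ψ : M → ℝ} (h : Dom F F') (w : WtP F G φ)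
    (w' : WtP F' G' ψ) {c : ℝ} (hc : ∀ x, ψ x - φ x ≤ c) : Dom G G' := by
  obtain ⟨⟨A, h1, h2⟩, k, hk⟩ := h
  refine ⟨⟨A, fun a x => by rw [w.e, w'.e]; exact h1 a x, fun a b => w.Cb.2 (h2 a b)⟩,
    k * (Real.exp (2 * c)).toNNReal, ?_⟩
  have e : wm (k • F.μ) ψ = k • wm (wm F.μ φ) (ψ - φ) := by
    rw [wm_wm w.sm.continuous (w'.sm.continuous.sub w.sm.continuous), add_sub_cancel]
    exact withDensity_smul_measure _ _
  rw [w'.μ, w.μ, mul_smul]
  refine (Measure.le_iff.2 fun s hs => ?_).trans (e.trans_le (Measure.le_iff'.2 fun s =>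
    mul_le_mul_right (Measure.le_iff'.1 (wm_le (ψ := ψ - φ) hc) s) _))
  simp only [wm, withDensity_apply _ hs]
  exact lintegral_mono' (Measure.restrict_mono subset_rfl hk) le_rfl

theorem dv_rem {F G : Fr I M ι} {ψ : M → ℝ} (hψ : Sm I ψ) {U : Set M} (hU : IsOpen U)
    (hμ : G.μ.restrict U = F.μ.restrict U) (a : ι) {x : M} (hx : x ∈ U) :
    (rem G (wt F ψ hψ).toPre).dv a x = G.dv a x + 2 * G.D a ψ x := by
  refine Met55.dvg_eq hU (fun y _ => G.sm a y) (d := (wt G ψ hψ).dv a) (fun f h1 h2 h3 => ?_)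
    (fun y _ => (wt G ψ hψ).dv_sm a y) hx
  have k : ∀ g : M → ℝ, support g ⊆ U → ∫ x, g x ∂wm F.μ ψ = ∫ x, g x ∂wm G.μ ψ := fun g hg => by
    have e : ∀ x ∉ U, g x = 0 := fun x hx => by_contra fun k => hx (hg k)
    rw [← setIntegral_eq_integral_of_forall_compl_eq_zero e,
      ← setIntegral_eq_integral_of_forall_compl_eq_zero (μ := wm G.μ ψ) e, wm, wm,
      restrict_withDensity hU.measurableSet, restrict_withDensity hU.measurableSet, hμ]
  exact (k _ ((Sob92.support_dv f).trans h3)).trans (((wt G ψ hψ).ibp a f h1 h2).trans (congrArg _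
    (k _ ((support_mul_subset_right _ _).trans ((subset_tsupport f).trans h3))).symm))

end gen

theorem ka_ge (s : ℝ) : s - 1 ≤ ka s := by
  rcases le_total s 1 with k | k
  · linarith [ka_nonneg s]
  · linarith [ka_lin le_rfl k, ka_nonneg 1]

theorem ka_le {s : ℝ} (h : 0 ≤ s) : ka s ≤ s := by linarith [ka_lip h, ka_zero le_rfl]

theorem d_rho {b : Bool} {u : ℝ} (h : 1 ≤ pm b * u) : deriv rho u = pm b := by
  refine (((ka_deriv u).add ((ka_deriv (-u)).comp u (hasDerivAt_neg u))).add_const _).deriv.trans ?_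
  cases b <;> simp only [pm, Bool.false_eq_true, if_false, if_true] at h ⊢
  · rw [Real.smoothTransition.zero_of_nonpos (by linarith),
      Real.smoothTransition.one_of_one_le (by linarith)]
    ring
  · rw [Real.smoothTransition.zero_of_nonpos (x := -u) (by linarith),
      Real.smoothTransition.one_of_one_le (by linarith)]
    ring

variable {Wi : Type} {X : Mf 4} {A κ lam : Type} [Fintype A] [Fintype κ] [Fintype lam]
  [DecidableEq lam] {M : Mark X A κ} {W : World M} {L : ML M lam} {Λ : Lns W L}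
  {A' h : Type} [Fintype A'] [DecidableEq A'] [Fintype h] {r n : ℕ} {J : Job Wi Λ A' h r n}
  {c : M.Cl} {T T' : Type} [NormedAddCommGroup T] [NormedSpace ℝ T] [NormedAddCommGroup T']
  [NormedSpace ℝ T'] {δ : ℝ}

theorem dom_G {p p' : Prm A} (m : M.Cl) (h : p ∈ M.O c.1) (h' : p' ∈ M.O c.1) :
    Dom (Λ.G m c p).F.toPre (Λ.G m c p').F.toPre :=
  dom_of (wFam_ok Λ (Θ := fun _ : ℝ => p') (Q := univ) h isOpen_univ contDiffOn_const
    (fun _ _ => h') isClopen_univ isClopen_univ subset_rfl) (mem_univ (0 : ℝ))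

theorem st0 (hJ : J.OK) (b : Bp J c) (O O' : Set (W.Z c).M) (θ : T → A' → ℝ) (i : Ed c) :
    St0 (jEnd O O' θ b.br b.O i) :=
  ⟨(hJ.nk _ _ _ _ _).lo.trans (by obtain ⟨_, _ | _⟩ := i <;> rfl),
    (hJ.nk _ _ _ _ _).hi.trans (by obtain ⟨_, _ | _⟩ := i <;> rfl)⟩

/-- the weight does not depend on the base parameter -/
theorem wψ_base (hJ : J.OK) (b b' : Bp J c) (O₁ O₂ O₃ O₄ : Set (W.Z c).M) (θ : T → A' → ℝ)
    (θ' : T' → A' → ℝ) : wψ (jEnd O₁ O₂ θ b.br b.O) δ = wψ (jEnd O₃ O₄ θ' b'.br b'.O) δ := by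
  refine funext fun z => congrArg _ (Finset.sum_congr rfl fun i _ => ?_)
  have a : ∀ b : Bp J c, Act J.m c i.1 (some i.2) (J.Θ b.s) := fun b => ⟨i.1.2.2, b.br, b.O, i.1.2.1⟩
  have e : (J.Θ b.s).2 i.1 = (J.Θ b'.s).2 i.1 := (b.br.2 i.1.2.1).trans (b'.br.2 i.1.2.1).symm
  have t : (J.K _ _ _ _ (a b)).ψ.target = (J.K _ _ _ _ (a b')).ψ.target := by
    rw [isNk_target (a b) (hJ.nk _ _ _ _ _), isNk_target (a b') (hJ.nk _ _ _ _ _), e]
  by_cases k : z ∈ (J.K _ _ _ _ (a b)).ψ.target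
  · have : (J.K _ _ _ _ (a b)).tm z = (J.K _ _ _ _ (a b')).tm z := by
      rw [isNk_tm (a b) (hJ.nk _ _ _ _ _) k, isNk_tm (a b') (hJ.nk _ _ _ _ _) (t ▸ k), e]
    rw [(st0 hJ b _ _ _ i).τ_eq, (st0 hJ b' _ _ _ i).τ_eq, this]
    rfl
  · rw [(st0 hJ b _ _ _ i).τ_zero k, (st0 hJ b' _ _ _ i).τ_zero (t ▸ k)]

variable {σ : Cel A'} {a : A'} {U Up R : Type} [NormedAddCommGroup U] [NormedSpace ℝ U]
  [NormedAddCommGroup Up] [NormedSpace ℝ Up] [NormedAddCommGroup R] [NormedSpace ℝ R]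
  (d : Dat J σ a U Up R) {q₀ : Wi →₀ ℝ}

/-- the base parameter of the face object -/
def b1 : Bp J (J.cf a) := ⟨d.y.s, (d.hb true).2.1, (d.hb true).2.2.1⟩

/-- its ends -/
abbrev P1 := jEnd univ univ (fun _ : ℝ => d.y.s) (b1 d).br (b1 d).O

/-- the wall -/
def x1 : cylW (J.cf a) := ⟨d.x, (d.hb true).2.2.2, (d.hb true).1⟩

variable {d} (H : d.OK q₀ δ)
include H

theorem sum_Ed (f : Ed (J.cf a) → ℝ) : ∑ i, f i = f (x1 d, true) + f (x1 d, false) := by
  have : Subsingleton (cylW (J.cf a)) := ⟨fun x y => Subtype.ext (((Gb50.mem_cf H).1 x.2.1).trans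
    ((Gb50.mem_cf H).1 y.2.1).symm)⟩
  rw [Fintype.sum_prod_type, Fintype.sum_subsingleton _ (x1 d), Fintype.sum_bool]

theorem st1 (i : Ed (J.cf a)) : St0 (P1 d i) := st0 H.ok (b1 d) _ _ _ i

theorem wt_cmp (z : (W.Z (J.cf a)).M) : g0 δ (d.hS z) - wψ (P1 d) δ z ≤ 0 ∧
    wψ (P1 d) δ z - g0 δ (d.hS z) ≤ δ * (2 * d.R0 + 3) := by
  have h1 : 0 ≤ -1 * (d.KS true).τ z := (st1 H (x1 d, true)).τ_nonneg z
  have h2 : 0 ≤ 1 * (d.KS false).τ z := (st1 H (x1 d, false)).τ_nonneg z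
  have e : wψ (P1 d) δ z = δ * (-1 * (d.KS true).τ z + 1 * (d.KS false).τ z) :=
    congrArg _ (sum_Ed H _)
  have h3 := H.R1
  have h4 := ka_le (add_nonneg (ka_nonneg ((d.KS false).τ z - d.R0))
    (ka_nonneg (-(d.KS true).τ z - d.R0)))
  have h5 := (ka_mono (sub_le_self ((d.KS false).τ z) (b := d.R0) (by linarith))).trans
    (ka_le (by linarith))
  have h6 := (ka_mono (sub_le_self (-(d.KS true).τ z) (b := d.R0) (by linarith))).trans
    (ka_le (by linarith))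
  rw [e, g0_eq, ← mul_sub, ← mul_sub, Dat.hS]
  exact ⟨mul_nonpos_of_nonneg_of_nonpos H.δ0.le (by linarith), mul_le_mul_of_nonneg_left (by
    linarith [ka_ge ((d.KS false).τ z - d.R0), ka_ge (-(d.KS true).τ z - d.R0), ka_ge
      (ka ((d.KS false).τ z - d.R0) + ka (-(d.KS true).τ z - d.R0))]) H.δ0.le⟩

theorem D_wt {b : Bool} {z : (W.Z (J.cf a)).M} (hz : z ∈ (d.KS b).ψ.target)
    (h2 : 2 ≤ -pm b * (d.KS b).tm z) (i : Option κ) :
    (J.G _ d.y.s).F.D i (wψ (P1 d) δ) z = δ * i.elim (-pm b) fun _ => 0 := by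
  refine (congrFun (D_wψ (P1 d) δ i) z).trans (congrArg _ ?_)
  cases i with
  | some i => exact Finset.sum_eq_zero fun j _ => mul_eq_zero_of_right _ (congrFun ((P1 d j).K.D_τ_some i) z)
  | none =>
  have E := endIn_J (θ := fun _ : ℝ => d.y.s) H.ok (b1 d).br (b1 d).O contDiff_const isClopen_univ
    isClopen_univ subset_rfl
  refine (Finset.sum_eq_single (x1 d, b) (fun j _ hj => mul_eq_zero_of_right _
    ((congrFun (P1 d j).K.D_τ_none z).trans (Nka63.dtf_zero (P1 d j).K.len fun k => disjoint_left.1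
      (E.dis hj) ((P1 d j).K.dp_sub one_half_pos k) hz))) (by simp)).trans ?_
  have e : (P1 d (x1 d, b)).sg = -pm b := by cases b <;> simp [End.sg, pm]
  rw [congrFun (P1 d (x1 d, b)).K.D_τ_none z, dtf_one one_lt_two ((E.st _).mem_Dp.2 (e ▸ h2)), e,
    mul_one]
  rfl

omit H in
/-- **GW-CMP** -/
theorem cmpY : CmpY J := by
  intro σ a U Up R d q₀ δ p V _ b t H h6 hp _ ht e
  have ok := (hp.ends V b H.δ0 (by linarith [H.δ1.1, H.δ0])).ok
  have hψ := wψ_base (δ := δ) H.ok b (b1 d) (W.un _ p.P) (W.un _ p.P') univ univ (b.θ p V)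
    fun _ : ℝ => d.y.s
  have w := wtP_wtP d.FS.F0.toPre (d.S.sm_pr δ 0 0 0)
  have w' := wtP_wtP (J.G _ b.s).F.toPre
    (sm_wψ (jEnd (W.un _ p.P) (W.un _ p.P') (b.θ p V) b.br b.O) δ)
  have hc : Cmp (d.S.Fw δ).toPre (b.F p V δ).F0.toPre :=
    ⟨dom_wt (dom_G J.m (b1 d).O b.O) w w' fun z => hψ ▸ (wt_cmp H z).2,
      dom_wt (dom_G J.m b.O (b1 d).O) w' w fun z => hψ ▸ (wt_cmp H z).1⟩
  refine ⟨hc, fun i => ⟨w.Cb.1 (hc.Cb_iff.2 (Sob92.Cb_sub (((adj_rem ok).dv i).cb t ht)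
    ((ok.sdv i).cb t ht))), fun s y v u h1 h2 => ?_⟩⟩
  have k := ((d.KS s).mem_src (z := (y, v))).2 ((Gb50.S_J H s).2 (by linarith))
  have k1 := (d.KS s).ψ.map_source k
  have g := agr_end (m := J.m) Λ (x1 d).2 b.O (b1 d).O
  have := dv_rem (sm_wψ (jEnd (W.un _ p.P) (W.un _ p.P') (b.θ p V) b.br b.O) δ) g.op
    (g.μ (Λ.G_ok _ b.O).vol (Λ.G_ok _ (b1 d).O).vol) i ((Gb50.S_tgt H s).1 k1).1
  change (rem (J.G _ (b.θ p V t)).F _).dv i _ - (J.G _ (b.θ p V t)).F.dv i _ = _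
  rw [e]
  refine (sub_eq_iff_eq_add'.2 this).trans ?_
  rw [hψ]
  refine (congrArg _ (D_wt H k1 (by rw [(d.KS s).tm_ψ _ k]; linarith) i)).trans ?_
  cases i <;> simp [drZ, d_rho h2]
  ring

end Crest.Agent.X212.Map77.Wc
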