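import Crest.Agent.X212.Nk89.Gwb

/-!
# Row 212, GL-WALL-PSC (helper77): the lower bound with general rows; moving references
-/

set_option autoImplicit false
set_option linter.unusedSectionVars false
noncomputable section
open scoped Manifold ContDiff Topology InnerProductSpace
open MeasureTheory Set Function Filter

namespace Crest.Agent.X212.Map77.Is
open An Mod61 Eqv71 Hol14 Cnt93 Ker54 Sym93 Map77 Ixz30 Nk89

variable {E : Type} [NormedAddCommGroup E] [NormedSpace ℝ E] [FiniteDimensional ℝ E]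
  [MeasurableSpace E] [BorelSpace E]
  {HM : Type} [TopologicalSpace HM] {I : ModelWithCorners ℝ E HM} [I.Boundaryless]
  {M : Type} [TopologicalSpace M] [ChartedSpace HM M] [IsManifold I ∞ M]
  [MeasurableSpace M] [T2Space M] [BorelSpace M] [SecondCountableTopology M]
  {ι : Type} [Fintype ι] {lam : Type} [Fintype lam]
  {T : Type} [NormedAddCommGroup T] [NormedSpace ℝ T] [FiniteDimensional ℝ T]
  {𝔉 : Fam I M ι lam T} {o o' : Ref 𝔉} {r n m : ℕ} (k : ℕ) {hh : Type} [Fintype hh]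
  {κ : hh → Cut M lam} (e : T → PtX M ι lam r n m) (σ : ∀ i, T → Pc r 𝔉.B (κ i))
  {H H' : Type} [NormedAddCommGroup H] [NormedSpace ℝ H] [NormedAddCommGroup H'] [NormedSpace ℝ H']

/-- the lower bound at smooth points near `(x, ψ)` with the rows `B` -/
structure LowB (x : Pnt o r) (ψ : ∀ i, HH o (κ i)) (B : o.C r k →L[ℝ] H) : Prop where
  ex : ∀ y : Pnt o r, ∃ v : o.Y n m k, RepE e y v
  le : ∀ c ≥ (0 : ℝ), ∃ K ≥ (0 : ℝ), ∃ ρ > (0 : ℝ), ∀ (y : Pnt o r) (χ : ∀ i, HH o (κ i))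
    (v : o.Y n m k), RepE e y v → ‖(y.pt k - x.pt k, χ - ψ)‖ ≤ ρ → ∀ β ≥ (0 : ℝ),
    ‖(B (y.pt k - x.pt k), fun i => ⟪JC o (κ i) (ψ i), χ i - ψ i⟫_ℝ)‖ ≤ β + c * ‖y.t - x.t‖ →
    ‖(y.pt k - x.pt k, χ - ψ)‖ ≤
      K * (‖(v, fun i => evC (σ i) y (χ i), fun i => ‖χ i‖ ^ 2 - 1)‖ + β)

variable {k e σ}

theorem LowB.of {x : Pnt o r} {ψ : ∀ i, HH o (κ i)} (L : LowP k e σ x ψ) :
    LowB k e σ x ψ (sig (Fs 𝔉) k x) := ⟨L.ex, L.le⟩

variable (h : 𝔉.OK) (hk : 7 ≤ k)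
include h hk

/-- from the Banach model -/
theorem lowB_of {f : o.C r k → o.Y n m k} {A : ∀ i, o.C r k → CL (HH o (κ i)) (HH o (κ i))}
    (rf : RepF e f) (rA : ∀ i, RepC o k (σ i) (A i)) {y : Pnt o r} {ψ : ∀ i, HH o (κ i)}
    {B : o.C r k →L[ℝ] H} (L : LowAt (bigF f A) ((B ∘L .fst ℝ _ _).prod
      (phR fun i => JC o (κ i) (ψ i))) (((ContinuousLinearMap.snd ℝ _ T) ∘L (.snd ℝ _ _) ∘L
        .snd ℝ _ _) ∘L .fst ℝ _ _) (y.pt k, ψ)) : LowB k e σ y ψ B := by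
  refine ⟨fun y => ⟨_, rf.2 y⟩, fun c hc => ?_⟩
  obtain ⟨K, K0, hK⟩ := L c hc
  obtain ⟨ρ, ρ0, hρ⟩ := Metric.eventually_nhds_iff.1 hK
  refine ⟨K, K0, ρ / 2, half_pos ρ0, fun y' χ v hv a β β0 b => ?_⟩
  obtain rfl := hv.unique h (by omega) (rf.2 y')
  have := hρ (y := (y'.pt k, χ)) (by rw [dist_eq_norm]; exact a.trans_lt (half_lt_self ρ0)) β β0 b
  simpa only [bigF, (rA _).2, Prod.mk_sub_mk] using this

theorem act_ex {w : M → CL o.m.V o'.m.V} (mi : MI o o' w) (mv : Mv o o' w) (c : Circle) :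
    ∃ (A : o.C r k →L[ℝ] o'.C r k) (L : T →L[ℝ] o'.C r k), ActC A w c ∧
      ∀ v, A v = Mod61.LC r k w c v + L v.2.2.2 := by
  obtain ⟨L, hL⟩ := mv.ex h (k := k + 1) (by omega)
  refine ⟨Mod61.LC r k w c + .inl ℝ _ _ ∘L L ∘L .snd ℝ _ _ ∘L .snd ℝ _ _ ∘L .snd ℝ _ _,
    .inl ℝ _ _ ∘L L, ⟨fun v x a => ?_, fun v x => ?_, fun v => ?_⟩, fun _ => rfl⟩
  · show 𝔉.F0.val _ _ ((Mod61.LC r k w c v).1 + L v.2.2.2) x a = _
    rw [Sob92.val_add, Pi.add_apply, PiLp.add_apply, mi.LC_α h (by omega), hL, dB_apply,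
      ← add_sub_assoc, ← map_add]
  · show 𝔉.F0.val _ _ ((Mod61.LC r k w c v).2 + 0).1 x = _
    rw [add_zero, mi.LC_φ h (by omega)]
  · show ((Mod61.LC r k w c v).2 + 0).2 = _
    rw [add_zero, LC_apply]

theorem sig_nat {x : Pnt o r} {x' : Pnt o' r} {w : M → CL o'.m.V o.m.V} {ζ : Circle}
    (ht : x.t = x'.t) (a : x'.Eq x w ζ) (v : o'.C r k) :
    sig (Fs 𝔉) k x (Mod61.LC r k w ζ v) = 𝔉.F0.mulH k o'.Pg o.Pg (aG w) (sig (Fs 𝔉) k x' v) := by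
  have e4 := DFunLike.congr_fun (row_nat h a ht (k := k)) (sC o' r k x'.t v)
  rw [ContinuousLinearMap.comp_apply, ← sC_nat h (a.mi h ht) ζ (by omega) x'.ht] at e4
  exact (congrArg (fun t => (bd o).RR 𝔉.F0.toPre (Fs 𝔉 t) k (uy x)
    (sC o r k t (Mod61.LC r k w ζ v))) ht).trans e4

/-- **gauge invariance**, moving references -/
theorem LowB.tr (hs : ∀ i, (κ i).supp ⊆ 𝔉.Om) (ne : 𝔉.Nat e) {x : Pnt o r} {x' : Pnt o' r}
    {w : M → CL o'.m.V o.m.V} {ζ : Circle} (ht : x.t = x'.t) (a : x'.Eq x w ζ) (mv : Mv o' o w)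
    {ψ : ∀ i, HH o (κ i)} {ψ' : ∀ i, HH o' (κ i)}
    (hψ : ∀ i, (κ i).Eqv (κ i) 𝔉.B 𝔉.B w (ψ' i) (ψ i))
    (nσ : ∀ i, NatC o' o (fun _ _ => True) (σ i)) {B : o.C r k →L[ℝ] H} {B' : o'.C r k →L[ℝ] H'}
    (hB : ∃ C, ∀ v, ‖B (Mod61.LC r k w ζ v)‖ ≤ C * ‖B' v‖) (L : LowB k e σ x ψ B) :
    LowB k e σ x' ψ' B' := by
  have k3 : 3 ≤ k := by omega
  have k4 : 4 ≤ k := by omega
  have mi := a.mi h ht
  have mi' := mi.symm h
  have me : ∀ i, MX o' o (κ i).x0 (w (κ i).x0) := fun i => mi.me _ (hs i ⟨(0, 0), rfl⟩)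
  choose η hη using fun i => (eqvC_iff h (hs i) ht a).1 (hψ i)
  obtain ⟨A, Λ, ac, hA⟩ := act_ex h hk (r := r) mi mv ζ
  obtain ⟨A', ac'⟩ := mi'.act h (r := r) (mv.symm h mi) k3 ζ⁻¹
  refine ⟨fun y' => ?_, fun c hc => ?_⟩
  · obtain ⟨y, t, b, -⟩ := a.tr h ht mv y'
    obtain ⟨v, hv⟩ := L.ex y
    exact ⟨_, repE_act h hk (mi'.actY h k4 ζ⁻¹) (ne.natP h _ _ _) t.symm (b.symm h t) hv⟩
  obtain ⟨G, hG⟩ := hB
  let Y := Mod61.LY (o := o') (o' := o) n m k w ζ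
  obtain ⟨C, c1, c2, c3, c4, c5, c6⟩ : ∃ C, 1 ≤ C ∧ ‖A‖ ≤ C ∧ ‖A'‖ ≤ C ∧ G ≤ C ∧ ‖Y‖ ≤ C ∧
      ‖B ∘L Λ‖ ≤ C :=
    ⟨max 1 (max ‖A‖ (max ‖A'‖ (max G (max ‖Y‖ ‖B ∘L Λ‖)))), by simp, by simp, by simp, by simp,
      by simp, by simp⟩
  have C0 : 0 < C := one_pos.trans_le c1
  obtain ⟨K, K0, ρ, ρ0, hK⟩ := L.le (C * c + C) (by positivity)
  refine ⟨C * (K * C), by positivity, ρ / C, by positivity, fun y' χ' v' hv a1 β β0 a2 => ?_⟩
  obtain ⟨y, t, b, p⟩ := a.tr h ht mv y'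
  have p1 : y.pt k - x.pt k = A (y'.pt k - x'.pt k) := by
    rw [p k k3 _ ac, add_sub_cancel_left]
  have p2 : (fun i => RI h (me i) (η i) (χ' i)) - ψ = fun i => RI h (me i) (η i) (χ' i - ψ' i) :=
    funext fun i => by rw [map_sub, Pi.sub_apply, hη i]; rfl
  have p3 : ‖fun i => RI h (me i) (η i) (χ' i - ψ' i)‖ = ‖χ' - ψ'‖ := by
    simp only [Pi.norm_def, LinearIsometryEquiv.nnnorm_map, Pi.sub_apply]
  have p5 : ∀ i, ⟪JC o (κ i) (ψ i), RI h (me i) (η i) (χ' i) - ψ i⟫_ℝ =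
      ⟪JC o' (κ i) (ψ' i), χ' i - ψ' i⟫_ℝ := fun i => by
    rw [show RI h (me i) (η i) (χ' i) - ψ i = _ from congrFun p2 i,
      ← (RI h (me i) (η i)).inner_map_map (JC _ _ _), hη i, RI_apply _ _ _ (JC _ _ _),
      (itC h (me i)).rH_JH, phz_comm (fun _ => rfl)]
  have p6 : ∀ i, evC (σ i) y (RI h (me i) (η i) (χ' i)) = RI h (me i) (η i) (evC (σ i) y' (χ' i)) :=
    fun i => by
      have := nσ i y' y w ζ t trivial b (η i) (χ' i)
      rwa [Rh_eq h (me i), Rh_eq h (me i)] at this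
  have s0 : 0 ≤ C * ‖y'.t - x'.t‖ := by positivity
  have s1 : 0 ≤ β + c * ‖y'.t - x'.t‖ := by positivity
  have p4 : ‖B (A (y'.pt k - x'.pt k))‖ ≤ C * β + (C * c + C) * ‖y'.t - x'.t‖ := by
    rw [hA, map_add]
    have e1 := ((B ∘L Λ).le_opNorm (y'.t - x'.t)).trans (mul_le_mul_of_nonneg_right c6
      (norm_nonneg _))
    have e2 := (hG (y'.pt k - x'.pt k)).trans ((mul_le_mul_of_nonneg_right c4 (norm_nonneg _)).trans
      (mul_le_mul_of_nonneg_left ((norm_fst_le _).trans a2) C0.le))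
    exact (norm_add_le _ _).trans ((add_le_add e2 e1).trans_eq (by ring))
  have q := hK y (fun i => RI h (me i) (η i) (χ' i)) _
    (repE_act h hk (mi.actY h k4 ζ) (ne.natP h _ _ _) t b hv) (by
      rw [p1, p2]
      exact (pair_le c2 c1 _ p3.le).trans ((mul_le_mul_of_nonneg_left a1 C0.le).trans_eq
        (by field_simp))) (C * β) (by positivity) (by
      rw [p1, funext p5, t, ht]
      exact max_le p4 (((norm_snd_le _).trans a2).trans ((le_mul_of_one_le_left s1 c1).trans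
        ((le_add_of_nonneg_right s0).trans_eq (by ring)))))
  have q1 := pair_le (p' := χ' - ψ') c3 c1 (A (y'.pt k - x'.pt k)) p3.ge
  rw [ac.inv h k3 ac' mi.me fun _ _ => rfl, ← p1, ← p2] at q1
  have q2 := pair_le (p := (fun i => evC (σ i) y' (χ' i), fun i => ‖χ' i‖ ^ 2 - 1))
    (p' := (fun i => evC (σ i) y (RI h (me i) (η i) (χ' i)),
      fun i => ‖RI h (me i) (η i) (χ' i)‖ ^ 2 - 1)) c5 c1 v' (by
    simp only [p6, Prod.norm_def, Pi.norm_def, LinearIsometryEquiv.nnnorm_map,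
      LinearIsometryEquiv.norm_map, le_refl])
  refine q1.trans ((mul_le_mul_of_nonneg_left (q.trans (mul_le_mul_of_nonneg_left
    (add_le_add_left q2 _) K0)) C0.le).trans_eq (by ring))

end Crest.Agent.X212.Map77.Is
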