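import Crest.Agent.X212.Map77.IsD
import Crest.Agent.X212.Wal14.Defs

/-!
# Row 212, GL-WALL-PSC (helper77): the leaf TRS
-/

set_option autoImplicit false
noncomputable section

namespace Crest.Agent.X212.Map77.Is
open An M

variable {Wi : Type} {X : Mf 4} {A κ lam : Type} [Fintype A] [Fintype κ] [Fintype lam]
  [DecidableEq lam] {M : Mark X A κ} {W : World M} {L : ML M lam} {Λ : Lns W L}
  {A' h : Type} [Fintype A'] [DecidableEq A'] [Fintype h] {r n : ℕ}

/-- **LEAF TRS** -/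
theorem trsL (J : Job Wi Λ A' h r n) : Wal14.TrsL J := by
  intro σ a V _ _ d q δ y p b E x ψ dr H oke lip _ C e cmp hr hd lo lz ⟨w, ζ, ew, eψ, mv⟩ L
  exact trs H (fun a' h1 h2 => C.hV a' h1 fun x k k' => h2 (H.ok.inj _ _ _ k k')) oke lip C.cs.toPG
    C.cs.hb C.cs.F C.uP C.uP' C.H e cmp hr hd lo lz ew eψ mv L

end Crest.Agent.X212.Map77.Is
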