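import Crest.Agent.X212.Map77.IsA
import Crest.Agent.X212.Nk89.Gwc

/-!
# Row 212, GL-WALL-PSC (helper77): a side with a moving limit as a reference of a chart
-/

set_option autoImplicit false
set_option linter.unusedSectionVars false
noncomputable section
open scoped Manifold ContDiff Topology InnerProductSpace ENNReal NNReal
open MeasureTheory Set Function Filter

namespace Crest.Agent.X212.Map77.Is
open An Mod61 Map77 Met55 Prm93 Sob92 Nk89
open Gl67 (Sid Cm Eqn PP g0 q2)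

variable {E : Type} [NormedAddCommGroup E] [NormedSpace ℝ E] [FiniteDimensional ℝ E]
  [MeasurableSpace E] [BorelSpace E]
  {HM : Type} [TopologicalSpace HM] {I : ModelWithCorners ℝ E HM} [I.Boundaryless]
  {M : Type} [TopologicalSpace M] [ChartedSpace HM M] [IsManifold I ∞ M]
  [MeasurableSpace M] [T2Space M] [BorelSpace M] [SecondCountableTopology M]
  {ι : Type} [Fintype ι] {lam : Type} [Fintype lam]
  {T T' U Up R h : Type} [NormedAddCommGroup T] [NormedSpace ℝ T] [NormedAddCommGroup T']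
  [NormedSpace ℝ T'] [NormedAddCommGroup U] [NormedSpace ℝ U] [NormedAddCommGroup Up]
  [NormedSpace ℝ Up] [NormedAddCommGroup R] [NormedSpace ℝ R] [Fintype h] {N r : ℕ}
  {Jc : En (Fin N)}

/-! ### the drift row -/

section drift
variable {𝔉 : Mod61.Fam I M ι lam T} (o : Ref 𝔉) (μ : ι → M → ℝ)

/-- the coefficient of the drift -/
def dC (x : M) : CL (Cf ι (Fin o.m.N)) o.m.A :=
  ∑ a, μ a x • (o.Pg x ∘L PiLp.proj 2 (fun _ : ι => o.m.A) a ∘L fa)

theorem dC_apply (x : M) (v : Cf ι (Fin o.m.N)) : dC o μ x v = ∑ a, μ a x • o.Pg x (fa v a) := by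
  simp [dC]

variable {o} in
/-- the gauge row at `y` with the drift `μ` -/
def sigD (k : ℕ) (y : Pnt o r) : o.C r k →L[ℝ] 𝔉.F0.H k o.Pg :=
  sig (Fs 𝔉) k y + 𝔉.F0.mulH k _ _ (dC o μ) ∘L 𝔉.F0.incl (k + 1) k _ ∘L sC o r k y.t

variable {μ} (H : 𝔉.OK) (hμ : ∀ a, 𝔉.F0.Cb (μ a))
include H

theorem maps_dC : Maps (bd o).pC o.Pg (dC o μ) := fun x v _ => by
  simp only [dC_apply, map_sum, map_smul]
  exact Finset.sum_congr rfl fun a _ => congrArg _ ((ok_bd o H).g.idem x _)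

include hμ

theorem cb_dC : 𝔉.F0.Cb (dC o μ) :=
  Cb_sum _ fun a _ => Cb_smul (hμ a) (Cb_comp (cb_Pg o H) (Cb_const _))

theorem val_drift {k : ℕ} (hk : 4 ≤ k) (u : 𝔉.F0.H (k + 1) (bd o).pC) (x : M) :
    𝔉.F0.val k _ (𝔉.F0.mulH k _ o.Pg (dC o μ) (𝔉.F0.incl (k + 1) k _ u)) x =
      dC o μ x (𝔉.F0.val _ _ u x) := by
  rw [val_mulH H.sup hk (cb_dC o H hμ) (maps_dC o H), val_incl H.sup hk (Nat.le_succ k)]

variable {o} in
theorem sigD_nat [FiniteDimensional ℝ T] {o' : Ref 𝔉} {k : ℕ} (hk : 7 ≤ k) {x : Pnt o r} {x' : Pnt o' r}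
    {w : M → CL o'.m.V o.m.V} {ζ : Circle} (ht : x.t = x'.t) (a : x'.Eq x w ζ) (v : o'.C r k) :
    sigD μ k x (Mod61.LC r k w ζ v) =
      𝔉.F0.mulH k o'.Pg o.Pg (Ixz30.aG w) (sigD μ k x' v) := by
  have mi := a.mi H ht
  have k4 : 4 ≤ k := by omega
  refine (congrArg₂ (· + ·) (sig_nat H hk ht a v) ?_).trans (map_add _ _ _).symm
  refine val_injective H.sup k4 (funext fun z => ?_)
  rw [val_mulH H.sup k4 (Cb_cj mi.cb) (Ixz30.maps_aG H mi)]
  refine (val_drift o H hμ k4 (sC o r k x.t (Mod61.LC r k w ζ v)) z).trans (Eq.trans ?_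
    (congrArg _ (val_drift o' H hμ k4 (sC o' r k x'.t v) z).symm))
  rw [ht, Ixz30.sC_nat H mi ζ (by omega) x'.ht, val_mulH H.sup (by omega) (Ixz30.cb_aC mi)
    (Ixz30.maps_aC H mi), dC_apply, dC_apply, map_sum]
  refine Finset.sum_congr rfl fun i _ => ?_
  have e1 := maps_f2 z _ (val_proj H.sup (k := k + 1) (by omega) (sC o' r k x'.t v) z)
  have e2 := (ok_bd o' H).g_p1 z (fa (𝔉.F0.val _ _ (sC o' r k x'.t v) z)) i
  rw [show (bd o').p1 z _ = _ from e1] at e2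
  rw [map_smul, show o'.Pg z _ = _ from e2, ← Ixz30.maps_aG H mi z _ e2]
  exact congrArg (fun u : Fm ι o.m.A => μ i z • o.Pg z (u i)) (f2_sm2 _ _ _)

end drift

variable {B : Base M ι lam} {F0 : An.Fr I M ι} {G0 : Geo I M ι lam}
  {H : T' → Geo I M ι lam} {Q' : Set T'} {t₀ : T'} {θ : T →L[ℝ] T'} {Q : Set T} {δ : ℝ}
  {θU : U →L[ℝ] T'} {πU : T' →L[ℝ] U}

/-- the side without its moving part -/
abbrev s0 {𝔉 : Mod61.Fam I M ι lam T} (s : Sid 𝔉 N Jc U Up R) : Sid 𝔉 N Jc U Up R :=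
  { s with b := 0 }

variable (F0 G0 Q' δ θU πU) in
/-- the hypotheses -/
structure Cv (s : Sid (fS B H t₀ θ Q) N Jc U Up R) : Prop where
  ok : s.OK
  fc : (fC B F0 G0 H Q').OK
  t0 : t₀ ∈ Q'
  cmp : Cmp (s.Fw δ).toPre F0.toPre
  πθ : ∀ t u, πU (θ t + θU u) = u
  HU : ∀ t u, H (t + θU u) = H t

variable (G0 πU) in
/-- the moving part in the coordinates of the chart -/
def bb (s : Sid (fS B H t₀ θ Q) N Jc U Up R) : T' →ₗ[ℝ] (M → Fm ι (HS (Fin N))) where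
  toFun t x := idx (trS (H t₀).F G0.F x) (.id ℝ _) (s.b x (πU t))
  map_add' _ _ := funext fun x => by simp only [map_add, Pi.add_apply]
  map_smul' _ _ := funext fun x => by simp only [map_smul, Pi.smul_apply, RingHom.id_apply]

namespace Cv
variable {s : Sid (fS B H t₀ θ Q) N Jc U Up R} (K : Cv F0 G0 Q' δ θU πU s)
include K

theorem ch : Ch F0 G0 Q' δ (s0 s) :=
  ⟨{ K.ok with cb := Cb_const 0, pb := fun _ _ => map_zero _ }, K.fc, K.t0, K.cmp, rfl⟩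

theorem bb_eq (t : T') (x : M) : bb G0 πU s t x =
    fa (SC K.ch.o ((fC B F0 G0 H Q').Si t₀) x (i1 _ _ (s.b x (πU t)))) := by
  rw [SC, f2_sm2, f2_i1]; rfl

theorem sb_bb : SB F0.toPre univ fun t => bb G0 πU s t :=
  ((SB.fixed (Cb_comp (Cb_const fa) (Cb_comp ((sb_SC K.ch.o K.fc.sSi).cb _ K.t0) (Cb_comp
    (Cb_const (i1 _ _)) (Cb_comp (K.ch.cb K.ok.cb) (Cb_const πU)))))).app
      (SB.par contDiffOn_id)).congr fun t _ => funext fun x => K.bb_eq t x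

theorem bP (t : T') (x : M) : K.ch.o.P1 x (bb G0 πU s t x) = bb G0 πU s t x := by
  rw [K.bb_eq]
  refine maps_f2 x _ (maps_SC K.ch.o K.fc (K.fc.PSi _ K.t0) x _ (maps_i1 x _ ?_))
  have := K.ok.pb x (πU t)
  rwa [Md.p1, ← indicator_univ s.md.pg] at this

/-- the reference -/
@[reducible] def o : Ref (fC B F0 G0 H Q') :=
  { K.ch.o with
    A0 := s.md.addC K.ch.o.A0 (bb G0 πU s (-t₀))
    conn := Ref.connA { K.ch.o with b := bb G0 πU s, sb := K.sb_bb, bP := K.bP } K.fc.B _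
    cA := Ref.cAt { K.ch.o with b := bb G0 πU s, sb := K.sb_bb, bP := K.bP } _
    b := bb G0 πU s
    sb := K.sb_bb
    bP := K.bP }

/-- the point of `(w, z, t)` -/
def pt (w : Sec I s.bd.pC) (z : EuclideanSpace ℂ (Fin r)) {t : T'} (ht : t ∈ Q') : Pnt K.o r :=
  ⟨(K.ch.pt w z ht).α, (K.ch.pt w z ht).φ, z, t, (K.ch.pt w z ht).hα, (K.ch.pt w z ht).hφ, ht⟩

theorem W_eq (t : T') (α : M → Fm ι (HS (Fin N))) :
    K.o.W t α = K.ch.o.W t (α + bb G0 πU s (t - t₀)) := by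
  funext a x
  simp only [Ref.W, Ref.A, Md.addC, Fam.W0, K.ch.o.b_zero, sub_eq_add_neg, map_add, Pi.add_apply,
    PiLp.add_apply, idx_apply, smul_add, Finset.sum_add_distrib, map_sum, map_smul,
    ContinuousLinearMap.id_apply, Pi.zero_apply, PiLp.zero_apply, map_zero, add_zero]
  abel

theorem cfg_pt (c : Cm N r h R) (w : Sec I s.bd.pC) (p : PP T U r h N)
    (ht : t₀ + (θ p.1 + θU p.2.1) ∈ Q') : (K.pt w (c.z0 + p.2.2.1) ht).cfg = s.cfg c w p := by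
  have e0 : H (t₀ + (θ p.1 + θU p.2.1)) = H (t₀ + θ p.1) := by rw [← add_assoc, K.HU]
  have e1 : K.o.W (t₀ + (θ p.1 + θU p.2.1)) (fun x => fa ((K.ch.sc w).1 x)) = (s.cfg c w p).W := by
    rw [K.W_eq, Ref.W, K.ch.W0_eq, add_sub_cancel_left]
    show s.md.addC (chA B s.md (H t₀) (H _) s.A0) (fun x => idx (trS G0.F (H _).F x) _ _) = _
    rw [e0]
    refine congrArg (s.md.addC _) (funext fun x => ?_)
    have : fa ((K.ch.sc w).1 x) + bb G0 πU s (θ p.1 + θU p.2.1) x =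
        idx (trS (H t₀).F G0.F x) (.id ℝ _) (fa (w.1 x) + s.b x p.2.1) := by
      refine Eq.trans ?_ (map_add _ _ _).symm
      show _ + idx (trS (H t₀).F G0.F x) (.id ℝ _) (s.b x (πU _)) = _
      rw [K.πθ]
      exact congrArg (· + idx (trS (H t₀).F G0.F x) (.id ℝ _) (s.b x p.2.1)) (f2_sm2 _ _ _)
    refine (congrArg _ this).trans ((Map77.idx_idx _ _ _ _ _).trans ?_)
    exact congrArg (idx · _ _) (funext₂ fun a b => trS_coc _ _ _ x a b)
  have e2 : (fun x => fp ((K.ch.sc w).1 x)) = fun x => fp (w.1 x) := funext fun x => s2_sm2 _ _ _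
  show Cfg.mk s.md (K.o.W (t₀ + (θ p.1 + θU p.2.1)) fun x => fa ((K.ch.sc w).1 x))
    (s.Φ0 + fun x => fp ((K.ch.sc w).1 x)) _ = _
  rw [e1, e2]; rfl

theorem W_zero : (K.o.W t₀ fun x => fa ((K.ch.sc 0).1 x)) = s.A0 := by
  rw [K.W_eq, sub_self, map_zero, add_zero]; exact K.ch.W_zero

theorem cfg_zero (z : EuclideanSpace ℂ (Fin r)) :
    (K.pt 0 z K.t0).cfg = ⟨s.md, s.A0, s.Φ0, z⟩ := by
  show Cfg.mk s.md (K.o.W t₀ fun x => fa ((K.ch.sc 0).1 x)) (s.Φ0 + fun x => fp ((K.ch.sc 0).1 x)) _ = _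
  rw [K.W_zero, K.ch.Φ_zero]; rfl

theorem pt_sub {k : ℕ} (hk : 3 ≤ k) (w : Sec I s.bd.pC) (z₀ z : EuclideanSpace ℂ (Fin r)) {t : T'}
    (ht : t₀ + t ∈ Q') : (K.pt w (z₀ + z) ht).pt k - (K.pt 0 z₀ K.t0).pt k =
      sC' K.o r k t₀ (F0.toH (k + 1) (bd K.o).pC w) + (0, 0, z, t) := K.ch.pt_sub hk w z₀ z ht

/-- the gauge row at the base parameter is the row of the chart -/
theorem val_row {k : ℕ} (hk : 4 ≤ k) {μ : ι → M → ℝ} (hμ : ∀ a, F0.Cb (μ a))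
    (hd : s.dr = fun a x => (Fs (fC B F0 G0 H Q') t₀).dv a x - (H t₀).F.dv a x + μ a x)
    (w : Sec I s.bd.pC) (z₀ z : EuclideanSpace ℂ (Fin r)) (t : T') :
    F0.val k _ (sigD μ k (K.pt 0 z₀ K.t0) (sC' K.o r k t₀
      (F0.toH (k + 1) (bd K.o).pC w) + (0, 0, z, t))) = s.row 0 w := by
  let s1 : Sid (fS B H t₀ θ Q) N Jc U Up R :=
    { s0 s with dr := fun a x => (Fs (fC B F0 G0 H Q') t₀).dv a x - (H t₀).F.dv a x }
  have c1 : ∀ a, (H t₀).F.Cb (s1.dr a) := fun a => by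
    have := Cb_sub (K.ok.cd a) (Gl67.Sid.wtP.Cb.1 (K.cmp.Cb_iff.2 (hμ a)))
    rwa [hd, show (_ - μ a : M → ℝ) = s1.dr a from funext fun _ => add_sub_cancel_right _ _] at this
  have K1 : Ch F0 G0 Q' δ s1 := ⟨{ K.ch.ok with cd := c1 }, K.fc, K.t0, K.cmp, rfl⟩
  have e1 := K1.val_row hk rfl w z₀ z t
  have e2 : uy (K.pt 0 z₀ K.t0) = uy (K1.pt 0 z₀ K.t0) :=
    congrArg₂ base (K.W_zero.trans K1.W_zero.symm) rfl
  have e3 : sC K.o r k t₀ (sC' K.o r k t₀ (F0.toH (k + 1) (bd K.o).pC w) + (0, 0, z, t)) = _ :=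
    K.ch.sC_sub _ z t
  refine (val_add _ _).trans (funext fun x => ?_)
  refine (congrArg₂ (· + ·) ((congrArg (fun u => F0.val k _ ((bd K.o).RR _ _ k u _) x) e2).trans
    (congrFun e1 x)) ((val_drift K.o K.fc hμ hk _ x).trans (congrArg _ ((congrArg
      (F0.val _ _ · x) e3).trans (congrFun (val_toH K.fc.sup (by omega) _) x))))).trans ?_
  rw [dC_apply, Sid.row, Sid.row, hd, add_assoc, ← Finset.sum_add_distrib]
  simp only [add_smul]
  rfl

end Cv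

end Crest.Agent.X212.Map77.Is
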