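import Crest.Agent.X212.Map77.Rem
import Crest.Agent.X212.Ell97.Main

/-! Operators written in a frame `G` acting on the Sobolev scale of another frame `F`. -/

set_option autoImplicit false
set_option linter.unusedSectionVars false
noncomputable section
open scoped Manifold ContDiff Topology InnerProductSpace
open MeasureTheory Set Function Filter

namespace Crest.Agent.X212.Map77
open An An.Pre Sob92 Ell97 Prm93 Fred93

variable {E : Type} [NormedAddCommGroup E] [NormedSpace ℝ E] [FiniteDimensional ℝ E]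
  [MeasurableSpace E] [BorelSpace E]
  {HM : Type} [TopologicalSpace HM] {I : ModelWithCorners ℝ E HM} [I.Boundaryless]
  {M : Type} [TopologicalSpace M] [ChartedSpace HM M] [IsManifold I ∞ M]
  [MeasurableSpace M] [T2Space M] [BorelSpace M] [SecondCountableTopology M]
  {ι ι' : Type} [Fintype ι] [Fintype ι']
  {U V W : Type} [NormedAddCommGroup U] [InnerProductSpace ℝ U] [FiniteDimensional ℝ U]
  [NormedAddCommGroup V] [InnerProductSpace ℝ V] [FiniteDimensional ℝ V]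
  [NormedAddCommGroup W] [InnerProductSpace ℝ W] [FiniteDimensional ℝ W]

/-- two comparable tame frames -/
structure Tw (F : Fr I M ι') (G : Fr I M ι) : Prop where
  t0 : ∃ C, F.Tame C
  t1 : ∃ C, G.Tame C
  cmp : Cmp F.toPre G.toPre

/-- an operator with bounded coefficients -/
structure Nc (F : Pre I M ι') (P : ι → ι → M → ℝ) (A : Op M ι V W) : Prop where
  p : F.Cb A.p
  q : F.Cb A.q
  σ : ∀ a, F.Cb (A.σ a)
  B : F.Cb A.B
  alg : Alg P A

/-- the operator `A` of the frame `G` on the scale of `F` -/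
def LH (F : Pre I M ι') (G : Pre I M ι) (k : ℕ) (p : M → V →L[ℝ] V) (q : M → W →L[ℝ] W)
    (A : Op M ι V W) : F.H (k + 1) p →L[ℝ] F.H k q := F.lift (k + 1) k p q (G.op A.σ A.B)

theorem Nc.of_sb {T : Type} [NormedAddCommGroup T] [NormedSpace ℝ T] {F : Pre I M ι'} {O : Set T}
    {G : T → Pre I M ι} {S : ι → ι' → T → M → ℝ} {hG : ∀ t ∈ O, Mix F (G t) fun a b => S a b t}
    {hS : ∀ a b, SB F O (S a b)} {A : T → Op M ι V W} (h : (sb F hG hS).op A) {t : T} (ht : t ∈ O)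
    {P : ι → ι → M → ℝ} (ha : Alg P (A t)) : Nc F P (A t) :=
  ⟨h.p.cb t ht, h.q.cb t ht, fun a => (h.σ a).cb t ht, h.B.cb t ht, ha⟩

theorem sm_LH {T : Type} [NormedAddCommGroup T] [NormedSpace ℝ T] {F : Pre I M ι'} {O : Set T}
    {G : T → Pre I M ι} {S : ι → ι' → T → M → ℝ} {hG : ∀ t ∈ O, Mix F (G t) fun a b => S a b t}
    {hS : ∀ a b, SB F O (S a b)} {A : T → Op M ι V W} (h : (sb F hG hS).op A)
    {p : M → V →L[ℝ] V} {q : M → W →L[ℝ] W} (hq : F.Cb q) (e : ∀ t, (A t).q = q)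
    {P : ι → ι → M → ℝ} (ha : ∀ t, Alg P (A t)) (hi : Prj q) (k : ℕ) :
    ContDiffOn ℝ ∞ (fun t => LH F (G t) k p q (A t)) O :=
  SB.lift_op hG hS h.σ h.B hq hi.idem (fun t _ => e t ▸ (ha t).qσ)
    fun t _ => Maps.of_left (e t ▸ (ha t).qB)

namespace Tw
variable {F : Fr I M ι'} {G : Fr I M ι} (h : Tw F G) {A : Op M ι V W} {j k : ℕ}
include h

theorem sup : Sup F.toPre (h.t0.choose 0) := Sup.of_tame h.t0.choose_spec

theorem good (hA : Nc F.toPre G.P A) : ∃ C, G.Tame C ∧ A.Good G C :=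
  good_of h.t1.choose_spec (h.cmp.Cb_iff.1 hA.p) (h.cmp.Cb_iff.1 hA.q)
    (fun a => h.cmp.Cb_iff.1 (hA.σ a)) (h.cmp.Cb_iff.1 hA.B) hA.alg

theorem nc_adj (hA : Nc F.toPre G.P A) : Nc F.toPre G.P (A.adj G) := by
  obtain ⟨C, h1, h2⟩ := h.good hA
  obtain ⟨C', h3⟩ := good_adj h1 h2
  exact ⟨hA.q, hA.p, fun a => h.cmp.Cb_iff.2 ⟨_, h3.σ a⟩, h.cmp.Cb_iff.2 ⟨_, h3.B⟩, hA.alg.adj G⟩

variable (hA : Nc F.toPre G.P A)
include hA

theorem conj (k : ℕ) : LH F.toPre G.toPre k A.p A.q A =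
    ((chg k A.q h.cmp).symm : G.H k A.q →L[ℝ] F.H k A.q) ∘L A.H G k ∘L
      (chg (k + 1) A.p h.cmp : F.H (k + 1) A.p →L[ℝ] G.H (k + 1) A.p) :=
  lift_conj h.cmp (rep_OpH (h.good hA).choose_spec.2 k).1

theorem rep (k : ℕ) : F.Rep (LH F.toPre G.toPre k A.p A.q A) (G.op A.σ A.B) :=
  h.conj hA k ▸ rep_conj h.cmp (rep_OpH (h.good hA).choose_spec.2 k).1

theorem chg_LH (x : F.H (k + 1) A.p) : chg k A.q h.cmp (LH F.toPre G.toPre k A.p A.q A x) =
    A.H G k (chg (k + 1) A.p h.cmp x) := by simp [h.conj hA k]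

theorem val (hk : 4 ≤ k) (x : F.H (k + 1) A.p) :
    F.val k A.q (LH F.toPre G.toPre k A.p A.q A x) = G.op A.σ A.B (F.val (k + 1) A.p x) := by
  have := FiniteDimensional.complete ℝ V
  have := FiniteDimensional.complete ℝ W
  obtain ⟨S, h1, h2⟩ := h.cmp.1.1
  rw [LH, h1.op]
  exact val_opH h.sup hk (fun b => Cb_sum _ fun a _ => Cb_smul (h2 a b) (hA.σ a)) hA.B
    (fun b x v => by simp [hA.alg.qσ]) (Maps.of_left hA.alg.qB) x

theorem incl (hj : j ≤ k) (x : F.H (k + 1) A.p) :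
    F.incl k j A.q (LH F.toPre G.toPre k A.p A.q A x) =
      LH F.toPre G.toPre j A.p A.q A (F.incl (k + 1) (j + 1) A.p x) :=
  Rep_incl (h.rep hA k) (h.rep hA j) (by omega) hj x

/-- **regularity** -/
theorem reg (hc : A.CliffL G) (hj : k ≤ j) {x : F.H (k + 1) A.p} {w : F.H j A.q}
    (e : LH F.toPre G.toPre k A.p A.q A x = F.incl j k A.q w) :
    ∃ y : F.H (j + 1) A.p, F.incl (j + 1) (k + 1) A.p y = x := by
  obtain ⟨C, h1, h2⟩ := h.good hA
  obtain ⟨y, hy, -⟩ := reg_up h1 h2 hc hj (x := chg _ _ h.cmp x) (w := chg _ _ h.cmp w)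
    (by rw [← h.chg_LH hA, e, chg_incl _ hj])
  exact ⟨(chg _ _ h.cmp).symm y, (chg _ _ h.cmp).injective (by
    rw [chg_incl _ (by omega), ContinuousLinearEquiv.apply_symm_apply, hy])⟩

theorem fr {n : ℤ} (e : Fr (A.H G k) n) : Fr (LH F.toPre G.toPre k A.p A.q A) n :=
  h.conj hA k ▸ e.conj _ _

/-- `A* A` on the scale of `F` -/
theorem LL (k : ℕ) : LH F.toPre G.toPre k A.q A.p (A.adj G) ∘L LH F.toPre G.toPre (k + 1) A.p A.q A =
    ((chg k A.p h.cmp).symm : G.H k A.p →L[ℝ] F.H k A.p) ∘L ((Hs G A k).comp (A.H G (k + 1))) ∘L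
      (chg (k + 2) A.p h.cmp : F.H (k + 2) A.p →L[ℝ] G.H (k + 2) A.p) := by
  ext1 x
  have e := h.chg_LH (h.nc_adj hA) (k := k) (LH F.toPre G.toPre (k + 1) A.p A.q A x)
  refine (chg k A.p h.cmp).injective (e.trans ?_)
  simp only [ContinuousLinearMap.comp_apply, ContinuousLinearEquiv.coe_coe,
    ContinuousLinearEquiv.apply_symm_apply, ← h.chg_LH hA]
  rfl

theorem LL_eq_zero (hc : A.CliffL G) (x : F.H (k + 2) A.p)
    (e : LH F.toPre G.toPre k A.q A.p (A.adj G) (LH F.toPre G.toPre (k + 1) A.p A.q A x) = 0) :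
    LH F.toPre G.toPre (k + 1) A.p A.q A x = 0 := by
  obtain ⟨C, h1, h2⟩ := h.good hA
  have e1 := DFunLike.congr_fun (h.LL hA k) x
  rw [ContinuousLinearMap.comp_apply, e] at e1
  refine (chg (k + 1) A.q h.cmp).injective ?_
  rw [h.chg_LH hA, map_zero]
  exact (hlf h1 h2 hc).LL_eq_zero.1 ((chg k A.p h.cmp).symm.injective (e1.symm.trans (map_zero _).symm))

theorem fr_LL [CompactSpace M] (hc : A.CliffL G) (k : ℕ) :
    Fr (LH F.toPre G.toPre k A.q A.p (A.adj G) ∘L LH F.toPre G.toPre (k + 1) A.p A.q A) 0 :=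
  let ⟨_, h1, h2⟩ := h.good hA
  h.LL hA k ▸ (Ell97.fr_LL h1 h2 hc k).conj _ _

end Tw

end Crest.Agent.X212.Map77
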