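import Crest.Agent.X212.Sw.Lv
import Crest.Agent.X212.Map77.Tw
import Crest.Agent.X212.Map77.Mono
import Crest.Agent.X212.Mon62.Aff
import Crest.Agent.X212.Cyf70.Op
import Crest.Agent.X212.Grp76.Prop

/-! # Lane MODEL-S: shared definitions and leaves -/

set_option autoImplicit false
set_option linter.unusedSectionVars false
noncomputable section
open scoped Manifold ContDiff Topology InnerProductSpace
open MeasureTheory Set Function Filter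

namespace Crest.Agent.X212.Map77.S
open An An.Pre Sob92 Prm93 Sw Sw.En3 Mon62
open M (Mf)

variable {κ lam ν : Type} [Fintype κ] [Fintype lam] [Fintype ν] [DecidableEq ν]

/-- one-forms and spinors -/
abbrev Cf (κ ν : Type) : Type := P2 (Fm (Option κ) ℝ) (Eu ν)
/-- spinors, two-forms, functions -/
abbrev Ef (κ ν : Type) : Type := P2 (P2 (Eu ν) (F2 κ)) ℝ

/-- a component of the form part -/
def co (a : Option κ) : Cf κ ν →L[ℝ] ℝ := pj ℝ a ∘L f2 _ _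
/-- the spinor part -/
abbrev sp : Cf κ ν →L[ℝ] Eu ν := s2 _ _

theorem co_apply (a : Option κ) (u : Cf κ ν) : co a u = f2 _ _ u a := rfl

/-! ### the linearised operator -/

section op
variable {E : Type} [NormedAddCommGroup E] [NormedSpace ℝ E] [FiniteDimensional ℝ E]
  [MeasurableSpace E] [BorelSpace E]
  {HM : Type} [TopologicalSpace HM] {I : ModelWithCorners ℝ E HM}
  {M : Type} [TopologicalSpace M] [ChartedSpace HM M] [IsManifold I ∞ M] [MeasurableSpace M]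
  {nc : ℕ} (b : Bg I M κ lam ν nc)

abbrev pC : M → Cf κ ν →L[ℝ] Cf κ ν := ps b.p1 b.pp
abbrev pE : M → Ef κ ν →L[ℝ] Ef κ ν := ps (ps b.pm b.p2) (triv M ℝ)

/-- `qd` as a bilinear map -/
def qL (x : M) : Eu ν →L[ℝ] Eu ν →L[ℝ] F2 κ := ∑ s : Option κ × Option κ, post (ij ℝ s)
  ((1 / 8 : ℝ) • (innerSL ℝ).bilinearComp (ContinuousLinearMap.id ℝ _)
    (b.m.J ∘L b.m.ρ s.1 x ∘L b.m.ρ s.2 x))

/-- the symbol -/
def σF (a : Option κ) (x : M) : Cf κ ν →L[ℝ] Ef κ ν :=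
  pr2 (pr2 (b.m.ρ a x ∘L sp) (wd2 ℝ (fun i j => b.B.P i j x) a ∘L f2 _ _)) (co a)

/-- the part of order zero -/
def BF (c : Sw.Cfg M κ ν) (x : M) : Cf κ ν →L[ℝ] Ef κ ν :=
  pr2 (pr2 ((∑ i, b.m.ρ i x * b.W c i x + b.ms x) ∘L sp +
      ∑ i, (co i).smulRight (b.m.ρ i x (b.jp x (c.Φ x))))
    ((tp fun s : Option κ × Option κ => -∑ k, b.F.c s.1 s.2 k x • co (ν := ν) k) -
      b.w • ((qL b x (c.Φ x) + (qL b x).flip (c.Φ x)) ∘L sp)))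
    (∑ a, b.F.dv a x • co a + (b.w / 2) • (innerSL ℝ (b.m.J (c.Φ x)) ∘L sp))

/-- the linearised equations with half of the gauge row -/
def full (c : Sw.Cfg M κ ν) : Op M (Option κ) (Cf κ ν) (Ef κ ν) :=
  cut b.F.toPre (pC b) (pE b) (σF b) (BF b c)

/-- the variation `c + r u` -/
def vr (c : Sw.Cfg M κ ν) (u : M → Cf κ ν) (r : ℝ) : Sw.Cfg M κ ν :=
  ⟨fun i x => c.a i x + r * co i (u x), fun x => c.Φ x + r • sp (u x)⟩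

/-- half of the gauge row -/
def lG (c : Sw.Cfg M κ ν) (u : M → Cf κ ν) (x : M) : ℝ :=
  ∑ a, (b.F.D a (fun y => co a (u y)) x + b.F.dv a x * co a (u x)) +
    b.w / 2 * ⟪b.m.J (c.Φ x), sp (u x)⟫_ℝ

structure OpAt (c : Sw.Cfg M κ ν) : Prop where
  alg : Alg b.F.P (full b c)
  cl : (full b c).Cliff b.F
  app : ∀ u, Sm I u → (∀ x, pC b x (u x) = u x) → ∀ x, (full b c).app b.F u x =
    i1 _ _ (i1 _ _ (b.eD (vr c u 1) x - b.eD c x -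
        ∑ i, co i (u x) • b.m.ρ i x (b.jp x (sp (u x)))) +
      i2 _ _ (b.eC (vr c u 1) x - b.eC c x + b.w • b.p2 x (b.qd x (sp (u x)) (sp (u x))))) +
    i2 _ _ (lG b c u x)

end op

variable (κ lam ν) in
/-- **OP** -/
def OpStmt : Prop := ∀ (X : Mf 4) (nc : ℕ) (b : Bg X.I X.M κ lam ν nc), b.OK → ∀ c, b.Adm c → OpAt b c

/-! ### the calculus on necks -/

/-- cut-off profiles -/
structure Cu (ε : ℝ) (θ : ℝ → ℝ) : Prop where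
  sm : ContDiff ℝ ∞ θ
  z : ∀ r ≤ ε, θ r = 0
  o : ∃ R, ∀ r ≥ R, θ r = 1

section nk
variable {X : Mf 4} {nc : ℕ} {e : En3 κ lam ν} {b : Bg X.I X.M κ lam ν nc} (K : Sw.Nk e b)
  {V : Type} [NormedAddCommGroup V] [NormedSpace ℝ V] (θ : ℝ → ℝ)

/-- the profile `θ` of the depth; `K.χ` is the case `θ r = smoothTransition (r - 1)` -/
def cu (x : X.M) : ℝ :=
  (K.p.elim 1 fun a => θ (K.tm x - a)) * K.q.elim 1 fun a => θ (a - K.tm x)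

theorem chi_eq : K.χ = cu K fun r => Real.smoothTransition (r - 1) := rfl

/-- transport from the cylinder -/
def xt (f : e.Y.M × ℝ → V) (x : X.M) : V := cu K θ x • f (K.ψ.symm x)

/-- the integral over the slice at time `t` -/
def si (w : X.M → V) (t : ℝ) : V := ∫ z, w (K.ψ (z, t)) ∂e.D.F.μ

/-- the integral over the slice through `x` -/
def lm (w : X.M → V) (x : X.M) : V := cu K θ x • si K w (K.tm x)

/-- the average over a window -/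
def aw (w : X.M → V) (x : X.M) : V := cu K θ x • ∫ p, bp p • si K w (K.tm x + p - 1 / 2)

end nk

variable {d : Dt κ lam ν} {N : Type} [Fintype N] {ty : N → d.𝓔} {X : Mf 4} {nc nr : ℕ}
  {T : Type} [NormedAddCommGroup T] [NormedSpace ℝ T] [FiniteDimensional ℝ T]
  {s : Pz X 0 fun i => d.e (ty i)} (σ : Cel s nc nr T)

/-- the conclusion of `PtStmt` -/
def PtAt : Prop :=
  (∀ t ∈ σ.Q, (σ.P t).As σ.β (σ.bs t) ∧ (∀ c, (σ.P t).As σ.β c ↔ s.As σ.β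
      ⟨fun a x => σ.al t c x a, c.Φ⟩ ∧ ∀ i x, ∑ j, s.bg.B.P i j x * c.a j x = c.a i x) ∧
    ∀ u, (σ.P t).Al u ↔ s.Al u) ∧
  ∀ k, 4 ≤ k → closure (range (σ.pt k)) ⊇ σ.U k ∧ Injective (σ.pt k) ∧
    (∀ y x, s.bg.F.val _ _ (σ.pt k y).1 x =
      σ.al y.1.1 y.1.2 x - WithLp.toLp 2 fun a => (s.base σ.β).a a x) ∧
    (∀ y, s.bg.F.val _ _ (σ.pt k y).2.1 = y.1.2.Φ - (s.base σ.β).Φ) ∧
    (∀ y y', ‖σ.pt k y - σ.pt k y'‖ ≤ σ.dk (k + 1) y y') ∧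
    ∀ t ∈ σ.Q, ∀ α ∈ Mod61.Hs s.bg.F.toPre s.bg.p1, ∀ φ ∈ Mod61.Hs s.bg.F.toPre s.bg.pp,
      ∃ y, σ.pt k y = (Mod61.ofV _ _ _ α, Mod61.ofV _ _ _ φ, t)

/-- the hypotheses of the MAP leaves -/
structure Hy : Prop where
  ok : σ.toFam.OK
  cr : s.Cr σ.β
  pt : PtAt σ

variable {σ}

/-- the base point over `t` -/
def Hy.y0 (h : Hy σ) {t : T} (ht : t ∈ σ.Q) : σ.Pnt := ⟨(t, σ.bs t), ht, (h.pt.1 t ht).1⟩

/-- the cell as a model of `Mon62` -/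
def Hy.dm (h : Hy σ) {k : ℕ} (hk : 4 ≤ k) :
    Dm X.I X.M (Option κ) (fun _ : Unit => σ.C k) fun _ => σ.Pnt where
  U _ := σ.U k
  B _ := {σ.pt k (h.y0 h.ok.ne.some_mem)}
  op _ := h.ok.opn.preimage (continuous_snd.comp continuous_snd)
  sub _ := singleton_subset_iff.2 h.ok.ne.some_mem
  F _ := s.bg.F
  C := h.ok.site.bg.tame.choose
  tame _ := h.ok.site.bg.tame.choose_spec
  pt _ := σ.pt k
  y₀ _ := h.y0 h.ok.ne.some_mem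
  mem _ y := y.2.1
  dns _ := (h.pt.2 k hk).1
  base _ := rfl

variable (σ) in
/-- the finite neck `i` is stretched smoothly over all of `Q` -/
def StrQ (i : N) : Prop := ∃ t₀ ∈ σ.Q, ∃ K₀ ∈ (σ.P t₀).nk i, ∃ a b, K₀.p = some a ∧ K₀.q = some b ∧
  ∃ ℓ : T × ℝ → ℝ, ContDiffOn ℝ ∞ ℓ (σ.Q ×ˢ univ) ∧ ∀ t ∈ σ.Q,
    (∀ r, 0 < deriv (fun r => ℓ (t, r)) r) ∧ ∃ K ∈ (σ.P t).nk i, K.p = some (ℓ (t, a)) ∧
      K.q = some (ℓ (t, b)) ∧ ∀ y, ∀ r ∈ Ioo a b, K.ψ (y, ℓ (t, r)) = K₀.ψ (y, r)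

/-- the calculus on the neck `i` -/
structure Cal (h : Hy σ) {k : ℕ} (hk : 4 ≤ k) (i : N) : Prop where
  xt : ∀ ε θ, 0 < ε → Cu ε θ → ∀ (V : Type) [NormedAddCommGroup V] [InnerProductSpace ℝ V]
    [FiniteDimensional ℝ V] (f : (d.e (ty i)).Y.M × ℝ → V), (d.e (ty i)).D.Z.Cb f → ∀ j, 4 ≤ j →
    (h.dm hk).A0 (s.nk i = none) j fun _ y x => ((σ.P y.1.1).nk i).elim 0 fun K => xt K θ f x
  lm : ∀ ε θ, 0 < ε → Cu ε θ → ∀ (p : Prop) j (w : σ.Pnt → X.M → ℝ), 4 ≤ j →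
    (h.dm hk).A0 p j (fun _ => w) → (h.dm hk).A0 (p ∨ s.nk i = none) j fun _ y x =>
      ((σ.P y.1.1).nk i).elim 0 fun K => lm K θ (w y) x
  aw : ∀ ε θ, 1 / 2 < ε → Cu ε θ → ∀ (p : Prop) l j (w : σ.Pnt → X.M → ℝ), 4 ≤ l → 4 ≤ j →
    (h.dm hk).A0 p l (fun _ => w) → (h.dm hk).A0 (p ∨ s.nk i = none) j fun _ y x =>
      ((σ.P y.1.1).nk i).elim 0 fun K => aw K θ (w y) x

variable (σ) in
/-- the conclusions of `MapStmt` -/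
structure MapAt : Prop where
  loc : ∀ k, 7 ≤ k → ∃ f : σ.C k → σ.Y k, σ.Rep (fun t c =>
    ((σ.P t).bg.eD c - (σ.P t).bg.eD (σ.bs t), (σ.P t).bg.eC c - (σ.P t).bg.eC (σ.bs t), 0, 0)) f
  rad : ∀ k, 7 ≤ k → ∃ f : σ.C k → σ.Y (k + 1), σ.Rep (fun t c =>
    ((σ.P t).bg.eD (σ.bs t) - (σ.P t).p0.D c, (σ.P t).bg.eC (σ.bs t) - (σ.P t).p0.C c, 0, 0)) f
  ms : ∀ w k, 7 ≤ k → ∃ f : σ.C k → σ.Y (k + 1), σ.Rep (fun t c => (0, (σ.P t).tm w c, 0, 0)) f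

/-! ### the model -/

variable (σ)

/-- the background at `t`, over the base and the module of the site -/
def bg (t : T) : Bg X.I X.M κ lam ν nc := { (σ.P t).bg with B := s.bg.B, m := s.bg.m, w := s.bg.w }

variable (s) in
abbrev HC (k : ℕ) : Type := s.bg.F.H k (pC s.bg)
variable (s) in
abbrev HE (k : ℕ) : Type := s.bg.F.H k (pE s.bg)
variable (s) in
abbrev HR (k : ℕ) : Type := s.bg.F.H k (triv X.M ℝ)

variable (s) in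
/-- change of the frame components -/
def mS (k : ℕ) (S : X.M → Option κ → Option κ → ℝ) : s.bg.F.H k s.bg.p1 →L[ℝ] s.bg.F.H k s.bg.p1 :=
  s.bg.F.mulH k _ _ fun x => idx (S x) (ContinuousLinearMap.id ℝ ℝ)

/-- the components in the frame at `t` -/
def jC (k : ℕ) (t : T) : σ.C k →L[ℝ] HC s (k + 1) :=
  (iH1 _ _ _ _ ∘L mS s (k + 1) (σ.S t)).coprod (iH2 _ _ _ _ ∘L ContinuousLinearMap.fst ℝ _ _)

/-- the right inverse -/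
def eC (k : ℕ) (t : T) : HC s (k + 1) →L[ℝ] σ.C k :=
  (mS s (k + 1) (σ.Si t) ∘L fH _ _ _ _).prod ((sH _ _ _ _).prod 0)

/-- the two field equations -/
def jY (k : ℕ) : σ.Y k →L[ℝ] s.bg.F.H k (ps s.bg.pm s.bg.p2) :=
  (iH1 _ _ _ _).coprod (iH2 _ _ _ _ ∘L ContinuousLinearMap.fst ℝ _ _)

/-- with half of the row -/
def jE (k : ℕ) : σ.Y k × HR s k →L[ℝ] HE s k :=
  (iH1 _ _ _ _ ∘L jY σ k).coprod ((1 / 2 : ℝ) • iH2 _ _ _ _)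

/-- lowering the level -/
def iC (k j : ℕ) : σ.C k →L[ℝ] σ.C j := (s.bg.F.incl (k + 1) (j + 1) _).prodMap
  ((s.bg.F.incl (k + 1) (j + 1) _).prodMap (ContinuousLinearMap.id ℝ _))

/-- lowering the level -/
def iY (k j : ℕ) : σ.Y k →L[ℝ] σ.Y j :=
  (s.bg.F.incl k j _).prodMap ((s.bg.F.incl k j _).prodMap (ContinuousLinearMap.id ℝ _))

/-- the local operator -/
def LF (k : ℕ) (t : T) (c : Sw.Cfg X.M κ ν) : HC s (k + 1) →L[ℝ] HE s k :=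
  LH s.bg.F.toPre (bg σ t).F.toPre k _ _ (full (bg σ t) c)

/-- the gauge row at a point of the Banach model -/
def row (k : ℕ) (v : σ.C k) : σ.C k →L[ℝ] HR s k :=
  (2 : ℝ) • (sH _ _ _ _ ∘L LF σ k v.2.2 (σ.bs v.2.2) ∘L jC σ k v.2.2) +
    s.bg.w • (s.bg.F.incl (k + 1) k _ ∘L s.bg.F.bilH (k + 1) (k + 1) s.bg.pp s.bg.pp (triv X.M ℝ)
      (k + 1) (fun _ => innerSL ℝ ∘L s.bg.m.J) v.2.1 ∘L
      ContinuousLinearMap.fst ℝ _ _ ∘L ContinuousLinearMap.snd ℝ _ _)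

/-- the gauge fixed linearisation -/
def TT (k : ℕ) (q : d.W →₀ ℝ) (v : σ.C k) : σ.C k →L[ℝ] σ.Y k × HR s k :=
  (fderiv ℝ (σ.F k q) v).prod (row σ k v)

/-- its field part, in the frame at the parameter -/
def Tc (k : ℕ) (q : d.W →₀ ℝ) (v : σ.C k) : HC s (k + 1) →L[ℝ] HE s k :=
  jE σ k ∘L TT σ k q v ∘L eC σ k v.2.2

/-- the equations -/
def EE (q : d.W →₀ ℝ) (t : T) (c : Sw.Cfg X.M κ ν) : Ev κ ν X nc nr :=
  ((σ.P t).bg.eD c - ((σ.P t).pt q).D c, (σ.P t).bg.eC c - ((σ.P t).pt q).C c,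
    fun j => (σ.P t).bg.l j c - ((σ.P t).pt q).S c j, σ.R t c)

/-- on the ends the family is the site -/
def EndAt : Prop := ∀ t ∈ σ.Q, ∀ i, ∀ K ∈ s.nk i, ∀ x ∈ K.ψ.target,
  (∀ a b, σ.S t x a b = s.bg.B.P a b x ∧ σ.Si t x a b = s.bg.B.P a b x) ∧
  (∀ a, (σ.P t).bg.F.e a x = s.bg.F.e a x ∧ (σ.P t).bg.F.dv a x = s.bg.F.dv a x ∧
    (σ.P t).bg.A a x = s.bg.A a x ∧ ∀ b l, (σ.P t).bg.F.c a b l x = s.bg.F.c a b l x) ∧
  (σ.P t).bg.ms x = s.bg.ms x ∧ (σ.P t).bg.om x = s.bg.om x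

/-- **The Banach model of a cell** (from PT, PB, OP, MAP, REP). -/
structure Md : Prop extends Hy σ where
  OK : σ.OK
  pb : PbStmt κ lam ν
  en : EndAt σ
  bg_eq : ∀ t ∈ σ.Q, bg σ t = (σ.P t).bg
  tw : ∀ t ∈ σ.Q, Tw s.bg.F (bg σ t).F
  op : ∀ y : σ.Pnt, OpAt (bg σ y.1.1) y.1.2 ∧
    Nc s.bg.F.toPre (bg σ y.1.1).F.P (full (bg σ y.1.1) y.1.2)
  map : MapAt σ
  rep : ∀ k, 7 ≤ k → σ.Rep σ.e0 (σ.rp k σ.e0) ∧ (∀ w, σ.Rep (σ.eτ w) (σ.rp k (σ.eτ w))) ∧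
    (∀ q y, σ.Sol q y ↔ (∃ x, y.1.2.Φ x ≠ 0) ∧ σ.F k q (σ.pt k y) = 0) ∧
    ∀ (ι : Type) (l : Filter ι) y y₀, σ.Cvg l y y₀ → ∀ O ∈ 𝓝 (σ.pt k y₀), ∀ᶠ i in l,
      ∃ y', σ.pt k y' ∈ O ∧ σ.Eqv (y i) y'
  F : ∀ k, 7 ≤ k → ∀ q, σ.Rep (EE σ q) (σ.F k q)
  je : ∀ k, ∀ t ∈ σ.Q, (∀ u, jC σ k t (eC σ k t u) = u) ∧
    ∀ v, eC σ k t (jC σ k t v) = (v.1, v.2.1, 0)
  lev : ∀ k j, 7 ≤ j → j ≤ k → (∀ y, iC σ k j (σ.pt k y) = σ.pt j y) ∧ ∀ q, ∀ v ∈ σ.U k,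
    iY σ k j (σ.F k q v) = σ.F j q (iC σ k j v) ∧ ∀ u,
      iY σ k j (fderiv ℝ (σ.F k q) v u) = fderiv ℝ (σ.F j q) (iC σ k j v) (iC σ k j u) ∧
      s.bg.F.incl k j _ (row σ k v u) = row σ j (iC σ k j v) (iC σ k j u) ∧
      s.bg.F.incl k j _ (Tc σ k q v (jC σ k v.2.2 u)) = Tc σ j q (iC σ k j v) (jC σ j v.2.2 (iC σ k j u))
  row : ∀ k, 7 ≤ k → ContDiffOn ℝ ∞ (row σ k) (σ.U k) ∧ ∀ y v, s.bg.F.val k _ (row σ k (σ.pt k y) v) =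
    σ.gro y.1.1 y.1.2 (s.bg.F.val _ _ v.1) (s.bg.F.val _ _ v.2.1)
  /-- the non-local and non-linear terms gain a derivative -/
  gain : ∀ k, 7 ≤ k → ∀ q, ∃ n : σ.C k → s.bg.F.H (k + 1) (ps s.bg.pm s.bg.p2), ∀ v ∈ σ.U k,
    jY σ k (σ.F k q v) = fH _ _ _ _ (LF σ k v.2.2 (σ.bs v.2.2) (jC σ k v.2.2 v)) +
      s.bg.F.incl (k + 1) k _ (n v)
  gainL : ∀ k, 7 ≤ k → ∀ q y, ∃ n : HC s (k + 1) →L[ℝ] HE s (k + 1),
    Tc σ k q (σ.pt k y) = LF σ k y.1.1 y.1.2 + s.bg.F.incl (k + 1) k _ ∘L n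
  /-- the linearisation at function level -/
  pw : ∀ k, 7 ≤ k → ∀ q (y : σ.Pnt), ∀ u ∈ Mod61.Hs s.bg.F.toPre (pC s.bg),
    (∀ r, (σ.P y.1.1).As σ.β (vr y.1.2 u r)) ∧
    HasDerivAt (fun r => (EE σ q y.1.1 (vr y.1.2 u r)).2.2)
      (fderiv ℝ (σ.F k q) (σ.pt k y) (eC σ k y.1.1 (Mod61.ofV _ _ _ u))).2.2 0 ∧
    ∀ x (z : Ef κ ν), z = s.bg.F.val k _ (Tc σ k q (σ.pt k y) (Mod61.ofV _ _ _ u)) x →
      HasDerivAt (fun r => (EE σ q y.1.1 (vr y.1.2 u r)).1 x) (f2 _ _ (f2 _ _ z)) 0 ∧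
      HasDerivAt (fun r => (EE σ q y.1.1 (vr y.1.2 u r)).2.1 x) (s2 _ _ (f2 _ _ z)) 0 ∧
      s2 _ _ z = lG (σ.P y.1.1).bg y.1.2 u x

end Crest.Agent.X212.Map77.S
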