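import Crest.Agent.X212.Map77.S0
import Crest.Agent.X212.Cyf70.Sf

/-! # Lane MODEL-S: the leaves -/

set_option autoImplicit false
set_option linter.unusedSectionVars false
noncomputable section
open scoped Manifold ContDiff Topology InnerProductSpace
open MeasureTheory Set Function Filter

namespace Crest.Agent.X212.Map77.S
open An An.Pre Sob92 Prm93 Sw Sw.En3 Mon62 Cyf70
open M (Mf)

variable {κ lam ν : Type} [Fintype κ] [Fintype lam] [Fintype ν] [DecidableEq ν]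

/-! ### abstract leaves -/

/-- **CYL-A**: `ν (∂_t + L + finite rank)` is bijective if the slice operator has no kernel -/
def CylA : Prop := ∀ (Y : Mf 3) [CompactSpace Y.M] (ι V W : Type) [Fintype ι]
  [NormedAddCommGroup V] [InnerProductSpace ℝ V] [FiniteDimensional ℝ V]
  [NormedAddCommGroup W] [InnerProductSpace ℝ W] [FiniteDimensional ℝ W]
  (F : Fr Y.I Y.M ι) (A : Op Y.M (Option ι) V W), CyO F A →
  ∀ (n : ℕ) (g : Fin n → Sec Y.I A.p) (c : Fin n → ℝ),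
    (∀ u : Sec Y.I A.p, (∀ y, (sop A).app F u.1 y +
      ∑ j, (c j * ∫ z, ⟪(g j).1 z, u.1 z⟫_ℝ ∂F.μ) • (g j).1 y = 0) → u = 0) →
    ∀ k, 4 ≤ k → ∀ L : (cyl F).H (k + 1) (pc A.p) →L[ℝ] (cyl F).H k (pc A.q),
      (∀ u x, (cyl F).val k _ (L ((cyl F).toH _ _ u)) x = (cyo A).app (cyl F) u.1 x +
        ∑ j, (c j * ∫ z, ⟪(g j).1 z, u.1 (z, x.2)⟫_ℝ ∂F.μ) • A.σ none x.1 ((g j).1 x.1)) →
      Bijective L

section pch
variable {X : Mf 4} {N : Type} [Fintype N] {e : N → En3 κ lam ν} (s : Pz X 0 e)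
  {V W : Type} [NormedAddCommGroup V] [InnerProductSpace ℝ V] [FiniteDimensional ℝ V]
  [NormedAddCommGroup W] [InnerProductSpace ℝ W] [FiniteDimensional ℝ W]

/-- an operator `L` on a site that agrees along the ends with bijective operators `L'` -/
structure Pch (k : ℕ) (G : Fr X.I X.M (Option κ)) (A : Op X.M (Option κ) V W)
    (L : s.bg.F.H (k + 1) A.p →L[ℝ] s.bg.F.H k A.q)
    (A' : ∀ i, Bool → Op ((e i).Y.M × ℝ) (Option κ) V W)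
    (L' : ∀ i b, (e i).D.Z.H (k + 1) (A' i b).p →L[ℝ] (e i).D.Z.H k (A' i b).q) : Prop where
  ok : s.OK
  hk : 4 ≤ k
  tw : Tw s.bg.F G
  nc : Nc s.bg.F.toPre G.P A
  cl : A.Cliff G
  gain : ∃ n, L = LH s.bg.F.toPre G.toPre k A.p A.q A + s.bg.F.incl (k + 1) k A.q ∘L n
  fr : ∀ i, ∀ K ∈ s.nk i, ∀ x ∈ K.ψ.target, ∀ a, G.e a x = s.bg.F.e a x
  nc' : ∀ i b, s.Inf i b → Nc (e i).D.Z.toPre (e i).D.Z.P (A' i b)
  gain' : ∀ i b, s.Inf i b → ∃ n, L' i b = LH (e i).D.Z.toPre (e i).D.Z.toPre k (A' i b).p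
    (A' i b).q (A' i b) + (e i).D.Z.incl (k + 1) k (A' i b).q ∘L n
  bij : ∀ i b, s.Inf i b → Bijective (L' i b)
  pq : ∀ i b, ∀ K ∈ s.nk i, K.Inf b → ∀ x ∈ K.ψ.source, A.p (K.ψ x) = (A' i b).p x ∧
    A.q (K.ψ x) = (A' i b).q x ∧ ∀ a, A.σ a (K.ψ x) = (A' i b).σ a x
  lo : ∀ i b, s.Inf i b → ∀ (u : Sec _ (A' i b).p) (x : (e i).Y.M × ℝ),
    (∀ x', |x'.2 - x.2| < 1 → u.1 x' = 0) → (e i).D.Z.val k _ (L' i b ((e i).D.Z.toH _ _ u)) x = 0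
  agr : ∃ R, ∀ i b, ∀ K ∈ s.nk i, K.Inf b → ∀ (u : Sec _ A.p) (u' : Sec _ (A' i b).p)
    (x : (e i).Y.M × ℝ), x.2 ∈ K.far b R → (∀ x', |x'.2 - x.2| < 1 → u.1 (K.ψ x') = u'.1 x') →
    s.bg.F.val k _ (L (s.bg.F.toH _ _ u)) (K.ψ x) =
      (e i).D.Z.val k _ (L' i b ((e i).D.Z.toH _ _ u')) x

end pch

variable (κ lam ν) in
/-- **PCH**: patching of parametrices -/
def PchStmt : Prop := ∀ (X : Mf 4) (N : Type) [Fintype N] (e : N → En3 κ lam ν) (s : Pz X 0 e)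
  (V W : Type) [NormedAddCommGroup V] [InnerProductSpace ℝ V] [FiniteDimensional ℝ V]
  [NormedAddCommGroup W] [InnerProductSpace ℝ W] [FiniteDimensional ℝ W] k G
  (A : Op X.M (Option κ) V W) L A' L', Pch s k G A L A' L' → L.IsFredholm

/-! ### leaves on cells -/

variable (d : Dt κ lam ν) {N : Type} [Fintype N] (ty : N → d.𝓔) (X : Mf 4) (nc nr : ℕ)
  (T : Type) [NormedAddCommGroup T] [NormedSpace ℝ T] [FiniteDimensional ℝ T]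

/-- **CAL-E**: necks of the site -/
def CalE : Prop := ∀ (s : Pz X 0 fun i => d.e (ty i)) (σ : Cel s nc nr T) (h : Hy σ) k (hk : 4 ≤ k) i,
  s.nk i ≠ none → Cal h hk i

/-- **CAL-F**: finite necks -/
def CalF : Prop := ∀ (s : Pz X 0 fun i => d.e (ty i)) (σ : Cel s nc nr T) (h : Hy σ) k (hk : 4 ≤ k) i,
  s.nk i = none → StrQ σ i → Cal h hk i

/-- **CC-OK**: the cylinder is a cell -/
def CcOK : Prop := ∀ i β, (∀ j, (d.e (ty j)).OK) → 0 < (d.e (ty i)).w → (∀ b, En3.Gd (β i b)) →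
  (d.cc ty i T 0 β).OK

/-- **CYL-B**: the linearisation at a static point -/
def CylB : Prop := ∀ i β, β i false = β i true → Md (d.cc ty i T 0 β) → ∀ k, 7 ≤ k →
  ∀ q (y : (d.cc ty i T 0 β).Pnt), y.1.2 = fz (β i true) →
    Bijective (Tc (d.cc ty i T 0 β) k q ((d.cc ty i T 0 β).pt k y))

variable {d ty X nc nr T} {s : Pz X 0 fun i => d.e (ty i)} (σ : Cel s nc nr T)

/-- complex one-forms -/
def p1C (x : X.M) : Fm (Option κ) ℂ →L[ℝ] Fm (Option κ) ℂ :=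
  idx (fun i j => s.bg.B.P i j x) (ContinuousLinearMap.id ℝ ℂ)

/-- the gauge algebra of level `k` -/
structure Ga (k : ℕ) where
  D : Grp76.GA (s.bg.F.H (k + 2) (triv X.M ℂ)) (s.bg.F.H (k + 1) (p1C (s := s)))
    (s.bg.F.H (k + 1) s.bg.pp × T) (σ.C k) (HR s (k + 2))
  m : ∀ u v x, s.bg.F.val _ _ (D.m u v) x = s.bg.F.val _ _ u x * s.bg.F.val _ _ v x
  st : ∀ u x, s.bg.F.val _ _ (D.st u) x = star (s.bg.F.val _ _ u x)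
  l : ∀ u b x a, s.bg.F.val _ _ (D.l u b) x a = s.bg.F.val _ _ u x * s.bg.F.val _ _ b x a
  r : D.r = D.l
  del : ∀ u x a, s.bg.F.val _ _ (D.del u) x a = s.bg.F.D a (s.bg.F.val _ _ u) x
  a : ∀ u φ, (D.a u φ).2 = 0 ∧ ∀ x, s.bg.F.val _ _ (D.a u φ).1 x =
    cs s.bg.m.J (s.bg.F.val _ _ u x) (s.bg.F.val _ _ φ.1 x)
  ds : ∀ u, (D.ds u).2 = 0 ∧ ∀ x, s.bg.F.val _ _ (D.ds u).1 x =
    cs s.bg.m.J (s.bg.F.val _ _ u x) ((s.base σ.β).Φ x)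
  pa : ∀ v x a, s.bg.F.val _ _ (D.pa v) x a = Complex.I * (s.bg.F.val _ _ v.1 x a : ℝ)
  ps : ∀ v, D.ps v = v.2
  j : ∀ ξ x, s.bg.F.val _ _ (D.j ξ) x = Complex.I * (s.bg.F.val _ _ ξ x : ℝ)

variable {σ} in
/-- the gauge transformation of a group element -/
def Ga.u {k : ℕ} (Γ : Ga σ k) (g : Γ.D.Gr) (x : X.M) : ℂ := 1 + s.bg.F.val _ _ g.v x

variable {σ} in
/-- allowed smooth gauge transformations -/
structure Ga.Sm {k : ℕ} (Γ : Ga σ k) : Prop where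
  dense : Dense {g : Γ.D.Gr | s.Al (Γ.u g)}
  ex : ∀ u, s.Al u → ∃ g : Γ.D.Gr, Γ.u g = u
  act : ∀ g : Γ.D.Gr, s.Al (Γ.u g) → ∀ y : σ.Pnt, ∃ y' : σ.Pnt, y'.1.1 = y.1.1 ∧
    y'.1.2 = (σ.P y.1.1).bg.act (Γ.u g) y.1.2 ∧ σ.pt k y' = g • σ.pt k y
  /-- a group element between smooth points is allowed -/
  reg : ∀ (g : Γ.D.Gr) (y y' : σ.Pnt), g • σ.pt k y = σ.pt k y' → s.Al (Γ.u g)

/-- irreducible points -/
abbrev Ir (y : σ.Pnt) : Prop := ∃ x, y.1.2.Φ x ≠ 0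

variable {σ} in
/-- the basic calculus (proved in `Map77/S2`) -/
structure Bas (h : Hy σ) {k : ℕ} (hk : 4 ≤ k) : Prop where
  en : EndAt σ
  tw : ∀ t ∈ σ.Q, Tw s.bg.F (σ.P t).bg.F
  a : ∀ i, (h.dm hk).A0 False (k + 1) fun _ y => y.1.2.a i
  Φ : (h.dm hk).A0 False (k + 1) fun _ y => y.1.2.Φ
  D : ∀ (V : Type) [NormedAddCommGroup V] [InnerProductSpace ℝ V] [CompleteSpace V] (p : Prop) j
    (w : σ.Pnt → X.M → V) a, 4 ≤ j → (h.dm hk).A0 p (j + 1) (fun _ => w) →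
    (h.dm hk).A0 p j fun _ y => (σ.P y.1.1).bg.F.D a (w y)
  /-- smooth families that do not move on the ends -/
  sb : ∀ (V : Type) [NormedAddCommGroup V] [InnerProductSpace ℝ V] [CompleteSpace V]
    (f : T → X.M → V), SB s.bg.F.toPre σ.Q f →
    (∃ r, ∀ t ∈ σ.Q, ∀ t' ∈ σ.Q, ∀ x ∉ s.core r, f t x = f t' x) →
    ∀ j, 4 ≤ j → (h.dm hk).A0 False j fun _ y => f y.1.1
  /-- the equations of the base configuration -/
  bs : SB s.bg.F.toPre σ.Q (fun t => (σ.P t).bg.eD (σ.bs t)) ∧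
    SB s.bg.F.toPre σ.Q fun t => (σ.P t).bg.eC (σ.bs t)

variable {σ} in
/-- every neck is switched off or has a calculus -/
def Glob (h : Hy σ) {k : ℕ} (hk : 4 ≤ k) : Prop :=
  ∀ i, (∀ t ∈ σ.Q, (σ.P t).Off i) ∨ Cal h hk i

variable (d ty X nc nr T)

/-- **MAP-R** -/
def RadG : Prop := ∀ (s : Pz X 0 fun i => d.e (ty i)) (σ : Cel s nc nr T) (h : Hy σ) k (hk : 4 ≤ k),
  7 ≤ k → Bas h hk → Glob h hk →
  (h.dm hk).A0 True (k + 1) (fun _ y => (σ.P y.1.1).bg.eD (σ.bs y.1.1) - (σ.P y.1.1).p0.D y.1.2) ∧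
  (h.dm hk).A0 True (k + 1) fun _ y => (σ.P y.1.1).bg.eC (σ.bs y.1.1) - (σ.P y.1.1).p0.C y.1.2

/-- **MAP-L**: the averaged level, cut off -/
def LbG : Prop := ∀ (s : Pz X 0 fun i => d.e (ty i)) (σ : Cel s nc nr T) (h : Hy σ) k (hk : 4 ≤ k),
  7 ≤ k → Bas h hk → ∀ i, Cal h hk i → ∀ j, 4 ≤ j → ∃ l : σ.Pnt → X.M → ℝ,
    (h.dm hk).A0 False j (fun _ => l) ∧ ∀ y : σ.Pnt, ∀ K ∈ (σ.P y.1.1).nk i, ∀ x, K.tm x ∈ K.deep 1 →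
      l y x = lb (K.pb y.1.2) (K.tm x)

/-- **MAP-S** -/
def MsG : Prop := ∀ (s : Pz X 0 fun i => d.e (ty i)) (σ : Cel s nc nr T) (h : Hy σ) k (hk : 4 ≤ k),
  7 ≤ k → s.Gd σ.β → Bas h hk → Glob h hk → ∀ w,
  (h.dm hk).A0 True (k + 1) fun _ y => (σ.P y.1.1).tm w y.1.2

/-- **MAP-M** -/
def MoG : Prop := ∀ (s : Pz X 0 fun i => d.e (ty i)) (σ : Cel s nc nr T) (h : Hy σ), s.Gd σ.β →
  (∀ k (hk : 4 ≤ k), Bas h hk ∧ ∀ i, s.nk i ≠ none → Cal h hk i) →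
  (∀ i b, s.Inf i b → σ.Fn fun _ c => s.mo σ.β i b c) ∧
    (∀ i, s.nk i = none → ContDiffOn ℝ ∞ (fun t => (σ.P t).len i) σ.Q) ∧
    ∀ g : T → ℝ, ContDiffOn ℝ ∞ g σ.Q → σ.Fn fun t _ => g t

/-- **MAP-C** -/
def CutG : Prop := ∀ (s : Pz X 0 fun i => d.e (ty i)) (σ : Cel s nc nr T), Hy σ →
  ∀ η : T → Fin nc → R4 → Eu ν, (∀ j, JC σ.Q fun t => η t j) → ∀ k, 7 ≤ k →
    ∃ f : σ.C k → Fin nc → ℂ, ContDiffOn ℝ ∞ f (σ.U k) ∧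
      ∀ y j, f (σ.pt k y) j = (σ.P y.1.1).bg.lη j (η y.1.1 j) y.1.2

/-- **GRP-A** -/
def GrpA : Prop := ∀ (s : Pz X 0 fun i => d.e (ty i)) (σ : Cel s nc nr T), Hy σ → ∀ k, 7 ≤ k →
  Nonempty (Ga σ k)

/-- **GRP-S** -/
def GrpS : Prop := ∀ (s : Pz X 0 fun i => d.e (ty i)) (σ : Cel s nc nr T), Md σ → ∀ k, 7 ≤ k →
  ∀ Γ : Ga σ k, Γ.Sm

/-- **GRP-T**: the equations are equivariant -/
def GrpT : Prop := ∀ (s : Pz X 0 fun i => d.e (ty i)) (σ : Cel s nc nr T), Md σ → ∀ k, 7 ≤ k →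
  ∀ Γ : Ga σ k, Γ.Sm → ∀ g : Γ.D.Gr, ∃ ρ : σ.Y k ≃L[ℝ] σ.Y k, ∀ v ∈ σ.U k,
    σ.rp k σ.e0 (g • v) = ρ (σ.rp k σ.e0 v) ∧ ∀ w, σ.rp k (σ.eτ w) (g • v) = ρ (σ.rp k (σ.eτ w) v)

/-- **GRP-P**: properness and freeness at irreducible points -/
def GrpP : Prop := ∀ (s : Pz X 0 fun i => d.e (ty i)) (σ : Cel s nc nr T), Md σ → ∀ k, 7 ≤ k →
  ∀ (Γ : Ga σ k) (y : σ.Pnt), Ir σ y → (∀ y', Grp76.PropAt Γ.D.Gr (σ.pt k y) (σ.pt k y')) ∧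
    ∀ g : Γ.D.Gr, g • σ.pt k y = σ.pt k y → g = 1

/-- **SLC**: `2 d* d + w |Φ|²` is bijective -/
def SlcS : Prop := ∀ (s : Pz X 0 fun i => d.e (ty i)) (σ : Cel s nc nr T), Md σ → ∀ k, 7 ≤ k →
  ∀ y : σ.Pnt, Ir σ y → ∀ A : HR s (k + 2) →L[ℝ] HR s k,
    (∀ ξ, s.bg.F.val _ _ (A ξ) = σ.gro y.1.1 y.1.2
      (fun x => WithLp.toLp 2 fun a => -s.bg.F.D a (s.bg.F.val _ _ ξ) x)
      fun x => s.bg.F.val _ _ ξ x • s.bg.m.J (y.1.2.Φ x)) → Bijective A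

/-- **BOOT**: solutions in the slice are smooth -/
def BootS : Prop := ∀ (s : Pz X 0 fun i => d.e (ty i)) (σ : Cel s nc nr T), Md σ → ∀ k, 7 ≤ k →
  ∀ y : σ.Pnt, ∃ γ : σ.C k → HR s k, ContDiff ℝ ∞ γ ∧ γ (σ.pt k y) = 0 ∧
    HasFDerivAt γ (row σ k (σ.pt k y)) (σ.pt k y) ∧
    ∀ᶠ v in 𝓝 (σ.pt k y), ∀ q, jY σ k (σ.F k q v) = 0 → γ v = 0 → v ∈ range (σ.pt k)

/-- **FR-0**: Fredholm at the base points -/
def Fr0 : Prop := ∀ (s : Pz X 0 fun i => d.e (ty i)) (σ : Cel s nc nr T) (h : Md σ), ∀ k, 7 ≤ k →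
  ∀ t (ht : t ∈ σ.Q), (Tc σ k 0 (σ.pt k (h.toHy.y0 ht))).IsFredholm

/-- **FR-C**: compact differences -/
def FrC : Prop := ∀ (s : Pz X 0 fun i => d.e (ty i)) (σ : Cel s nc nr T) (h : Md σ), ∀ k, 7 ≤ k →
  ∀ q (y : σ.Pnt), Cq (Tc σ k q (σ.pt k y)) (Tc σ k 0 (σ.pt k (h.toHy.y0 y.2.1)))

/-- **MD** -/
def MdStmt : Prop := ∀ (s : Pz X 0 fun i => d.e (ty i)) (σ : Cel s nc nr T), σ.OK → Md σ

end Crest.Agent.X212.Map77.S
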