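import Crest.Agent.X212.Sob92.Ops

/-! Direct sums of bundles: `H k (ps p q) ≃ H k p × H k q`. -/

set_option autoImplicit false
set_option linter.unusedSectionVars false
noncomputable section
open scoped Manifold ContDiff Topology InnerProductSpace
open MeasureTheory Set Function Filter

namespace Crest.Agent.X212.Map77
open An An.Pre Sob92

/-- the `L²` product -/
abbrev P2 (V W : Type) : Type := WithLp 2 (V × W)

section comb
variable {X Y Z Y' Z' : Type} [NormedAddCommGroup X] [NormedSpace ℝ X] [NormedAddCommGroup Y]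
  [NormedSpace ℝ Y] [NormedAddCommGroup Z] [NormedSpace ℝ Z] [NormedAddCommGroup Y']
  [NormedSpace ℝ Y'] [NormedAddCommGroup Z'] [NormedSpace ℝ Z']

variable (Y Z) in
/-- first component -/
def f2 : P2 Y Z →L[ℝ] Y := WithLp.fstL 2 ℝ Y Z
variable (Y Z) in
/-- second component -/
def s2 : P2 Y Z →L[ℝ] Z := WithLp.sndL 2 ℝ Y Z
variable (Y Z) in
/-- first inclusion -/
def i1 : Y →L[ℝ] P2 Y Z :=
  (WithLp.prodContinuousLinearEquiv 2 ℝ Y Z).symm.toContinuousLinearMap ∘L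
    ContinuousLinearMap.inl ℝ Y Z
variable (Y Z) in
/-- second inclusion -/
def i2 : Z →L[ℝ] P2 Y Z :=
  (WithLp.prodContinuousLinearEquiv 2 ℝ Y Z).symm.toContinuousLinearMap ∘L
    ContinuousLinearMap.inr ℝ Y Z

/-- pair of maps into the `L²` product -/
def pr2 (A : X →L[ℝ] Y) (B : X →L[ℝ] Z) : X →L[ℝ] P2 Y Z := i1 Y Z ∘L A + i2 Y Z ∘L B

theorem ext2 {u v : P2 Y Z} (h1 : f2 Y Z u = f2 Y Z v) (h2 : s2 Y Z u = s2 Y Z v) : u = v :=
  (WithLp.equiv 2 (Y × Z)).injective (Prod.ext h1 h2)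

@[simp] theorem f2_i1 (y : Y) : f2 Y Z (i1 Y Z y) = y := rfl
@[simp] theorem s2_i1 (y : Y) : s2 Y Z (i1 Y Z y) = 0 := rfl
@[simp] theorem f2_i2 (z : Z) : f2 Y Z (i2 Y Z z) = 0 := rfl
@[simp] theorem s2_i2 (z : Z) : s2 Y Z (i2 Y Z z) = z := rfl
theorem pr2_apply (A : X →L[ℝ] Y) (B : X →L[ℝ] Z) (x : X) :
    pr2 A B x = i1 Y Z (A x) + i2 Y Z (B x) := rfl
@[simp] theorem f2_pr2 (A : X →L[ℝ] Y) (B : X →L[ℝ] Z) (x : X) : f2 Y Z (pr2 A B x) = A x := by
  simp [pr2_apply]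
@[simp] theorem s2_pr2 (A : X →L[ℝ] Y) (B : X →L[ℝ] Z) (x : X) : s2 Y Z (pr2 A B x) = B x := by
  simp [pr2_apply]
theorem i1_add_i2 (v : P2 Y Z) : i1 Y Z (f2 Y Z v) + i2 Y Z (s2 Y Z v) = v :=
  ext2 (by simp) (by simp)

/-- direct sum of two maps -/
def sm2 (A : Y →L[ℝ] Y') (B : Z →L[ℝ] Z') : P2 Y Z →L[ℝ] P2 Y' Z' :=
  pr2 (A ∘L f2 Y Z) (B ∘L s2 Y Z)

@[simp] theorem f2_sm2 (A : Y →L[ℝ] Y') (B : Z →L[ℝ] Z') (v : P2 Y Z) :
    f2 Y' Z' (sm2 A B v) = A (f2 Y Z v) := by simp [sm2]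
@[simp] theorem s2_sm2 (A : Y →L[ℝ] Y') (B : Z →L[ℝ] Z') (v : P2 Y Z) :
    s2 Y' Z' (sm2 A B v) = B (s2 Y Z v) := by simp [sm2]

end comb

variable {E : Type} [NormedAddCommGroup E] [NormedSpace ℝ E] [FiniteDimensional ℝ E]
  [MeasurableSpace E] [BorelSpace E]
  {HM : Type} [TopologicalSpace HM] {I : ModelWithCorners ℝ E HM}
  {M : Type} [TopologicalSpace M] [ChartedSpace HM M] [IsManifold I ∞ M]
  [MeasurableSpace M] {ι : Type} [Fintype ι]
  {U V W : Type} [NormedAddCommGroup U] [InnerProductSpace ℝ U]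
  [NormedAddCommGroup V] [InnerProductSpace ℝ V] [NormedAddCommGroup W] [InnerProductSpace ℝ W]
  {F : Pre I M ι} {k j : ℕ}
  {p : M → V →L[ℝ] V} {q : M → W →L[ℝ] W} {r : M → U →L[ℝ] U}

theorem inner2 (u v : P2 V W) :
    ⟪u, v⟫_ℝ = ⟪f2 V W u, f2 V W v⟫_ℝ + ⟪s2 V W u, s2 V W v⟫_ℝ := WithLp.prod_inner_apply u v

/-- the sum of two projector fields -/
def ps (p : M → V →L[ℝ] V) (q : M → W →L[ℝ] W) (x : M) : P2 V W →L[ℝ] P2 V W := sm2 (p x) (q x)

@[simp] theorem f2_ps (x : M) (v : P2 V W) : f2 V W (ps p q x v) = p x (f2 V W v) := f2_sm2 _ _ _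
@[simp] theorem s2_ps (x : M) (v : P2 V W) : s2 V W (ps p q x v) = q x (s2 V W v) := s2_sm2 _ _ _

section cb
variable {X Y Z : Type} [NormedAddCommGroup X] [NormedSpace ℝ X] [NormedAddCommGroup Y]
  [NormedSpace ℝ Y] [NormedAddCommGroup Z] [NormedSpace ℝ Z]

theorem Cb_pr2 {A : M → X →L[ℝ] Y} {B : M → X →L[ℝ] Z} (hA : F.Cb A) (hB : F.Cb B) :
    F.Cb fun x => pr2 (A x) (B x) :=
  Cb_add (Cb_comp (Cb_const _) hA) (Cb_comp (Cb_const _) hB)

end cb

theorem Cb_ps (hp : F.Cb p) (hq : F.Cb q) : F.Cb (ps p q) :=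
  Cb_pr2 (Cb_comp hp (Cb_const _)) (Cb_comp hq (Cb_const _))

theorem maps_f2 : Maps (ps p q) p fun _ => f2 V W := fun x v h => by rw [← f2_ps (q := q), h]
theorem maps_s2 : Maps (ps p q) q fun _ => s2 V W := fun x v h => by rw [← s2_ps (p := p), h]
theorem maps_i1 : Maps p (ps p q) fun _ => i1 V W := fun x v h => ext2 (by simp [h]) (by simp)
theorem maps_i2 : Maps q (ps p q) fun _ => i2 V W := fun x v h => ext2 (by simp) (by simp [h])

variable [T2Space M] [BorelSpace M] [SecondCountableTopology M]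

variable (F k p q)
/-- first component on Sobolev spaces -/
def fH : F.H k (ps p q) →L[ℝ] F.H k p := F.mulH k (ps p q) p fun _ => f2 V W
/-- second component on Sobolev spaces -/
def sH : F.H k (ps p q) →L[ℝ] F.H k q := F.mulH k (ps p q) q fun _ => s2 V W
/-- first inclusion on Sobolev spaces -/
def iH1 : F.H k p →L[ℝ] F.H k (ps p q) := F.mulH k p (ps p q) fun _ => i1 V W
/-- second inclusion on Sobolev spaces -/
def iH2 : F.H k q →L[ℝ] F.H k (ps p q) := F.mulH k q (ps p q) fun _ => i2 V W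
variable {F k p q}

theorem rep_fH : F.Rep (fH F k p q) fun u x => f2 V W (u x) := rep_mulH (Cb_const _) maps_f2
theorem rep_sH : F.Rep (sH F k p q) fun u x => s2 V W (u x) := rep_mulH (Cb_const _) maps_s2
theorem rep_iH1 : F.Rep (iH1 F k p q) fun u x => i1 V W (u x) := rep_mulH (Cb_const _) maps_i1
theorem rep_iH2 : F.Rep (iH2 F k p q) fun u x => i2 V W (u x) := rep_mulH (Cb_const _) maps_i2

@[simp] theorem fH_iH1 (u : F.H k p) : fH F k p q (iH1 F k p q u) = u :=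
  DFunLike.congr_fun (RepT_eq (RepT_comp rep_fH rep_iH1) Rep_id fun _ => rfl) u
@[simp] theorem sH_iH2 (u : F.H k q) : sH F k p q (iH2 F k p q u) = u :=
  DFunLike.congr_fun (RepT_eq (RepT_comp rep_sH rep_iH2) Rep_id fun _ => rfl) u
@[simp] theorem fH_iH2 (u : F.H k q) : fH F k p q (iH2 F k p q u) = 0 :=
  DFunLike.congr_fun (RepT_eq (RepT_comp rep_fH rep_iH2) RepT_zero fun _ => rfl) u
@[simp] theorem sH_iH1 (u : F.H k p) : sH F k p q (iH1 F k p q u) = 0 :=
  DFunLike.congr_fun (RepT_eq (RepT_comp rep_sH rep_iH1) RepT_zero fun _ => rfl) u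
theorem iH_add (u : F.H k (ps p q)) :
    iH1 F k p q (fH F k p q u) + iH2 F k p q (sH F k p q u) = u :=
  DFunLike.congr_fun (RepT_eq (RepT_add (RepT_comp rep_iH1 rep_fH) (RepT_comp rep_iH2 rep_sH))
    Rep_id fun _ => funext fun _ => i1_add_i2 _) u

variable (F k p q) in
/-- sections of a sum -/
def sumH : F.H k (ps p q) ≃L[ℝ] F.H k p × F.H k q :=
  ContinuousLinearEquiv.equivOfInverse ((fH F k p q).prod (sH F k p q))
    ((iH1 F k p q).coprod (iH2 F k p q)) (fun u => iH_add u) fun u => by simp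

@[simp] theorem sumH_apply (u : F.H k (ps p q)) :
    sumH F k p q u = (fH F k p q u, sH F k p q u) := rfl
@[simp] theorem sumH_symm_apply (u : F.H k p × F.H k q) :
    (sumH F k p q).symm u = iH1 F k p q u.1 + iH2 F k p q u.2 := rfl

theorem H_ext2 {u v : F.H k (ps p q)} (h1 : fH F k p q u = fH F k p q v)
    (h2 : sH F k p q u = sH F k p q v) : u = v := (sumH F k p q).injective (Prod.ext h1 h2)

theorem incl_fH (h : j ≤ k) (u : F.H k (ps p q)) :
    F.incl k j p (fH F k p q u) = fH F j p q (F.incl k j _ u) := Rep_incl rep_fH rep_fH h h u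
theorem incl_sH (h : j ≤ k) (u : F.H k (ps p q)) :
    F.incl k j q (sH F k p q u) = sH F j p q (F.incl k j _ u) := Rep_incl rep_sH rep_sH h h u
theorem incl_iH1 (h : j ≤ k) (u : F.H k p) :
    F.incl k j _ (iH1 F k p q u) = iH1 F j p q (F.incl k j _ u) := Rep_incl rep_iH1 rep_iH1 h h u
theorem incl_iH2 (h : j ≤ k) (u : F.H k q) :
    F.incl k j _ (iH2 F k p q u) = iH2 F j p q (F.incl k j _ u) := Rep_incl rep_iH2 rep_iH2 h h u

omit [SecondCountableTopology M] in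
theorem ip_zero_ps (u v : Sec I (ps p q)) : F.ip 0 u.1 v.1 =
    F.ip 0 (fun x => f2 V W (u.1 x)) (fun x => f2 V W (v.1 x)) +
      F.ip 0 (fun x => s2 V W (u.1 x)) fun x => s2 V W (v.1 x) := by
  simp only [ip, inner2]
  refine integral_add ?_ ?_
  · exact F.integrable_inner ((f2 V W).continuous.comp u.2.1.continuous)
      (u.2.2.1.comp_left (map_zero _)) ((f2 V W).continuous.comp v.2.1.continuous)
  · exact F.integrable_inner ((s2 V W).continuous.comp u.2.1.continuous)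
      (u.2.2.1.comp_left (map_zero _)) ((s2 V W).continuous.comp v.2.1.continuous)

/-- the `L²` product on a sum -/
theorem inner_zero_ps (u v : F.H 0 (ps p q)) :
    ⟪u, v⟫_ℝ = ⟪fH F 0 p q u, fH F 0 p q v⟫_ℝ + ⟪sH F 0 p q u, sH F 0 p q v⟫_ℝ := by
  induction u, v using H_ind₂ with
  | hP => exact isClosed_eq (by fun_prop) (by fun_prop)
  | h u v => simp only [RepT_toH rep_fH, RepT_toH rep_sH, inner_toH, ip_zero_ps]

end Crest.Agent.X212.Map77
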