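import Crest.Agent.X212.Map77.IxO
import Crest.Agent.X212.Ix82.Mu
import Crest.Agent.X212.Cyc79.Eb
import Crest.Agent.X212.Sw88.Wz

/-! # Lane IND-S: the operator on the cross-section -/

set_option autoImplicit false
set_option linter.unusedSectionVars false
noncomputable section
open scoped Manifold ContDiff Topology InnerProductSpace
open MeasureTheory Function Finset

namespace Crest.Agent.X212.Map77.S
open An An.Pre Sob92 Sw Sw.En3 Cyf70
open Dl42 (Ay Nul τ sd qq D0 GP Ga)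
open Wz78 (SA)

variable {κ lam ν : Type} [Fintype κ] [Fintype lam] [Fintype ν] [DecidableEq ν]
  {e : En3 κ lam ν} {y : e.Y.M} {v : e.YC}

/-- a vector from its components -/
def mk3 (r : ℝ) (a : κ → ℝ) (φ : Eu ν) : Cf κ ν :=
  i1 _ _ (WithLp.toLp 2 fun o : Option κ => o.elim r a) + i2 _ _ φ

@[simp] theorem co_mk3 (r : ℝ) (a : κ → ℝ) (φ : Eu ν) (o : Option κ) :
    co o (mk3 r a φ) = o.elim r a := by simp [mk3, co_apply]

@[simp] theorem sp_mk3 (r : ℝ) (a : κ → ℝ) (φ : Eu ν) : s2 _ _ (mk3 r a φ) = φ := by simp [mk3]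

theorem ext_co {u w : Cf κ ν} (h0 : co none u = co none w) (h1 : ∀ k, co (some k) u = co (some k) w)
    (h2 : sp u = sp w) : u = w := ext2 (fm_ext fun o => by cases o; exacts [h0, h1 _]) h2

theorem inner_co (u w : Cf κ ν) : ⟪u, w⟫_ℝ =
    co none u * co none w + ∑ k, co (some k) u * co (some k) w + ⟪sp u, sp w⟫_ℝ := by
  rw [inner2, inner_fm (X := ℝ), Fintype.sum_option]
  simp only [co_apply, RCLike.inner_apply, conj_trivial, mul_comm]

variable (e) in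
/-- the one-form and the spinor of a section -/
def yc (u : e.Y.M → Cf κ ν) : e.YC := ⟨fun k y => co (some k) (u y), fun y => sp (u y)⟩

theorem ay_yc {u : e.Y.M → Cf κ ν} (hu : u ∈ Sec e.Y.I e.A0.p) : Ay (yc e u) :=
  ⟨fun k => (co _).contMDiff.comp hu.1, sp.contMDiff.comp hu.1, fun k y => by
    simpa [A0, Op78.sl0, A0_p, Bg.p1, idx_apply, En3.cyl, Nd18.YD.B, cP, yc, co_apply] using
      congrArg (co (some k)) (hu.2.2 y),
    fun y => (s2_ps (p := e.cyl.p1) (y, 0) _).symm.trans (congrArg sp (hu.2.2 y))⟩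

variable (e) in
/-- the operator on the cross-section -/
def L3 (u : e.Y.M → Cf κ ν) (y : e.Y.M) : Cf κ ν := mk3 (End23.dvg e (yc e u).a y)
  (fun k => sd e (yc e u).a k y / 2 - e.D.F.D k (fun z => co none (u z)) y) (D0 e (yc e u).Φ y)

variable (e y) in
/-- the coupling terms on the cross-section -/
def N3 (a : κ → ℝ) (Φ : Eu ν) (u : Cf κ ν) : Cf κ ν :=
  mk3 ⟪e.m.J Φ, sp u⟫_ℝ (fun k => -⟪e.m.J (τ e k y Φ), sp u⟫_ℝ) (co none u • e.m.J Φ -
    ∑ k, (a k • e.m.J (τ e k y (sp u)) + co (some k) u • e.m.J (τ e k y Φ)))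

variable (e) in
/-- the cross-section of the base operator -/
abbrev e0 : En3 κ lam ν := End23.lf (End23.wh e 0 e.h)

variable (he : e.OK)
include he

theorem ok_e0 : (e0 e).OK :=
  ⟨two_ok he.cyl, he.vol, he.hs, he.cl, he.sζ, he.pζ, he.clζ, contDiff_const,
    fun j => ⟨0, fun r => by simp⟩, fun _ _ _ _ => by simp,
    he.sp.imp fun _ h => h.imp fun _ h => ⟨h.1, fun a k => h.2 a ⟨k.sm, k.pr, k.cl⟩⟩,
    contDiff_const, fun _ => le_rfl, fun _ _ => rfl, isCompact_empty, contDiff_const, monotone_const⟩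

theorem p2_nn (ζ : F2 κ) : e.cyl.p2 (y, 0) ζ (none, none) = 0 := by
  have := (Op40.sd_p2 he.cyl (x := (y, 0)) ζ).anti none none
  linarith

theorem nu_eq (w : Ef κ ν) : nu e.A0 y w = mk3 (s2 _ _ w)
    (fun k => 2 * e.cyl.p2 (y, 0) (s2 _ _ (f2 _ _ w)) (none, some k))
    (-e.m.ρ none y (e.cyl.pm (y, 0) (f2 _ _ (f2 _ _ w)))) := by
  refine (Op40.tr_full (b := e.cyl.two) (c := ⟨0, 0⟩) (x := (y, 0)) (two_ok he.cyl) none w).trans
    ((sub_eq_add_neg _ _).trans (congrArg₂ (· + ·) (congrArg _ (fm_ext fun o => ?_))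
      (map_neg _ _).symm))
  cases o
  exacts [(congrArg₂ (· + 2 * ·) (one_mul _) (p2_nn he _)).trans (by simp),
    (congrArg (· + (2 * _ : ℝ)) (zero_mul _)).trans (zero_add _)]

theorem nu_pE (w : Ef κ ν) : nu e.A0 y (pE e.cyl (y, 0) w) = nu e.A0 y w := by
  simp only [nu_eq he, f2_ps, s2_ps, (Op40.prj2 he.cyl).idem, (Op40.prjm he.cyl).idem]; rfl

theorem p2_q {s t : Eu ν} (h : e.cyl.pp (y, 0) t = t) (k : κ) :
    e.cyl.p2 (y, 0) (e.cyl.qd (y, 0) s t) (none, some k) = 1 / 8 * ⟪e.m.J (τ e k y t), s⟫_ℝ :=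
  (Sw88.p2_qd he.cyl h _ _).trans ((congrArg (_ + · / 8) (zero_mul _)).trans (by
    rw [zero_div, add_zero]; rfl))

theorem rho_sum {φ : Eu ν} (h : e.cyl.pp (y, 0) φ = φ) (α : Option κ → ℝ) :
    -e.m.ρ none y (e.cyl.pm (y, 0) (∑ i, α i • e.cyl.m.ρ i (y, 0) (e.cyl.jp (y, 0) φ))) =
      α none • e.m.J φ - ∑ k, α (some k) • e.m.J (τ e k y φ) := by
  have h0 : e.m.p y φ = φ := Dl42.p_of he.cyl h
  have h1 : e.cyl.jp (y, 0) φ = e.m.J φ := congrArg e.m.J h0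
  have h2 : ∀ i, e.cyl.pm (y, 0) (e.cyl.m.ρ i (y, 0) (e.cyl.jp (y, 0) φ)) = e.m.ρ i y (e.m.J φ) :=
    fun i => h1 ▸ (Op40.pc he.cyl (y, 0)).pm_ρ (Op40.pp_jp he.cyl h) i
  simp only [map_sum, map_smul, h2, Fintype.sum_option, map_add, Dl42.ρρ he, Dl42.pJ he h0,
    Dl42.Jτ he, smul_neg, neg_add, neg_neg, sub_eq_add_neg]
  rfl

theorem nu_lo (hv : e.cyl.Adm (fz v)) {u : Cf κ ν} (hu : e.A0.p y u = u) :
    nu e.A0 y (e.cyl.lo (fz v) (y, 0) u) = N3 e y (v.a · y) (v.Φ y) u := by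
  have hΦ : e.cyl.pp (y, 0) (v.Φ y) = v.Φ y := hv.pΦ (y, 0)
  have hu' : pC e.cyl (y, 0) u = u := hu
  have hφ : e.cyl.pp (y, 0) (sp u) = sp u := (s2_ps _ _).symm.trans (congrArg sp hu')
  have h1 := rho_sum he hφ fun i => (fz v).a i (y, 0)
  have h2 := rho_sum he hΦ fun i => co i u
  rw [lo_eq, ContinuousLinearMap.comp_apply, ContinuousLinearMap.comp_apply, nu_pE he, hu', nu_eq he]
  refine congr(mk3 $(?_) $(funext fun k => ?_) $(?_))
  · simp [l0]; rfl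
  · have := Dl42.qq_comm he k v.Φ (fun _ => sp u) y
    simp only [qq] at this
    simp only [l0, f2_pr2, s2_pr2, smul_apply, ContinuousLinearMap.comp_apply, add_apply,
      ContinuousLinearMap.flip_apply, Op40.qL_eq, map_smul, map_add, PiLp.smul_apply, PiLp.add_apply,
      p2_q he hφ, p2_q he (t := (fz v).Φ (y, 0)) hΦ, smul_eq_mul]
    change 2 * (-2 * (1 / 8 * ⟪e.m.J (τ e k y (sp u)), v.Φ y⟫_ℝ +
      1 / 8 * ⟪e.m.J (τ e k y (v.Φ y)), sp u⟫_ℝ)) = _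
    rw [this]; ring
  · simp only [l0, f2_pr2, smul_apply, ContinuousLinearMap.comp_apply, add_apply,
      _root_.sum_apply, mul_apply_eq_comp, ContinuousLinearMap.smulRight_apply, map_add, neg_add, h1]
    refine (congrArg _ h2).trans ?_
    rw [show (fz v).a none (y, 0) = 0 from rfl, zero_smul, sum_add_distrib]
    change 0 - ∑ k, v.a k y • _ + _ = _
    abel

theorem sop_eq {u : e.Y.M → Cf κ ν} (hu : u ∈ Sec e.Y.I e.A0.p) (y : e.Y.M) :
    (sop e.A0).app e.D.F u y = L3 e u y := by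
  have A := ay_yc hu
  have h0 : e.cyl.two.Adm ⟨0, 0⟩ := ⟨fun _ => contMDiff_const, contMDiff_const, by simp, by simp⟩
  have sχ : Sm e.Y.I fun z => co none (u z) := (co _).contMDiff.comp hu.1
  have hp : ∀ x : e.Y.M × ℝ, pC e.cyl.two x (u x.1) = u x.1 := fun x =>
    (congrArg (· (u x.1)) (congrFun (Op78.Iv.eq (inZ he).A0.p) x)).symm.trans (hu.2.2 x.1)
  set c := vr (⟨0, 0⟩ : e.ZC) (fun x => u x.1) 1 with hc
  have ec : c = ⟨fun i x => co i (u x.1), fun x => sp (u x.1)⟩ := by simp [hc, vr]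
  have h1 : e.cyl.two.Adm c := ec ▸ ⟨fun i => sm_fst ((co i).contMDiff.comp hu.1), sm_fst A.sΦ,
    fun i x => by simpa [Bg.p1, idx_apply, co_apply] using congrArg (co i) (hp x),
    fun x => A.pΦ x.1⟩
  refine (Op78.app_sop e.cyl.A0 hu.1 y).trans ((congrArg (nu e.A0 y) (Op40.app_full (b := e.cyl.two)
    (two_ok he.cyl) h0 _ (sm_fst hu.1) hp _)).trans ?_)
  rw [nu_eq he, ← hc]
  simp only [map_add (f2 _ _), map_add (s2 _ _), f2_i1, f2_i2, s2_i1, s2_i2, add_zero, zero_add]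
  refine congr(mk3 $(?_) $(funext fun k => ?_) $(?_))
  · rw [lG, Fintype.sum_option, show e.cyl.two.F.D none (fun x => co none (u x.1)) = 0 from
      D_none_fst _ sχ]
    simp only [Pi.zero_apply, map_zero, inner_zero_left, mul_zero, add_zero, zero_add]
    exact (congrArg (· + (_ : ℝ)) (zero_mul _)).trans ((zero_add _).trans (sum_congr rfl fun k _ =>
      congrArg (· + (_ : ℝ)) (congrFun (D_some_fst _ (A.sa k) k) _)))
  · have a1 : 2 * e.cyl.two.eC c (y, 0) (none, some k) = _ := Dl42.eC_split (ok_e0 he) h1 y 0 k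
    have a2 : 2 * e.cyl.two.eC ⟨0, 0⟩ (y, 0) (none, some k) = _ := Dl42.eC_split (ok_e0 he) h0 y 0 k
    have q : ∀ c, e.cyl.p2 (y, 0) (e.cyl.two.eC c (y, 0)) = e.cyl.two.eC c (y, 0) := fun c =>
      (map_sub _ _ _).trans (congrArg₂ _ ((Op40.prj2 he.cyl).idem _ _) (he.cyl.omp _))
    have a3 : e.cyl.p2 (y, 0) (e.cyl.two.p2 (y, 0) (e.cyl.two.qd (y, 0) (sp (u y)) (sp (u y))))
        (none, some k) = _ := (congrArg (· (none, some k)) ((Op40.prj2 he.cyl).idem _ _)).trans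
      (p2_q he (A.pΦ y) k)
    rw [show (Dl42.dt (e := e0 e) c).a (some k) (y, 0) = 0 from
      ec ▸ congrFun (D_none_fst _ (A.sa k)) _] at a1
    rw [show (Dl42.dt (e := e0 e) ⟨0, 0⟩).a (some k) (y, 0) = 0 from congrFun (dv_const (0 : ℝ)) _] at a2
    simp only [map_add, map_sub, map_smul, q, PiLp.add_apply, PiLp.sub_apply, PiLp.smul_apply, a3,
      smul_eq_mul, mul_add, mul_sub, a1, a2]
    simp only [ec, Dl42.Ga, sl, qq, Pi.zero_apply, Pre.D_def, dv_const, inner_zero_right,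
      show sd (e0 e) (fun _ _ => 0) k y = 0 from Cyc79.sd_zero k y]
    change _ + (_ + sd e (yc e u).a k y / 2 - 2 / 4 * ⟪e.m.J (τ e k y ((yc e u).Φ y)), sp (u y)⟫_ℝ) -
      _ + _ = _
    ring
  · have a1 : -e.m.ρ none y (e.cyl.two.eD c (y, 0)) = _ := Dl42.eD_split (ok_e0 he) h1 y 0
    have a2 := rho_sum he (A.pΦ y) fun i => co i (u y)
    have a3 : e.cyl.pm (y, 0) (e.cyl.two.eD c (y, 0)) = e.cyl.two.eD c (y, 0) :=
      (map_add _ _ _).trans (congrArg₂ _ (Op40.pm_dir (two_ok he.cyl) (h1.sΦ _) (.of_forall h1.pΦ))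
        (Op40.pm_ms he.cyl _))
    rw [show (Dl42.dt (e := e0 e) c).Φ (y, 0) = 0 from ec ▸ congrFun (D_none_fst _ A.sΦ) _] at a1
    rw [show e.cyl.two.eD ⟨0, 0⟩ (y, 0) = 0 by simp [Bg.eD, Wz78.dir, Wz78.nab, dv_zero], sub_zero,
      map_sub, map_sub, neg_sub', a3, a1]
    refine (congrArg _ a2).trans ?_
    simp only [ec, GP, sl]
    change 0 + co none (u y) • e.m.J ((yc e u).Φ y) + (D0 e (yc e u).Φ y -
      ∑ k, co (some k) (u y) • e.m.J (τ e k y ((yc e u).Φ y))) - _ = _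
    abel

theorem sm_sop {u : e.Y.M → Cf κ ν} (hu : Sm e.Y.I u) : Sm e.Y.I ((sop e.A0).app e.D.F u) := by
  have h := (inZ he).A0
  have s : ∀ i, Sm e.Y.I (e.A0.σ i) := fun i => Op78.Iv.sm (h.σ i)
  have n : Sm e.Y.I (nu e.A0) := (Ell97.trL _ _).contMDiff.comp (s none)
  exact sm_op (fun k => n.clm_comp (s _)) (n.clm_comp (Op78.Iv.sm h.B)) hu

omit he in
theorem nul_g {χ : e.Y.M → ℝ} {a : κ → e.Y.M → ℝ} (hχ : Sm e.Y.I χ) (ha : ∀ k, Sm e.Y.I (a k)) :
    Nul e.D.F.μ fun y => χ y * End23.dvg e a y + ∑ k, e.D.F.D k χ y * a k y :=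
  (Dl42.nul_dvg e.D.F fun k y => SA.mul (hχ y) (ha k y)).of fun y => by
    simp only [Wz78.dvg, End23.dvg, fun k => Wz78.dv_mul (e := e.D.F.e k) (hχ y) (ha k y), mul_sum,
      Pre.D_def, ← sum_add_distrib]
    exact sum_congr rfl fun k _ => by ring

/-- **the operator on the cross-section is symmetric** -/
theorem cyO_A0 : CyO e.D.F e.A0 := by
  refine ⟨e.Y.dim.le, cyo_A0 he ▸ good_A0 he.cyl, cyo_A0 he ▸ cliff_A0 he.cyl, fun u w => ?_⟩
  have A := ay_yc u.2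
  have B := ay_yc w.2
  have n1 := Dl42.nul_sd he B.sa A.sa B.pa A.pa
  have n2 := Dl42.nul_D0 he A.sΦ B.sΦ (fun y => Dl42.p_of he.cyl (A.pΦ y))
    fun y => Dl42.p_of he.cyl (B.pΦ y)
  refine (((((nul_g ((co none).contMDiff.comp w.2.1) A.sa).add
    ((nul_g ((co none).contMDiff.comp u.2.1) B.sa).mul (-1))).add (n1.mul (1 / 2))).add
    n2).eq (Dl42.ii _ fun y => SA.inner (u.2.1 y) (sm_sop he w.2.1 y)) fun y => ?_)
  simp only [sop_eq he u.2, sop_eq he w.2, inner_co, L3, co_mk3, sp_mk3, Option.elim_none,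
    Option.elim_some, yc, Function.comp_def, sub_mul, mul_sub, sum_sub_distrib, div_mul_eq_mul_div,
    ← sum_div, mul_comm (co (some _) _)]
  ring

theorem prj_p : Prj e.A0.p :=
  ⟨fun y => (Op40.prjC he.cyl).idem (y, 0), fun y => (Op40.prjC he.cyl).symm (y, 0)⟩

theorem sym_lo (hv : e.cyl.Adm (fz v)) (u w : Cf κ ν) :
    ⟪nu e.A0 y (e.cyl.lo (fz v) (y, 0) u), w⟫_ℝ = ⟪u, nu e.A0 y (e.cyl.lo (fz v) (y, 0) w)⟫_ℝ := by
  have P := prj_p he
  have h : ∀ u w : Cf κ ν, ⟪nu e.A0 y (e.cyl.lo (fz v) (y, 0) u), w⟫_ℝ =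
      ⟪N3 e y (v.a · y) (v.Φ y) (e.A0.p y u), e.A0.p y w⟫_ℝ := fun u w => by
    rw [← nu_lo he hv (P.idem _ _), ← (cyO_A0 he).p_nu, P.symm]
    exact congrArg (fun z => ⟪nu e.A0 y (((full e.cyl.two (fz v)).B (y, 0) - e.cyl.A0.B (y, 0)) z),
      e.A0.p y w⟫_ℝ) (P.idem y u).symm
  rw [h, real_inner_comm _ u, h]
  generalize e.A0.p y u = u
  generalize e.A0.p y w = w
  have q : ∀ k, ⟪e.m.J (τ e k y (sp u)), sp w⟫_ℝ = ⟪e.m.J (τ e k y (sp w)), sp u⟫_ℝ := fun k =>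
    Dl42.qq_comm he k (fun _ => sp u) (fun _ => sp w) y
  simp only [inner_co, N3, co_mk3, sp_mk3, Option.elim_none, Option.elim_some, inner_sub_left,
    sum_inner, inner_add_left, real_inner_smul_left, q, sum_add_distrib, neg_mul, sum_neg_distrib,
    mul_comm (co (some _) _)]
  ring

theorem sm_lo (hv : e.cyl.Adm (fz v)) :
    Sm e.Y.I fun y => nu e.A0 y ∘L e.cyl.lo (fz v) (y, 0) :=
  (cyO_A0 he).sm_nu.clm_comp (Op78.Iv.sm ((inZ he).lo (c := fun _ => fz v)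
    (fun i => .of (hv.sa i) fun _ => by cases i <;> rfl) (.of hv.sΦ fun _ => rfl)))

omit he in
theorem adm_scl (hv : e.cyl.Adm (fz v)) (r : ℝ) : e.cyl.Adm (fz ⟨v.a, fun y => r • v.Φ y⟩) :=
  ⟨hv.sa, (contMDiff_const (I' := 𝓘(ℝ, ℝ)) (c := r)).smul hv.sΦ, hv.pa,
    fun x => (map_smul _ _ _).trans (congrArg _ (hv.pΦ x))⟩

theorem ζ00 (y : e.Y.M) : e.ζ y (none, none) = 0 := he.pζ y ▸ p2_nn he _

omit he in
theorem p_i2 (φ : Eu ν) : e.A0.p y (i2 _ _ φ) = i2 _ _ (e.cyl.pp (y, 0) φ) :=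
  ext2 ((f2_ps _ _).trans (map_zero _)) (s2_ps _ _)

theorem tok_hs (hv : e.cyl.Adm (fz v)) : e.TOK (hs v) := by
  have s : Sm e.Y.I fun y => e.b (nm v) • (i2 (Fm (Option κ) ℝ) _ ∘L e.cyl.pp (y, 0) ∘L sp (κ := κ)) :=
    fun y => SA.smul contMDiffAt_const (contMDiffAt_const.clm_comp
      ((sm_slice_fst (Op40.sa_pp he.cyl) 0 y).clm_comp contMDiffAt_const))
  refine ⟨by apply ContMDiff.sub; exacts [sm_lo he (adm_scl hv _), s], fun y u w => ?_,
    fun y u => ?_, fun j => ?_⟩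
  · simp only [hs, sub_apply, smul_apply, ContinuousLinearMap.comp_apply, inner_sub_left,
      inner_sub_right, real_inner_smul_left, real_inner_smul_right,
      sym_lo he (adm_scl hv _)]
    simp only [inner2, f2_i2, s2_i2, inner_zero_left, inner_zero_right, (Op40.prjp he.cyl).symm]
  · simp only [hs, sub_apply, smul_apply, ContinuousLinearMap.comp_apply, map_sub, map_smul,
      (cyO_A0 he).p_nu, p_i2, (Op40.prjp he.cyl).idem]
  cases j
  · exact ⟨fun y => SA.clm (i1 _ (Eu ν)) (SA.toLp fun a => Dl42.sm_ζ he (none, a) y),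
      .of_compactSpace _, fun y => ext2 ((f2_ps _ _).trans (fm_ext fun a => (idx_apply _ _ _ _).trans
        ((he.pζ y ▸ Op40.sd_p2 he.cyl (x := (y, 0)) (e.ζ y)).pr' none a)))
      ((s2_ps _ _).trans (map_zero _))⟩
  · exact ⟨fun y => SA.clm (i2 (Fm (Option κ) ℝ) _) ((Dl42.ay_of hv).sΦ y), .of_compactSpace _,
      fun y => (p_i2 _).trans (congrArg _ (hv.pΦ (y, 0)))⟩

theorem tok_z0 (hv : e.cyl.Adm (fz v)) : e.TOK (e.z0 v.a) := by
  have h0 : e.cyl.Adm (fz ⟨v.a, 0⟩) := ⟨hv.sa, contMDiff_const, hv.pa, fun _ => map_zero _⟩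
  have s : Sm e.Y.I fun y => e.eps • e.A0.p y :=
    fun y => SA.smul contMDiffAt_const (Op78.Iv.sm (inZ he).A0.p y)
  refine ⟨by apply ContMDiff.add; exacts [sm_lo he h0, s], fun y u w => ?_, fun y u => ?_,
    fun _ => (Sec _ _).zero_mem⟩
  · simp only [z0, add_apply, smul_apply, ContinuousLinearMap.comp_apply, inner_add_left,
      inner_add_right, real_inner_smul_left, real_inner_smul_right, sym_lo he h0,
      (prj_p he).symm]
  · simp only [z0, add_apply, smul_apply, ContinuousLinearMap.comp_apply, map_add, map_smul,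
      (cyO_A0 he).p_nu, (prj_p he).idem]

omit he in
theorem D0_sc (r : ℝ) {φ : e.Y.M → Eu ν} (hφ : Sm e.Y.I φ) (y : e.Y.M) :
    D0 e (fun y => r • φ y) y = r • D0 e φ y := by
  have h : ∀ k, dv e.Y.I (e.D.F.e k) (fun y => r • φ y) y = r • dv e.Y.I (e.D.F.e k) φ y := fun k =>
    congrFun (e.D.F.D_smul hφ r k) y
  simp only [D0, Wz78.dop, Wz78.nab, h, map_add, map_smul, smul_neg, smul_add, smul_sum]

/-- **the extended Hessian** -/
theorem hs_eq (hw : 0 < e.w) (hv : e.cyl.Adm (fz v)) {u : e.Y.M → Cf κ ν}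
    (hu : u ∈ Sec e.Y.I e.A0.p) (y : e.Y.M) :
    End23.hs v u y = L3 e u y + e.ap (hs v) u y := by
  have A := ay_yc hu
  have l0 : End23.dl e ≠ 0 := (Real.sqrt_pos.2 (half_pos hw)).ne'
  have l2 : End23.dl e * End23.dl e = e.w / 2 := Real.mul_self_sqrt (half_pos hw).le
  have T : Ay (End23.tg e u) := ⟨A.sa, fun y => SA.smul contMDiffAt_const (A.sΦ y), A.pa,
    fun y => (map_smul _ _ _).trans (congrArg _ (A.pΦ y))⟩
  have h2 : hol (End23.tg e u) =
      4 * ∫ z, ⟪i1 _ _ (WithLp.toLp 2 fun a => e.ζ z (none, a)), u z⟫_ℝ ∂e.D.F.μ := by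
    simp only [inner2, f2_i1, s2_i1, inner_zero_left, add_zero]
    simp [PiLp.inner_apply, ζ00 he, hol, integral_const_mul, End23.tg, mul_comm]
  have h1 : ∫ z, ⟪i2 _ _ (v.Φ z), u z⟫_ℝ ∂e.D.F.μ = ∫ z, ⟪v.Φ z, sp (u z)⟫_ℝ ∂e.D.F.μ := by
    simp only [inner2, f2_i2, s2_i2, inner_zero_left, zero_add]
  have h3 : e.cyl.pp (y, 0) (sp (u y)) = sp (u y) := A.pΦ y
  have d1 : ∀ k, deriv (fun r => (gr (v.vr (End23.tg e u) r)).a k y) 0 = sd e (yc e u).a k y / 2 -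
      e.w / 4 * (qq e k (End23.tg e u).Φ v.Φ y + qq e k v.Φ (End23.tg e u).Φ y) +
      2 * (deriv (deriv e.f) (hol v) * hol (End23.tg e u)) * e.ζ y (none, some k) := fun k =>
    (Cyc79.der_a he (Dl42.ay_of hv) T k y).deriv
  have d2 : deriv (fun r => (gr (v.vr (End23.tg e u) r)).Φ y) 0 =
      D0 e (fun y => (End23.dl e)⁻¹ • (yc e u).Φ y) y - ∑ k, (co (some k) (u y) •
      e.m.J (τ e k y (v.Φ y)) + v.a k y • e.m.J (τ e k y ((End23.dl e)⁻¹ • sp (u y)))) -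
      (e.b (nm v) • (End23.dl e)⁻¹ • sp (u y) + (deriv e.b (nm v) *
        ∫ z, 2 * ⟪v.Φ z, (End23.dl e)⁻¹ • sp (u z)⟫_ℝ ∂e.D.F.μ) • v.Φ y) :=
    (Cyc79.der_Φ he (Dl42.ay_of hv) T y).deriv
  simp only [End23.hs, d1, d2, ap, hs, Fintype.sum_bool, cond_true, cond_false, sub_apply,
    smul_apply, ContinuousLinearMap.comp_apply, h1, h2, h3, nu_lo he (adm_scl hv _) (hu.2.2 y),
    D0_sc _ A.sΦ, Dl42.qq_comm he _ _ v.Φ]
  have c1 : ∀ o (α : Fm (Option κ) ℝ), co o (i1 _ (Eu ν) α) = α o := fun _ _ => rfl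
  have c2 : ∀ o (φ : Eu ν), co (κ := κ) o (i2 _ _ φ) = 0 := fun _ _ => rfl
  rw [show √(e.w / 2) = End23.dl e from rfl]
  refine ext_co ?_ (fun k => ?_) ?_ <;>
    simp only [map_add, map_sub, map_smul, c1, c2, L3, N3, co_mk3, sp_mk3, s2_i1, s2_i2,
      Option.elim_none, Option.elim_some, ζ00 he, smul_zero, add_zero, sub_zero, zero_add,
      real_inner_smul_left, real_inner_smul_right, qq, smul_eq_mul, mul_zero]
  · rfl
  · simp only [End23.tg, real_inner_smul_right, co_apply, show e.w = 2 * (End23.dl e * End23.dl e) by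
      linarith]
    field_simp
    ring
  · have k : ∀ r, End23.dl e * (r * (End23.dl e)⁻¹) = r := fun r => by field_simp
    have k' : ∀ r t, End23.dl e * (r * (2 * ((End23.dl e)⁻¹ * t))) = 2 * r * t := fun r t => by
      field_simp
    simp only [integral_const_mul, smul_add, smul_sub, smul_sum, smul_smul, k, k', co_apply,
      mul_inv_cancel₀ l0, one_smul, sum_add_distrib, mul_comm _ (End23.dl e)]
    module

/-- **the base operator** -/
theorem sop_hs0 {u : e.Y.M → Cf κ ν} (hu : u ∈ Sec e.Y.I e.A0.p) :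
    (sop e.A0).app e.D.F u = End23.hs0 e u := funext fun y => by
  have h0 : (e0 e).cyl.Adm (fz ⟨0, 0⟩) := Cyc79.ay_zero.adm
  refine (sop_eq he hu y).trans (Eq.trans ?_ (hs_eq (ok_e0 he) two_pos h0 hu y).symm)
  simp only [ap, hs, Fintype.sum_bool, cond_true, cond_false, sub_apply, smul_apply,
    ContinuousLinearMap.comp_apply, nu_lo (ok_e0 he) (adm_scl h0 _) (hu.2.2 y)]
  simp [N3, show mk3 (κ := κ) (ν := ν) 0 (fun _ => 0) 0 = 0 from ext_co (by simp) (by simp) (by simp)]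
  rfl

/-- the zero order part of the Hessian -/
theorem hs_ap (hw : 0 < e.w) (hv : e.cyl.Adm (fz v)) {u : e.Y.M → Cf κ ν}
    (hu : u ∈ Sec e.Y.I e.A0.p) (y : e.Y.M) :
    End23.hs v u y - End23.hs0 e u y = e.ap (hs v) u y := by
  rw [hs_eq he hw hv hu, ← sop_hs0 he hu, sop_eq he hu, add_sub_cancel_left]

omit he
variable (κ lam ν)

/-- **IX-SYM** -/
theorem ixSym : IxSym κ lam ν := ⟨fun _ => cyO_A0, fun _ he _ hv => ⟨tok_hs he hv, tok_z0 he hv⟩⟩

/-- **IX-MU** -/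
theorem ixMu : IxMu κ lam ν := fun _ he => ⟨liftT_congr fun u => (sop_hs0 he u.2).symm,
  fun hw _ hv => liftT_congr fun u => funext (hs_ap he hw hv u.2)⟩

end Crest.Agent.X212.Map77.S
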