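import Crest.Agent.X212.Map77.S2
import Crest.Agent.X212.Pb50.Rep

/-! # Lane MODEL-S: coordinates, the local map, the gauge row -/

set_option autoImplicit false
set_option linter.unusedSectionVars false
noncomputable section
open scoped Manifold ContDiff Topology InnerProductSpace
open MeasureTheory Set Function Filter

namespace Crest.Agent.X212.Map77.S
open An An.Pre Sob92 Prm93 Sw Sw.En3 Mon62 Pb50
open M (Mf)

variable {κ lam ν : Type} [Fintype κ] [Fintype lam] [Fintype ν] [DecidableEq ν]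

section gen
variable {X X' Y : Type} [NormedAddCommGroup X] [NormedSpace ℝ X] [NormedAddCommGroup X']
  [NormedSpace ℝ X'] [NormedAddCommGroup Y] [NormedSpace ℝ Y]

/-- a functional times a map -/
def smR (l : X →L[ℝ] ℝ) : (X' →L[ℝ] Y) →L[ℝ] X →L[ℝ] X' →L[ℝ] Y :=
  ContinuousLinearMap.smulRightL ℝ X (X' →L[ℝ] Y) l

@[simp] theorem smR_apply (l : X →L[ℝ] ℝ) (A : X' →L[ℝ] Y) (x : X) (y : X') :
    smR l A x y = l x • A y := rfl

variable {Y' Z : Type} [NormedAddCommGroup Y'] [NormedSpace ℝ Y'] [NormedAddCommGroup Z]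
  [NormedSpace ℝ Z] (A : X →L[ℝ] X') (B : Y →L[ℝ] Y') (v : X × Y × Z)

theorem pm3 : A.prodMap (B.prodMap (.id ℝ Z)) v = (A v.1, B v.2.1, v.2.2) := rfl
theorem pm3_1 : (A.prodMap (B.prodMap (.id ℝ Z)) v).1 = A v.1 := rfl
theorem pm3_2 : (A.prodMap (B.prodMap (.id ℝ Z)) v).2.1 = B v.2.1 := rfl
theorem pm3_3 : (A.prodMap (B.prodMap (.id ℝ Z)) v).2.2 = v.2.2 := rfl

/-- the shape of the quadratic terms -/
def bq {α : Type} [Fintype α] (l : α → X →L[ℝ] ℝ) (A : α → X →L[ℝ] Y) (w : ℝ)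
    (q : X' →L[ℝ] X' →L[ℝ] Z) (p : X →L[ℝ] X') : X →L[ℝ] X →L[ℝ] P2 Y Z :=
  ∑ i, smR (l i) (i1 _ _ ∘L A i) - post (w • i2 _ _) ((q ∘L p).flip ∘L p).flip

theorem bq_apply {α : Type} [Fintype α] (l : α → X →L[ℝ] ℝ) (A : α → X →L[ℝ] Y) (w : ℝ)
    (q : X' →L[ℝ] X' →L[ℝ] Z) (p : X →L[ℝ] X') (u v : X) :
    bq l A w q p u v = i1 _ _ (∑ i, l i u • A i v) - i2 _ _ (w • q (p u) (p v)) := by simp [bq]

theorem add_add_sub_add {G : Type} [AddCommGroup G] (a b c e b' e' : G) (h : b' = b := by rfl)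
    (h' : e' = e := by rfl) : a - b + (c + e) + (b' - e') = a + c := by rw [h, h']; abel

end gen

section op
variable {E : Type} [NormedAddCommGroup E] [NormedSpace ℝ E] [FiniteDimensional ℝ E]
  [MeasurableSpace E] [BorelSpace E]
  {HM : Type} [TopologicalSpace HM] {I : ModelWithCorners ℝ E HM}
  {M : Type} [TopologicalSpace M] [ChartedSpace HM M] [IsManifold I ∞ M] [MeasurableSpace M]
  {nc : ℕ} (b : Bg I M κ lam ν nc)

theorem qL_apply (x : M) (u v : Eu ν) : qL b x u v = b.qd x u v := by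
  ext s
  have := congrArg (fun T : ℝ →L[ℝ] F2 κ => T 1 s) (tp_eq fun s : Option κ × Option κ =>
    (ContinuousLinearMap.id ℝ ℝ).smulRight (b.qd x u v s))
  simpa [qL, Bg.qd, real_inner_comm u, -Fintype.sum_option] using this.symm

/-- the quadratic terms -/
def β0 (x : M) : Cf κ ν →L[ℝ] Cf κ ν →L[ℝ] P2 (Eu ν) (F2 κ) :=
  post (ps b.pm b.p2 x) (bq co (fun i => b.m.ρ i x ∘L b.jp x ∘L sp) b.w (qL b x) sp)

theorem β0_apply (h : b.OK) {x : M} (u v : Cf κ ν) (hv : b.pp x (sp v) = sp v) : β0 b x u v =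
    i1 _ _ (∑ i, co i u • b.m.ρ i x (b.jp x (sp v))) -
      i2 _ _ (b.w • b.p2 x (b.qd x (sp u) (sp v))) :=
  ext2 (by simp [β0, bq_apply, pm_ρ h (pp_jp h hv), -Fintype.sum_option])
    (by simp [β0, bq_apply, qL_apply, -Fintype.sum_option])

theorem _root_.Crest.Agent.X212.Map77.Cls.bq {J ι α X X' Y Z : Type} [Fintype ι] [Fintype α]
    [NormedAddCommGroup X] [NormedSpace ℝ X] [NormedAddCommGroup X'] [NormedSpace ℝ X']
    [NormedAddCommGroup Y] [NormedSpace ℝ Y] [NormedAddCommGroup Z] [NormedSpace ℝ Z]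
    {F : J → Pre I M ι} {K : Cls F} (l : α → X →L[ℝ] ℝ) {A : α → J → M → X →L[ℝ] Y} {w : J → M → ℝ}
    {q : J → M → X' →L[ℝ] X' →L[ℝ] Z} (p : X →L[ℝ] X') (hA : ∀ i, K.mem (A i)) (hw : K.mem w)
    (hq : K.mem q) : K.mem fun j x => S.bq l (fun i => A i j x) (w j x) (q j x) p :=
  Cls.sub (Cls.sum fun i => Cls.clm (N' := X →L[ℝ] X →L[ℝ] P2 Y Z) (smR (l i))
    (Cls.comp (K.const _) (hA i))) (Cls.post (Cls.smul hw (K.const _))
      (Cls.flip (Cls.comp (Cls.flip (Cls.comp hq (K.const _))) (K.const _))))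

theorem In.β0 {J : Type} {b : J → Bg I M κ lam ν nc} {K : Cls fun j => (b j).F.toPre} (h : In K) :
    K.mem fun j => S.β0 (b j) := by
  have h1 := fun i => Cls.comp (h.ρ i) (Cls.comp h.jp (K.const (sp (κ := κ))))
  have h2 := Cls.bq (co (ν := ν)) sp h1 h.w h.qL
  have h3 := Cls.post (Cls.ps h.pm h.p2) h2
  exact h3

/-- the row of the local operator on differentiable sections -/
theorem s2_full (c : Sw.Cfg M κ ν) (hp : Sm I (pC b)) {u : M → Cf κ ν}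
    (hu : MDifferentiable I 𝓘(ℝ, Cf κ ν) u) (h : ∀ x, pC b x (u x) = u x) (x : M) :
    s2 _ _ ((full b c).app b.F u x) = lG b c u x := by
  have e : ∀ a, b.F.D a u x = b.F.D a (pC b) x (u x) + pC b x (b.F.D a u x) := fun a => by
    rw [D_def, D_def, ← dv_app (hp.mdifferentiableAt (by simp)) (hu x), funext h]
  have e' : ∀ a, b.F.D a (fun y => co a (u y)) x = co a (b.F.D a u x) := fun a => dv_clm _ (hu x)
  simp only [lG, e']
  conv_rhs => enter [1, 2, a]; rw [e a]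
  simp [full, cut, Op.app, Pre.op, σF, BF, triv, Finset.sum_add_distrib, -Fintype.sum_option]
  ring

end op

variable {d : Dt κ lam ν} {N : Type} [Fintype N] {ty : N → d.𝓔} {X : Mf 4} {nc nr : ℕ}
  {T : Type} [NormedAddCommGroup T] [NormedSpace ℝ T] [FiniteDimensional ℝ T]
  {s : Pz X 0 fun i => d.e (ty i)} {σ : Cel s nc nr T} {k j : ℕ} {t : T}

theorem jC_apply (v : σ.C k) : jC σ k t v =
    iH1 _ _ _ _ (mS s (k + 1) (σ.S t) v.1) + iH2 _ _ _ _ v.2.1 := rfl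

theorem eC_apply (u : HC s (k + 1)) : eC σ k t u =
    (mS s (k + 1) (σ.Si t) (fH _ _ _ _ u), sH _ _ _ _ u, 0) := rfl

theorem jY_apply (w : σ.Y k) : jY σ k w = iH1 _ _ _ _ w.1 + iH2 _ _ _ _ w.2.1 := rfl

theorem jE_apply (w : σ.Y k × HR s k) :
    jE σ k w = iH1 _ _ _ _ (jY σ k w.1) + (1 / 2 : ℝ) • iH2 _ _ _ _ w.2 := rfl

theorem iC_apply (v : σ.C k) : iC σ k j v =
    (s.bg.F.incl (k + 1) (j + 1) _ v.1, s.bg.F.incl (k + 1) (j + 1) _ v.2.1, v.2.2) := pm3 _ _ v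

theorem iC_t (v : σ.C k) : (iC σ k j v).2.2 = v.2.2 := pm3_3 _ _ v

theorem iC_Φ (v : σ.C k) : (iC σ k j v).2.1 = s.bg.F.incl (k + 1) (j + 1) _ v.2.1 :=
  pm3_2 _ _ v

theorem iC_mem {v : σ.C k} (hv : v ∈ σ.U k) : iC σ k j v ∈ σ.U j :=
  mem_of_eq_of_mem (s := σ.Q) (iC_t v) hv

theorem iY_apply (w : σ.Y k) : iY σ k j w =
    (s.bg.F.incl k j _ w.1, s.bg.F.incl k j _ w.2.1, w.2.2) := pm3 _ _ w

theorem row_apply (v u : σ.C k) : row σ k v u =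
    (2 : ℝ) • sH _ _ _ _ (LF σ k v.2.2 (σ.bs v.2.2) (jC σ k v.2.2 u)) + s.bg.w •
      s.bg.F.incl (k + 1) k _ (s.bg.F.bilH (k + 1) (k + 1) s.bg.pp s.bg.pp (triv X.M ℝ) (k + 1)
        (fun _ => innerSL ℝ ∘L s.bg.m.J) v.2.1 u.2.1) := rfl

theorem Tc_apply (q : d.W →₀ ℝ) (v : σ.C k) (u : HC s (k + 1)) : Tc σ k q v u =
    jE σ k (fderiv ℝ (σ.F k q) v (eC σ k v.2.2 u), row σ k v (eC σ k v.2.2 u)) := rfl

theorem incl_jY (hj : j ≤ k) (w : σ.Y k) :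
    s.bg.F.incl k j _ (jY σ k w) = jY σ j (iY σ k j w) := by
  rw [jY_apply, map_add, incl_iH1 hj, incl_iH2 hj, iY_apply, jY_apply]

variable (s k) in
/-- the quadratic terms on Sobolev spaces -/
def βH : HC s k →L[ℝ] HC s k →L[ℝ] s.bg.F.H k (ps s.bg.pm s.bg.p2) :=
  s.bg.F.bilH k k _ _ _ k (β0 s.bg)

variable (σ k) in
/-- the local part of the field equations -/
def NL (v : σ.C k) : s.bg.F.H k (ps s.bg.pm s.bg.p2) :=
  fH _ _ _ _ (LF σ k v.2.2 (σ.bs v.2.2) (jC σ k v.2.2 v)) +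
    s.bg.F.incl (k + 1) k _ (βH s (k + 1) (jC σ k v.2.2 v) (jC σ k v.2.2 v))

variable (σ k) in
/-- a section of the right inverse of `jY` -/
def eY : s.bg.F.H k (ps s.bg.pm s.bg.p2) →L[ℝ] σ.Y k := (fH _ _ _ _).prod ((sH _ _ _ _).prod 0)

theorem jY_eY (w : s.bg.F.H k (ps s.bg.pm s.bg.p2)) : jY σ k (eY σ k w) = w := iH_add w

section ok
variable (h : σ.toFam.OK)
include h

theorem cb_pC : s.bg.F.Cb (pC s.bg) := Cb_ps (cb_p1 h) (cb_pp h)
theorem cb_pE : s.bg.F.Cb (pE s.bg) := Cb_ps (Cb_ps (cb_pm h) (cb_p2 h)) (Cb_const _)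
theorem prj_pC : Prj (pC s.bg) := (prj_p1 h.site.bg).ps (prj_pp h.site.bg)
theorem prj_pE : Prj (pE s.bg) :=
  ((prj_pm h.site.bg).ps (prj_p2 h.site.bg)).ps ⟨fun _ _ => rfl, fun _ _ _ => rfl⟩

theorem sb_idx {S : T → X.M → Option κ → Option κ → ℝ}
    (hS : ∀ a b, SB s.bg.F.toPre σ.Q fun t x => S t x a b) :
    SB s.bg.F.toPre σ.Q fun t x => idx (S t x) (ContinuousLinearMap.id ℝ ℝ) :=
  Cls.idx (K := KS h) hS ((KS h).const _)

omit h in
theorem maps_idx {S : X.M → Option κ → Option κ → ℝ}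
    (hS : ∀ x a b, ∑ c, s.bg.B.P a c x * S x c b = S x a b) :
    Maps s.bg.p1 s.bg.p1 fun x => idx (S x) (ContinuousLinearMap.id ℝ ℝ) :=
  Maps.of_left fun x v => by simp only [Bg.p1, idx_idx, hS]; rfl

theorem sm_mS : ContDiffOn ℝ ∞ (fun t => mS s k (σ.S t)) σ.Q :=
  (sb_idx h h.sS).mulH (cb_p1 h) (prj_p1 h.site.bg).idem fun t ht => maps_idx (h.PS t ht)

theorem sm_jC : ContDiffOn ℝ ∞ (jC σ k) σ.Q := by
  have : jC σ k = fun t => iH1 _ _ _ _ ∘L mS s (k + 1) (σ.S t) ∘L ContinuousLinearMap.fst ℝ _ _ +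
      iH2 _ _ _ _ ∘L ContinuousLinearMap.fst ℝ _ _ ∘L ContinuousLinearMap.snd ℝ _ _ := rfl
  rw [this]
  exact (contDiffOn_const.clm_comp ((sm_mS h).clm_comp contDiffOn_const)).add contDiffOn_const

theorem sm_LF {c : T → Sw.Cfg X.M κ ν} (ha : ∀ i, SB s.bg.F.toPre σ.Q fun t => (c t).a i)
    (hΦ : SB s.bg.F.toPre σ.Q fun t => (c t).Φ) : ContDiffOn ℝ ∞ (fun t => LF σ k t (c t)) σ.Q :=
  have H := (inK h).full ha hΦ
  SB.lift_op h.mix h.sS H.σ H.B (cb_pE h) (prj_pE h).idem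
    (fun _ _ _ x _ => (prj_pE h).idem x _) fun _ _ => Maps.of_left fun x _ => (prj_pE h).idem x _

theorem cb_β0 : s.bg.F.Cb (β0 s.bg) := (inK h).β0.cb _ h.ne.some_mem

theorem maps_β0 : Maps₂ (pC s.bg) (pC s.bg) (ps s.bg.pm s.bg.p2) (β0 s.bg) :=
  Maps₂.of_left fun x _ _ => ((prj_pm h.site.bg).ps (prj_p2 h.site.bg)).idem x _

theorem iC_pt (hβ : s.Cr σ.β) (hj : 3 ≤ j) (hk : j ≤ k) (y : σ.Pnt) :
    iC σ k j (σ.pt k y) = σ.pt j y :=
  (iC_apply _).trans (Prod.ext (incl_ofV (sup h) (hs_a h hβ y) (by omega) (by omega))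
    (Prod.ext (incl_ofV (sup h) (hs_Φ h hβ y) (by omega) (by omega)) rfl))

theorem val_jY (hk : 4 ≤ k) (w : σ.Y k) (x : X.M) : s.bg.F.val _ _ (jY σ k w) x =
    i1 _ _ (s.bg.F.val _ _ w.1 x) + i2 _ _ (s.bg.F.val _ _ w.2.1 x) := by
  rw [jY_apply, val_add, Pi.add_apply]
  exact congrArg₂ (· + ·) (val_mulH (sup h) hk (Cb_const _) maps_i1 _ x)
    (val_mulH (sup h) hk (Cb_const _) maps_i2 _ x)

theorem val_jE (hk : 4 ≤ k) (w : σ.Y k × HR s k) (x : X.M) : s.bg.F.val _ _ (jE σ k w) x =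
    i1 _ _ (s.bg.F.val _ _ (jY σ k w.1) x) + (1 / 2 : ℝ) • i2 _ _ (s.bg.F.val _ _ w.2 x) := by
  rw [jE_apply, val_add, val_smul, Pi.add_apply, Pi.smul_apply]
  exact congrArg₂ (· + (1 / 2 : ℝ) • ·) (val_mulH (sup h) hk (Cb_const _) maps_i1 _ x)
    (val_mulH (sup h) hk (Cb_const _) maps_i2 _ x)

variable (ht : t ∈ σ.Q)
include ht

theorem rep_mS : s.bg.F.Rep (mS s k (σ.S t)) fun u x => idx (σ.S t x) (.id ℝ ℝ) (u x) :=
  rep_mulH ((sb_idx h h.sS).cb t ht) (maps_idx (h.PS t ht))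

theorem rep_mSi : s.bg.F.Rep (mS s k (σ.Si t)) fun u x => idx (σ.Si t x) (.id ℝ ℝ) (u x) :=
  rep_mulH ((sb_idx h h.sSi).cb t ht) (maps_idx (h.PSi t ht))

theorem mS_mSi (u : s.bg.F.H k s.bg.p1) : mS s k (σ.S t) (mS s k (σ.Si t) u) = u :=
  DFunLike.congr_fun (RepT_eq (RepT_comp (rep_mS h ht) (rep_mSi h ht)) Rep_id fun u =>
    funext fun x => by simp only [idx_idx, h.SSi t ht]; exact u.2.2.2 x) u

theorem mSi_mS (u : s.bg.F.H k s.bg.p1) : mS s k (σ.Si t) (mS s k (σ.S t) u) = u :=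
  DFunLike.congr_fun (RepT_eq (RepT_comp (rep_mSi h ht) (rep_mS h ht)) Rep_id fun u =>
    funext fun x => by simp only [idx_idx, h.SiS t ht]; exact u.2.2.2 x) u

theorem jC_eC (u : HC s (k + 1)) : jC σ k t (eC σ k t u) = u := by
  rw [jC_apply, eC_apply, mS_mSi h ht]; exact iH_add u

theorem eC_jC (v : σ.C k) : eC σ k t (jC σ k t v) = (v.1, v.2.1, 0) := by
  rw [eC_apply, jC_apply, map_add, map_add (sH _ _ _ _), fH_iH1, fH_iH2, sH_iH1, sH_iH2, add_zero,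
    zero_add, mSi_mS h ht]

theorem incl_jC (hj : j ≤ k) (v : σ.C k) :
    s.bg.F.incl (k + 1) (j + 1) _ (jC σ k t v) = jC σ j t (iC σ k j v) := by
  rw [jC_apply, map_add, incl_iH1 (by omega), incl_iH2 (by omega),
    Rep_incl (rep_mS h ht) (rep_mS h ht) (by omega) (by omega), iC_apply, jC_apply]

theorem val_jC (hk : 3 ≤ k) (v : σ.C k) (x : X.M) : s.bg.F.val _ _ (jC σ k t v) x =
    i1 _ _ (idx (σ.S t x) (.id ℝ ℝ) (s.bg.F.val _ _ v.1 x)) + i2 _ _ (s.bg.F.val _ _ v.2.1 x) := by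
  rw [jC_apply, val_add, Pi.add_apply]
  exact congrArg₂ (· + ·) ((val_mulH (sup h) (by omega) (Cb_const _) maps_i1 _ x).trans
    (congrArg _ (val_mulH (sup h) (by omega) ((sb_idx h h.sS).cb t ht) (maps_idx (h.PS t ht)) _ x)))
    (val_mulH (sup h) (by omega) (Cb_const _) maps_i2 _ x)

theorem co_jC (hk : 3 ≤ k) (v : σ.C k) (x : X.M) (a : Option κ) :
    co a (s.bg.F.val _ _ (jC σ k t v) x) = ∑ b, σ.S t x a b * s.bg.F.val _ _ v.1 x b := by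
  simp [val_jC h ht hk, co_apply, -Fintype.sum_option]

theorem sp_jC (hk : 3 ≤ k) (v : σ.C k) (x : X.M) :
    sp (s.bg.F.val _ _ (jC σ k t v) x) = s.bg.F.val _ _ v.2.1 x := by
  simp [val_jC h ht hk]

variable {c : Sw.Cfg X.M κ ν}

theorem nc_full (ha : ∀ i, s.bg.F.Cb (c.a i)) (hΦ : s.bg.F.Cb c.Φ) (ho : OpAt (bg σ t) c) :
    Nc s.bg.F.toPre (bg σ t).F.P (full (bg σ t) c) :=
  Nc.of_sb ((inK h).full (c := fun _ => c) (fun i => SB.fixed (ha i)) (SB.fixed hΦ)) ht ho.alg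

variable (hc : Nc s.bg.F.toPre (bg σ t).F.P (full (bg σ t) c))
include hc

theorem rep_LF : s.bg.F.Rep (LF σ k t c) ((full (bg σ t) c).app (bg σ t).F) := (tw h ht).rep hc k

theorem val_LF (hk : 4 ≤ k) (u : HC s (k + 1)) : s.bg.F.val _ _ (LF σ k t c u) =
    (full (bg σ t) c).app (bg σ t).F (s.bg.F.val _ _ u) := (tw h ht).val hc hk u

theorem incl_LF (hj : j ≤ k) (u : HC s (k + 1)) :
    s.bg.F.incl k j _ (LF σ k t c u) = LF σ j t c (s.bg.F.incl (k + 1) (j + 1) _ u) :=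
  (tw h ht).incl hc hj u

/-- the operators at two configurations differ by a term of order zero -/
theorem LF_sub {c' : Sw.Cfg X.M κ ν} (hc' : Nc s.bg.F.toPre (bg σ t).F.P (full (bg σ t) c')) :
    ∃ n : HC s (k + 1) →L[ℝ] HE s (k + 1), LF σ k t c = LF σ k t c' + s.bg.F.incl (k + 1) k _ ∘L n :=
  ⟨_, RepT_eq (rep_LF h ht hc) (RepT_add (rep_LF h ht hc') (RepT_comp (rep_incl k.le_succ)
    (rep_mulH (Cb_sub hc.B hc'.B) (Maps.of_left fun x v => by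
      simp only [Pi.sub_apply, sub_apply, map_sub]
      exact congrArg₂ _ (hc.alg.qB x v) (hc'.alg.qB x v))))) fun u => funext fun x => by
    simp only [Op.app, Pre.op, Pi.add_apply, id, Pi.sub_apply, sub_apply, add_assoc,
      add_sub_cancel]; rfl⟩

theorem val_sLF (hk : 4 ≤ k) (u : HC s (k + 1)) (x : X.M) :
    s.bg.F.val _ _ (sH _ _ _ _ (LF σ k t c u)) x = lG (bg σ t) c (s.bg.F.val _ _ u) x :=
  (val_mulH (sup h) hk (Cb_const _) maps_s2 _ x).trans ((congrArg _ (congrFun (val_LF h ht hc hk u) x)).trans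
    (s2_full (bg σ t) c (cb_pC h).choose_spec.1 (val_DH (sup h) hk u).1 (val_proj (sup h) (by omega) u) x))

end ok

section hy
variable (hO : OpStmt κ lam ν) (h : σ.toFam.OK) (hβ : s.Cr σ.β)
include hO h hβ

theorem op_pt (y : σ.Pnt) : OpAt (bg σ y.1.1) y.1.2 ∧
    Nc s.bg.F.toPre (bg σ y.1.1).F.P (full (bg σ y.1.1) y.1.2) :=
  have : OpAt (bg σ y.1.1) y.1.2 := by
    rw [bg_eq h y.2.1]; exact hO X nc _ (h.ok _ y.2.1).bg _ y.2.2.1
  ⟨this, nc_full h y.2.1 (cb_a h hβ y) (cb_Φ h hβ y) this⟩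

theorem op_bs (ht : t ∈ σ.Q) : OpAt (bg σ t) (σ.bs t) ∧
    Nc s.bg.F.toPre (bg σ t).F.P (full (bg σ t) (σ.bs t)) := op_pt hO h hβ ((hy h hβ).y0 ht)

omit hO in
theorem sm_LJ : ContDiffOn ℝ ∞ (fun v : σ.C k => LF σ k v.2.2 (σ.bs v.2.2) ∘L jC σ k v.2.2) (σ.U k) :=
  ((sm_LF h (sb_bs h hβ) (sb_bΦ h hβ)).clm_comp (sm_jC h)).comp
    (contDiff_snd.comp contDiff_snd).contDiffOn fun _ hv => hv

omit hO hβ in
theorem sm_β : ContDiffOn ℝ ∞
    (fun v : σ.C k => βH s (k + 1) (jC σ k v.2.2 v) (jC σ k v.2.2 v)) (σ.U k) :=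
  have : ContDiffOn ℝ ∞ (fun v : σ.C k => jC σ k v.2.2 v) (σ.U k) := ((sm_jC h).comp
    (contDiff_snd.comp contDiff_snd).contDiffOn fun _ hv => hv).clm_apply contDiffOn_id
  ((βH s (k + 1)).contDiff.comp_contDiffOn this).clm_apply this

omit hO in
theorem sm_NL : ContDiffOn ℝ ∞ (NL σ k) (σ.U k) :=
  ((fH _ _ _ _).contDiff.comp_contDiffOn ((sm_LJ h hβ).clm_apply contDiffOn_id)).add
    ((s.bg.F.incl (k + 1) k _).contDiff.comp_contDiffOn (sm_β h))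

omit hO in
theorem sm_row : ContDiffOn ℝ ∞ (row σ k) (σ.U k) :=
  ((contDiffOn_const.clm_comp (sm_LJ h hβ)).const_smul _).add ((contDiffOn_const.clm_comp
    (((ContinuousLinearMap.contDiff _).comp_contDiffOn
      (contDiff_fst.comp contDiff_snd).contDiffOn).clm_comp contDiffOn_const)).const_smul _)

omit hO in
theorem vr_bs (hk : 3 ≤ k) (y : σ.Pnt) :
    vr (σ.bs y.1.1) (s.bg.F.val _ _ (jC σ k y.1.1 (σ.pt k y))) 1 = y.1.2 := by
  refine Cfg.ext (funext fun i => funext fun x => ?_) (funext fun x => ?_)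
  · simp only [vr, Cel.bs, co_jC h y.2.1 hk, val_a h hβ hk, one_mul, PiLp.sub_apply, mul_sub,
      Finset.sum_sub_distrib, add_sub_cancel, S_al h y.2.1 ((as_fam h y.2.1 _ _).1 y.2.2).2]
  · simp only [vr, Cel.bs, sp_jC h y.2.1 hk, val_Φ h hβ hk, one_smul, Pi.sub_apply, add_sub_cancel]

omit hO in
theorem cb_jC (hk : 3 ≤ k) (y : σ.Pnt) : s.bg.F.Cb (s.bg.F.val _ _ (jC σ k y.1.1 (σ.pt k y))) := by
  rw [funext (val_jC h y.2.1 hk _), val_a h hβ hk, val_Φ h hβ hk]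
  exact Cb_add (Cb_clm _ (Cb_app ((sb_idx h h.sS).cb _ y.2.1) (cb_hs (sup h) (hs_a h hβ y))))
    (Cb_clm _ (cb_hs (sup h) (hs_Φ h hβ y)))

theorem val_NL (hk : 6 ≤ k) (y : σ.Pnt) (x : X.M) : s.bg.F.val _ _ (NL σ k (σ.pt k y)) x =
    i1 _ _ ((σ.P y.1.1).bg.eD y.1.2 x - (σ.P y.1.1).bg.eD (σ.bs y.1.1) x) +
      i2 _ _ ((σ.P y.1.1).bg.eC y.1.2 x - (σ.P y.1.1).bg.eC (σ.bs y.1.1) x) := by
  obtain ⟨o1, o2⟩ := op_bs hO h hβ y.2.1
  have hu := val_proj (sup h) (by omega : 4 ≤ k + 1) (jC σ k y.1.1 (σ.pt k y))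
  have e := o1.app _ (cb_jC h hβ (by omega : 3 ≤ k) y).choose_spec.1 hu x
  rw [vr_bs h hβ (by omega), ← val_LF h y.2.1 o2 (by omega)] at e
  have e1 := (val_mulH (sup h) (by omega : 4 ≤ k) (Cb_const _) maps_f2 _ x).trans (congrArg _ e)
  rw [NL, val_add, Pi.add_apply, val_incl (sup h) (by omega) k.le_succ, βH,
    val_bilH (sup h) (Lev.self (by omega)) (by omega) (cb_β0 h) (maps_β0 h), ← bg_eq h y.2.1]
  refine (congrArg₂ (· + ·) e1 (β0_apply _ h.site.bg _ _ (maps_s2 x _ (hu x)))).trans ?_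
  rw [map_add, f2_i1, f2_i2, add_zero, map_sub, map_add]
  exact (add_add_sub_add _ _ _ _ _ _).trans rfl

theorem rep_NL (hk : 6 ≤ k) : σ.Rep (fun t c => ((σ.P t).bg.eD c - (σ.P t).bg.eD (σ.bs t),
    (σ.P t).bg.eC c - (σ.P t).bg.eC (σ.bs t), 0, 0)) fun v => eY σ k (NL σ k v) :=
  ⟨(eY σ k).contDiff.comp_contDiffOn (sm_NL h hβ), fun y => Prod.ext (funext fun x =>
    (val_mulH (sup h) (by omega) (Cb_const _) maps_f2 _ x).trans (by
      rw [val_NL hO h hβ hk]; simp)) (Prod.ext (funext fun x =>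
    (val_mulH (sup h) (by omega) (Cb_const _) maps_s2 _ x).trans (by
      rw [val_NL hO h hβ hk]; simp)) rfl)⟩

theorem val_row (hk : 6 ≤ k) {v : σ.C k} (hv : v ∈ σ.U k) (u : σ.C k) (x : X.M) :
    s.bg.F.val _ _ (row σ k v u) x =
      2 * lG (bg σ v.2.2) (σ.bs v.2.2) (s.bg.F.val _ _ (jC σ k v.2.2 u)) x +
        s.bg.w * ⟪s.bg.m.J (s.bg.F.val _ _ v.2.1 x), s.bg.F.val _ _ u.2.1 x⟫_ℝ := by
  rw [row_apply, val_add, val_smul, val_smul, Pi.add_apply, Pi.smul_apply, Pi.smul_apply,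
    val_sLF h hv (op_bs hO h hβ hv).2 (by omega), val_incl (sup h) (by omega) k.le_succ,
    val_bilH (sup h) (Lev.self (by omega)) (by omega) (Cb_const _) (Maps₂.triv _)]
  rfl

theorem val_row_pt (hk : 6 ≤ k) (y : σ.Pnt) (v : σ.C k) : s.bg.F.val k _ (row σ k (σ.pt k y) v) =
    σ.gro y.1.1 y.1.2 (s.bg.F.val _ _ v.1) (s.bg.F.val _ _ v.2.1) := funext fun x => by
  have h3 : 3 ≤ k := by omega
  rw [val_row hO h hβ hk y.2.1, val_Φ h hβ h3]
  change 2 * lG (bg σ y.1.1) (σ.bs y.1.1) (s.bg.F.val _ _ (jC σ k y.1.1 v)) x + _ = _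
  simp only [lG, Fam.gro, co_jC h y.2.1 h3, sp_jC h y.2.1 h3, Pi.sub_apply, map_sub, inner_sub_left]
  change 2 * (_ + s.bg.w / 2 * ⟪s.bg.m.J ((s.base σ.β).Φ x), _⟫_ℝ) + _ = 2 * _ + _
  simp only [bg]
  ring

theorem incl_row (hj : 6 ≤ j) (hk : j ≤ k) {v : σ.C k} (hv : v ∈ σ.U k) (u : σ.C k) :
    s.bg.F.incl k j _ (row σ k v u) = row σ j (iC σ k j v) (iC σ k j u) := by
  refine val_injective (sup h) (by omega : 4 ≤ j) (funext fun x => ?_)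
  rw [val_incl (sup h) (by omega) hk, val_row hO h hβ (by omega) hv,
    val_row hO h hβ hj (iC_mem hv), iC_t, ← incl_jC h hv hk, iC_Φ, iC_Φ]
  simp only [val_incl (sup h) (by omega : 4 ≤ j + 1) (by omega : j + 1 ≤ k + 1)]

end hy

end Crest.Agent.X212.Map77.S
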