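import Crest.Agent.X212.Map77.S3
import Crest.Agent.X212.Op40.Main

/-! # Lane MODEL-S: the linearisation and the model `Md` -/

set_option autoImplicit false
set_option linter.unusedSectionVars false
noncomputable section
open scoped Manifold ContDiff Topology InnerProductSpace
open MeasureTheory Set Function Filter

namespace Crest.Agent.X212.Map77.S
open An An.Pre Sob92 Prm93 Sw Sw.En3 Mon62 Pb50
open M (Mf)
open Mod61 (ofV val_ofV)

variable {κ lam ν : Type} [Fintype κ] [Fintype lam] [Fintype ν] [DecidableEq ν]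

theorem hasDerivAt_line {X Y : Type} [NormedAddCommGroup X] [NormedSpace ℝ X] [NormedAddCommGroup Y]
    [NormedSpace ℝ Y] {f : X → Y} {x : X} (h : DifferentiableAt ℝ f x) (v : X) :
    HasDerivAt (fun r : ℝ => f (x + r • v)) (fderiv ℝ f x v) 0 := by
  have h1 : HasDerivAt (fun r : ℝ => x + r • v) v 0 := by
    simpa using ((hasDerivAt_id (0 : ℝ)).smul_const v).const_add x
  exact h.hasFDerivAt.comp_hasDerivAt_of_eq 0 h1 (by simp)

theorem lin_split {X Y Z : Type} [NormedAddCommGroup X] [NormedSpace ℝ X] [NormedAddCommGroup Y]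
    [NormedSpace ℝ Y] [NormedAddCommGroup Z] [NormedSpace ℝ Z] {f : X → Y} {n : X → Z} {x v : X}
    (hf : DifferentiableAt ℝ f x) (hn : DifferentiableAt ℝ n x) (A : X →L[ℝ] Y) (i : Z →L[ℝ] Y)
    (e : ∀ r : ℝ, f (x + r • v) = A (x + r • v) + i (n (x + r • v))) :
    fderiv ℝ f x v = A v + i (fderiv ℝ n x v) := by
  have h1 := (hasDerivAt_line (x := x) A.differentiableAt v).add
    (i.hasFDerivAt.comp_hasDerivAt 0 (hasDerivAt_line hn v))
  rw [A.fderiv] at h1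
  exact (hasDerivAt_line hf v).unique (h1.congr_of_eventuallyEq (.of_forall e))

theorem fderiv_lev {X X' Y Y' : Type} [NormedAddCommGroup X] [NormedSpace ℝ X]
    [NormedAddCommGroup X'] [NormedSpace ℝ X'] [NormedAddCommGroup Y] [NormedSpace ℝ Y]
    [NormedAddCommGroup Y'] [NormedSpace ℝ Y'] {f : X → Y} {g : X' → Y'} (A : X →L[ℝ] X')
    (B : Y →L[ℝ] Y') {x : X} (hf : DifferentiableAt ℝ f x) (hg : DifferentiableAt ℝ g (A x))
    (e : ∀ᶠ z in 𝓝 x, B (f z) = g (A z)) (u : X) :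
    B (fderiv ℝ f x u) = fderiv ℝ g (A x) (A u) :=
  DFunLike.congr_fun (((B.hasFDerivAt.comp x hf.hasFDerivAt).congr_of_eventuallyEq
    (e.mono fun _ h => h.symm)).unique (hg.hasFDerivAt.comp x A.hasFDerivAt)) u

theorem ex_gain {A B C D E F G : Type} [NormedAddCommGroup A] [NormedSpace ℝ A]
    [NormedAddCommGroup B] [NormedSpace ℝ B] [NormedAddCommGroup C] [NormedSpace ℝ C]
    [NormedAddCommGroup D] [NormedSpace ℝ D] [NormedAddCommGroup E] [NormedSpace ℝ E]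
    [NormedAddCommGroup F] [NormedSpace ℝ F] [NormedAddCommGroup G] [NormedSpace ℝ G]
    {L L' : A →L[ℝ] B} {i : C →L[ℝ] B} (a : D →L[ℝ] C) (b : E →L[ℝ] C) (n : F →L[ℝ] D)
    (e : A →L[ℝ] F) (m : G →L[ℝ] E) (p : A →L[ℝ] G) (c : ℝ)
    (h : ∀ u, L u = L' u + i (a (n (e u)) + c • b (m (p u)))) : ∃ n : A →L[ℝ] C, L = L' + i ∘L n :=
  ⟨a ∘L n ∘L e + c • b ∘L m ∘L p, ContinuousLinearMap.ext h⟩

theorem alg_gain {A B C D : Type} [NormedAddCommGroup A] [NormedSpace ℝ A]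
    [NormedAddCommGroup B] [NormedSpace ℝ B] [NormedAddCommGroup C] [NormedSpace ℝ C]
    [NormedAddCommGroup D] [NormedSpace ℝ D] (i : A →L[ℝ] C) (j : B →L[ℝ] C) (l : D →L[ℝ] C)
    (w : ℝ) (x y : D) {a a' : A} {b b' : B} {c : C} (h : i a + j b = c) (h1 : l x = i a')
    (h2 : l y = j b') :
    i (a + a') + (1 / 2 : ℝ) • j ((2 : ℝ) • b + w • b') = c + l (x + (1 / 2 * w) • y) := by
  simp only [← h, map_add, map_smul, h1, h2]
  module

theorem comp_Ef {a : Eu ν} {b : F2 κ} {r : ℝ} {z : Ef κ ν}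
    (h : z = i1 _ _ (i1 _ _ a + i2 _ _ b) + (1 / 2 : ℝ) • i2 _ _ r) :
    f2 _ _ (f2 _ _ z) = a ∧ s2 _ _ (f2 _ _ z) = b ∧ s2 _ _ z = (1 / 2 : ℝ) • r := by simp [h]

variable {d : Dt κ lam ν} {N : Type} [Fintype N] {ty : N → d.𝓔} {X : Mf 4} {nc nr : ℕ}
  {T : Type} [NormedAddCommGroup T] [NormedSpace ℝ T] [FiniteDimensional ℝ T]
  {s : Pz X 0 fun i => d.e (ty i)} {σ : Cel s nc nr T} {k j : ℕ} {t : T}

theorem eC_t (u : HC s (k + 1)) : (eC σ k t u).2.2 = 0 := rfl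

theorem eC_Φ (u : HC s (k + 1)) : (eC σ k t u).2.1 = sH _ _ _ _ u := rfl

theorem jE_mk (w : σ.Y k) (r : HR s k) :
    jE σ k (w, r) = iH1 _ _ _ _ (jY σ k w) + (1 / 2 : ℝ) • iH2 _ _ _ _ r := jE_apply _

theorem incl_jE (hj : j ≤ k) (w : σ.Y k) (r : HR s k) :
    s.bg.F.incl k j _ (jE σ k (w, r)) = jE σ j (iY σ k j w, s.bg.F.incl k j _ r) := by
  rw [jE_mk, map_add, map_smul, incl_iH1 hj, incl_iH2 hj, incl_jY hj, jE_mk]

section ok
variable (h : σ.toFam.OK) (hβ : s.Cr σ.β)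
include h

theorem jY_ext (hk : 4 ≤ k) {a b : σ.Y k} (e1 : (vl σ k a).1 = (vl σ k b).1)
    (e2 : (vl σ k a).2.1 = (vl σ k b).2.1) : jY σ k a = jY σ k b := by
  rw [jY_apply, jY_apply, val_injective (sup h) hk e1, val_injective (sup h) hk e2]

theorem hs_eC (ht : t ∈ σ.Q) {u : X.M → Cf κ ν} (hu : u ∈ Mod61.Hs s.bg.F.toPre (pC s.bg)) :
    (fun x => idx (σ.Si t x) (.id ℝ ℝ) (f2 _ _ (u x))) ∈ Mod61.Hs s.bg.F.toPre s.bg.p1 ∧
    (fun x => sp (u x)) ∈ Mod61.Hs s.bg.F.toPre s.bg.pp ∧ ∀ k, 3 ≤ k →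
      s.bg.F.val _ _ (eC σ k t (ofV _ _ _ u)).1 = (fun x => idx (σ.Si t x) (.id ℝ ℝ) (f2 _ _ (u x))) ∧
      s.bg.F.val _ _ (eC σ k t (ofV _ _ _ u)).2.1 = fun x => sp (u x) := by
  have e1 : ∀ k, 4 ≤ k → s.bg.F.val _ _ (mS s k (σ.Si t) (fH _ _ _ _ (ofV _ _ (pC s.bg) u))) =
      fun x => idx (σ.Si t x) (.id ℝ ℝ) (f2 _ _ (u x)) := fun k hk => funext fun x =>
    (val_mulH (sup h) hk ((sb_idx h h.sSi).cb t ht) (maps_idx (h.PSi t ht)) _ x).trans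
      (congrArg _ ((val_mulH (sup h) hk (Cb_const _) maps_f2 _ x).trans (by rw [val_ofV hu hk])))
  have e2 : ∀ k, 4 ≤ k → s.bg.F.val _ _ (sH _ k _ _ (ofV _ _ (pC s.bg) u)) = fun x => sp (u x) :=
    fun k hk => funext fun x =>
      (val_mulH (sup h) hk (Cb_const _) maps_s2 _ x).trans (by rw [val_ofV hu hk])
  exact ⟨fun k hk => ⟨_, e1 k hk⟩, fun k hk => ⟨_, e2 k hk⟩,
    fun k hk => ⟨e1 _ (by omega), e2 _ (by omega)⟩⟩

theorem gro_lG (hk : 3 ≤ k) (ht : t ∈ σ.Q) (c : Sw.Cfg X.M κ ν) (v : σ.C k) (x : X.M) :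
    (1 / 2 : ℝ) • σ.gro t c (s.bg.F.val _ _ v.1) (s.bg.F.val _ _ v.2.1) x =
      lG (σ.P t).bg c (s.bg.F.val _ _ (jC σ k t v)) x := by
  simp only [Fam.gro, lG, co_jC h ht hk, sp_jC h ht hk, h.m _ ht, h.w _ ht, smul_eq_mul]
  ring

include hβ

/-- lines in the Banach model -/
theorem exists_line (y : σ.Pnt) {u : X.M → Cf κ ν} (hu : u ∈ Mod61.Hs s.bg.F.toPre (pC s.bg))
    (r : ℝ) : ∃ hr : (σ.P y.1.1).As σ.β (vr y.1.2 u r), ∀ k, 3 ≤ k →
      σ.pt k ⟨(y.1.1, vr y.1.2 u r), y.2.1, hr⟩ = σ.pt k y + r • eC σ k y.1.1 (ofV _ _ _ u) := by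
  obtain ⟨h1, h2, h3⟩ := hs_eC h y.2.1 hu
  have a1 := add_mem (hs_a h hβ y) (Submodule.smul_mem _ r h1)
  have a2 := add_mem (hs_Φ h hβ y) (Submodule.smul_mem _ r h2)
  obtain ⟨⟨⟨t, c⟩, ht, hc⟩, e⟩ := exists_pt h hβ y.2.1 a1 a2
  obtain rfl : t = y.1.1 := congrArg (·.2.2) (e 0)
  have e1 := (val_a h hβ le_rfl ⟨_, ht, hc⟩).symm.trans
    ((congrArg (fun v => s.bg.F.val _ _ v.1) (e 3)).trans (val_ofV a1 le_rfl))
  have e2 := (val_Φ h hβ le_rfl ⟨_, ht, hc⟩).symm.trans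
    ((congrArg (fun v => s.bg.F.val _ _ v.2.1) (e 3)).trans (val_ofV a2 le_rfl))
  obtain rfl : c = vr y.1.2 u r := by
    refine Cfg.ext (funext fun i => funext fun x => ?_) (funext fun x => ?_)
    · have e3 : σ.al y.1.1 c x = σ.al y.1.1 y.1.2 x +
          r • idx (σ.Si y.1.1 x) (.id ℝ ℝ) (f2 _ _ (u x)) :=
        sub_left_injective ((congrFun e1 x).trans (sub_add_eq_add_sub _ _ _))
      have e4 := congrArg (· i) ((idx_idx (σ.S y.1.1 x) (σ.Si y.1.1 x) (.id ℝ ℝ) (.id ℝ ℝ)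
        (f2 _ _ (u x))).trans (by
          simp only [h.SSi _ ht]; exact maps_f2 x _ (proj_hs (sup h) hu x)))
      rw [← S_al h ht ((as_fam h ht _ _).1 hc).2, e3]
      simp only [vr, PiLp.add_apply, PiLp.smul_apply, smul_eq_mul, mul_add, Finset.sum_add_distrib,
        S_al h ht ((as_fam h ht _ _).1 y.2.2).2, mul_left_comm _ r, ← Finset.mul_sum, co_apply, ← e4]
      rw [idx_apply]; rfl
    · exact sub_left_injective ((congrFun e2 x).trans (sub_add_eq_add_sub _ _ _))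
  refine ⟨hc, fun k hk => (e k).trans (Prod.ext (val_injective (sup h) (by omega) ?_)
    (Prod.ext (val_injective (sup h) (by omega) ?_) ?_))⟩
  · rw [val_ofV a1 (by omega), Prod.fst_add, Prod.smul_fst, val_add, val_smul, val_a h hβ hk,
      (h3 k hk).1]
  · rw [val_ofV a2 (by omega), Prod.snd_add, Prod.fst_add, Prod.smul_snd, Prod.smul_fst, val_add,
      val_smul, val_Φ h hβ hk, (h3 k hk).2]
  · rw [Prod.snd_add, Prod.snd_add, Prod.smul_snd, Prod.smul_snd, eC_t, smul_zero, add_zero]; rfl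

theorem rep_lev {E : T → Sw.Cfg X.M κ ν → Ev κ ν X nc nr} (hj : 4 ≤ j) (hk : j ≤ k)
    {f : σ.C k → σ.Y k} {g : σ.C j → σ.Y j} (hf : σ.Rep E f) (hg : σ.Rep E g) {v : σ.C k}
    (hv : v ∈ σ.U k) : iY σ k j (f v) = g (iC σ k j v) :=
  (iY_apply _).trans (rep_unique h hβ (by omega) hj (rep_inY h.site hj hk hf)
    (g := fun v => g (iC σ k j v)) ⟨hg.1.comp (iC σ k j).contDiff.contDiffOn fun _ => iC_mem,
      fun y => by simp only [iC_pt h hβ (by omega : 3 ≤ j) hk]; exact hg.2 y⟩ hv)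

/-- **MAP-L** -/
theorem loc (hk : 7 ≤ k) : ∃ f : σ.C k → σ.Y k, σ.Rep (fun t c =>
    ((σ.P t).bg.eD c - (σ.P t).bg.eD (σ.bs t), (σ.P t).bg.eC c - (σ.P t).bg.eC (σ.bs t), 0, 0)) f :=
  ⟨_, rep_NL Op40.opStmt h hβ (by omega)⟩

variable (hm : MapAt σ) {q : d.W →₀ ℝ} (hk : 7 ≤ k) (hF : σ.Rep (EE σ q) (σ.F k q))
include hm hk hF

theorem gain : ∃ n : σ.C k → s.bg.F.H (k + 1) (ps s.bg.pm s.bg.p2), ContDiffOn ℝ ∞ n (σ.U k) ∧
    ∀ v ∈ σ.U k, jY σ k (σ.F k q v) = fH _ _ _ _ (LF σ k v.2.2 (σ.bs v.2.2) (jC σ k v.2.2 v)) +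
      s.bg.F.incl (k + 1) k _ (n v) := by
  obtain ⟨g, hg⟩ := hm.rad k hk
  choose m hm using fun w => hm.ms w k hk
  have h1 : ContDiffOn ℝ ∞ (fun v => g v - ∑ w ∈ q.support, q w • m w v) (σ.U k) :=
    hg.1.sub (ContDiffOn.sum fun w _ => (hm w).1.const_smul _)
  have h2 := (jY σ (k + 1)).contDiff.comp_contDiffOn h1
  refine ⟨_, (sm_β h).add h2, fun v hv => ?_⟩
  rw [map_add, ← add_assoc]
  refine Sw21.eqOn_of_pt (dense_pt h hβ (by omega))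
    ((jY σ k).contDiff.comp_contDiffOn hF.1).continuousOn ((sm_NL h hβ).add
      ((s.bg.F.incl (k + 1) k _).contDiff.comp_contDiffOn h2)).continuousOn (fun y => ?_) hv
  have e := map_add (vl σ k) (eY σ k (NL σ k (σ.pt k y))) (iY σ (k + 1) k
    (g (σ.pt k y) - ∑ w ∈ q.support, q w • m w (σ.pt k y)))
  have e' := vl_inY (σ := σ) h.site (by omega : 4 ≤ k) k.le_succ
    (g (σ.pt k y) - ∑ w ∈ q.support, q w • m w (σ.pt k y))
  rw [map_sub, map_sum, rep_vl hg] at e'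
  simp only [map_smul, rep_vl (hm _)] at e'
  replace e := e.trans (congrArg₂ (· + ·) (rep_vl (rep_NL Op40.opStmt h hβ (by omega)) y)
    ((congrArg _ (iY_apply _)).trans e'))
  simp only [comp_apply]
  rw [incl_jY k.le_succ, ← jY_eY (σ := σ) (NL σ k _), ← map_add]
  refine jY_ext h (by omega) ?_ ?_ <;> rw [e, rep_vl hF]
  · simp [EE, Pc.pt, Prod.fst_sum]
  · funext x
    simp [EE, Pc.pt, Prod.fst_sum, Prod.snd_sum, Finsupp.sum, sub_add_eq_sub_sub, ← add_sub_assoc]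

omit hm hβ in
theorem F_diff {v : σ.C k} (hv : v ∈ σ.U k) : DifferentiableAt ℝ (σ.F k q) v :=
  (hF.1.contDiffAt ((isOpen_U h).mem_nhds hv)).differentiableAt (by simp)

theorem gain_lin {v : σ.C k} (hv : v ∈ σ.U k) :
    ∃ n : σ.C k →L[ℝ] s.bg.F.H (k + 1) (ps s.bg.pm s.bg.p2), ∀ u : σ.C k, u.2.2 = 0 →
      jY σ k (fderiv ℝ (σ.F k q) v u) = fH _ _ _ _ (LF σ k v.2.2 (σ.bs v.2.2) (jC σ k v.2.2 u)) +
        s.bg.F.incl (k + 1) k _ (n u) := by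
  obtain ⟨n, h1, h2⟩ := gain h hβ hm hk hF
  refine ⟨fderiv ℝ n v, fun u hu => ?_⟩
  have d := (jY σ k).hasFDerivAt.comp v (F_diff h hk hF hv).hasFDerivAt
  have e := lin_split (v := u) d.differentiableAt
    ((h1.contDiffAt ((isOpen_U h).mem_nhds hv)).differentiableAt (by simp))
    (fH _ _ _ _ ∘L LF σ k v.2.2 (σ.bs v.2.2) ∘L jC σ k v.2.2) (s.bg.F.incl (k + 1) k _) fun r => by
      have e : (v + r • u).2.2 = v.2.2 := by
        rw [Prod.snd_add, Prod.snd_add, Prod.smul_snd, Prod.smul_snd, hu, smul_zero, add_zero]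
      have := h2 _ (mem_of_eq_of_mem (s := σ.Q) e hv)
      rw [e] at this
      simpa only [ContinuousLinearMap.comp_apply, comp_apply] using this
  simpa only [d.fderiv, ContinuousLinearMap.comp_apply] using e

omit hβ hm hk hF in
theorem Tc_eq {v : σ.C k} (hv : v ∈ σ.U k) (u : HC s (k + 1))
    {n : s.bg.F.H (k + 1) (ps s.bg.pm s.bg.p2)}
    (e : jY σ k (fderiv ℝ (σ.F k q) v (eC σ k v.2.2 u)) = fH _ _ _ _ (LF σ k v.2.2 (σ.bs v.2.2)
      (jC σ k v.2.2 (eC σ k v.2.2 u))) + s.bg.F.incl (k + 1) k _ n) :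
    Tc σ k q v u = LF σ k v.2.2 (σ.bs v.2.2) u + s.bg.F.incl (k + 1) k (pE s.bg)
      (iH1 _ _ _ _ n + (1 / 2 * s.bg.w) • iH2 _ _ _ _ (s.bg.F.bilH (k + 1) (k + 1) s.bg.pp s.bg.pp
        (triv X.M ℝ) (k + 1) (fun _ => innerSL ℝ ∘L s.bg.m.J) v.2.1 (sH _ _ s.bg.p1 _ u))) := by
  rw [Tc_apply, jE_mk, e, row_apply, jC_eC h hv, eC_Φ]
  generalize LF σ k v.2.2 (σ.bs v.2.2) u = a
  generalize s.bg.F.bilH (k + 1) (k + 1) s.bg.pp s.bg.pp (triv X.M ℝ) (k + 1)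
    (fun _ => innerSL ℝ ∘L s.bg.m.J) v.2.1 (sH _ _ s.bg.p1 _ u) = b
  exact alg_gain _ _ _ _ _ _ (iH_add a) (incl_iH1 k.le_succ n) (incl_iH2 k.le_succ b)

theorem gain_bs {v : σ.C k} (hv : v ∈ σ.U k) : ∃ n : HC s (k + 1) →L[ℝ] HE s (k + 1),
    Tc σ k q v = LF σ k v.2.2 (σ.bs v.2.2) + s.bg.F.incl (k + 1) k _ ∘L n :=
  let ⟨_, e⟩ := gain_lin h hβ hm hk hF hv
  ex_gain _ _ _ _ _ _ _ fun u => Tc_eq h hv u (e _ (eC_t u))

end ok

variable (d ty X nc nr T) in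
/-- **MD** -/
theorem md (hM : MapStmt d ty X nc nr T) : MdStmt d ty X nc nr T := fun s σ H => by
  have h := H.toOK
  have hβ := cr_of_gd H.gd
  have hO : OpStmt κ lam ν := Op40.opStmt
  have hm : MapAt σ := ⟨hM.loc s σ h hβ, hM.rad s σ h hβ, hM.ms s σ h H.gd⟩
  have hF : ∀ k, 7 ≤ k → ∀ q, σ.Rep (EE σ q) (σ.F k q) := fun k hk =>
    rep_F (rep_e0 hM H hk) (rep_eτ hM H hk)
  refine ⟨hy h hβ, H, pb _ _ _, endAt h, fun _ => bg_eq h, fun _ => tw h, op_pt hO h hβ, hm,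
    repStmt X nc nr d ty T hM s σ H, hF, fun k t ht => ⟨jC_eC h ht, eC_jC h ht⟩,
    fun k j hj hk => ⟨iC_pt h hβ (by omega) hk, fun q v hv => ?_⟩,
    fun k hk => ⟨sm_row h hβ, val_row_pt hO h hβ (by omega)⟩,
    fun k hk q => (gain h hβ hm hk (hF k hk q)).imp fun _ => And.right, fun k hk q y => ?_,
    fun k hk q y u hu => ?_⟩
  · have h1 := fun v => rep_lev h hβ (by omega) hk (hF k (hj.trans hk) q) (hF j hj q) (v := v)
    have h2 := fderiv_lev (iC σ k j) (iY σ k j) (F_diff h (hj.trans hk) (hF k (hj.trans hk) q) hv)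
      (F_diff h hj (hF j hj q) (iC_mem hv)) (eventually_of_mem ((isOpen_U h).mem_nhds hv) h1)
    refine ⟨h1 v hv, fun u => ⟨h2 u, incl_row hO h hβ (by omega) hk hv u, ?_⟩⟩
    rw [Tc_apply, Tc_apply, iC_t, eC_jC h hv, eC_jC h hv, incl_jE hk, h2,
      incl_row hO h hβ (by omega) hk hv, iC_apply (u.1, u.2.1, 0), iC_apply u]
  · obtain ⟨n, e⟩ := gain_bs h hβ hm hk (hF k hk q) (v := σ.pt k y) y.2.1
    obtain ⟨n', e'⟩ := LF_sub h y.2.1 (op_bs hO h hβ y.2.1).2 (op_pt hO h hβ y).2 (k := k)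
    exact ⟨n' + n, e.trans ((congrArg (· + _) e').trans (by
      rw [ContinuousLinearMap.comp_add, add_assoc]))⟩
  · choose hr e using exists_line h hβ y hu
    have h1 := hasDerivAt_line (F_diff h hk (hF k hk q) (v := σ.pt k y) y.2.1)
      (eC σ k y.1.1 (ofV _ _ _ u))
    have h2 : ∀ r, vl σ k (σ.F k q (σ.pt k y + r • eC σ k y.1.1 (ofV _ _ _ u))) =
        EE σ q y.1.1 (vr y.1.2 u r) := fun r => e r k (by omega) ▸ rep_vl (hF k hk q) _
    refine ⟨hr, ((ContinuousLinearMap.snd ℝ _ _ ∘L ContinuousLinearMap.snd ℝ _ _).hasFDerivAt.comp_hasDerivAt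
      0 h1).congr_of_eventuallyEq (.of_forall fun r => (congrArg (·.2.2) (h2 r)).symm),
      fun x z hz => ?_⟩
    rw [Tc_apply, val_jE h (by omega), val_jY h (by omega), val_row_pt hO h hβ (by omega)] at hz
    have h3 := jC_eC h y.2.1 (k := k) (ofV _ _ _ u)
    have h4 : ∀ x, s.bg.F.val _ _ (jC σ k y.1.1 (eC σ k y.1.1 (ofV _ _ _ u))) x = u x := fun x => by
      rw [h3, val_ofV hu (by omega)]
    obtain ⟨z1, z2, z3⟩ := comp_Ef hz
    refine ⟨?_, ?_, z3.trans ((gro_lG h (by omega) y.2.1 _ _ x).trans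
      (congrArg (lG _ _ · x) (funext h4)))⟩
    · rw [z1]
      exact ((s.bg.F.ev k _ x ∘L ContinuousLinearMap.fst ℝ _ _).hasFDerivAt.comp_hasDerivAt 0
        h1).congr_of_eventuallyEq
        (.of_forall fun r => (congrArg (·.1 x) (h2 r)).symm)
    · rw [z2]
      exact ((s.bg.F.ev k _ x ∘L ContinuousLinearMap.fst ℝ _ _ ∘L
        ContinuousLinearMap.snd ℝ _ _).hasFDerivAt.comp_hasDerivAt 0 h1).congr_of_eventuallyEq
        (.of_forall fun r => (congrArg (·.2.1 x) (h2 r)).symm)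

end Crest.Agent.X212.Map77.S
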