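import Crest.Agent.X212.Map77.S4
import Crest.Agent.X212.St29.Ms
import Crest.Agent.X212.St29.Mc
import Crest.Agent.X212.Ax1.Top
import Crest.Agent.X212.Grs81.P

/-! # Lane MODEL-S: glue -/

set_option autoImplicit false
set_option linter.unusedSectionVars false
noncomputable section

namespace Crest.Agent.X212.Map77.S
open An Sw Sob92
open M (Mf)

variable {κ lam ν : Type} [Fintype κ] [Fintype lam] [Fintype ν] [DecidableEq ν]
  {N : Type} [Fintype N] (d : Dt κ lam ν) (ty : N → d.𝓔) (X : Mf 4) (nc nr : ℕ)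
  (T : Type) [NormedAddCommGroup T] [NormedSpace ℝ T] [FiniteDimensional ℝ T]

/-- **RAD**: the field `rad` of `MapStmt` -/
def RadStmt : Prop := ∀ (s : Pz X 0 fun i => d.e (ty i)) (σ : Cel s nc nr T), σ.toFam.OK →
  s.Cr σ.β → ∀ k, 7 ≤ k → ∃ f : σ.C k → σ.Y (k + 1), σ.Rep (fun t c =>
    ((σ.P t).bg.eD (σ.bs t) - (σ.P t).p0.D c, (σ.P t).bg.eC (σ.bs t) - (σ.P t).p0.C c, 0, 0)) f

variable {d ty X nc nr T}

theorem map_of (hR : RadStmt d ty X nc nr T) : MapStmt d ty X nc nr T :=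
  ⟨fun _ _ h hβ _ hk => loc h hβ hk, hR, St29.ms, St29.mo, St29.Mc.cut⟩

theorem md_of (hR : RadStmt d ty X nc nr T) : MdStmt d ty X nc nr T :=
  md d ty X nc nr T (map_of hR)

theorem rep_of (hR : RadStmt d ty X nc nr T) : RepStmt d ty X nc nr T :=
  Pb50.repStmt X nc nr d ty T (map_of hR)

theorem ax_of (hR : RadStmt d ty X nc nr T) (hB : BootS d ty X nc nr T) :
    AxStmt d ty X nc nr T :=
  Ax1.axStmt _ _ _ _ _ _ (md_of hR) (Grs81.grpP _ _ _ _ _ _) hB

end Crest.Agent.X212.Map77.S
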