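import Crest.Agent.X212.Map77.S3
import Crest.Agent.X212.Op40.Main
import Crest.Agent.X212.Ix82.Defs

/-! # Lane IND-S: the operator at the trivial configuration, the coupling terms, scaling -/

set_option autoImplicit false
set_option linter.unusedSectionVars false
noncomputable section
open scoped Manifold ContDiff Topology InnerProductSpace
open MeasureTheory Set Function Filter

namespace Crest.Agent.X212.Map77.S
open An An.Pre Sob92 Prm93 Sw Sw.En3 Cyf70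
open M (Mf)

variable {κ lam ν : Type} [Fintype κ] [Fintype lam] [Fintype ν] [DecidableEq ν]

/-- scaling of the spinor -/
def rC (l : ℝ) : Cf κ ν →L[ℝ] Cf κ ν := sm2 (.id ℝ _) (l • .id ℝ _)
/-- scaling of the spinor -/
def rE (l : ℝ) : Ef κ ν →L[ℝ] Ef κ ν := sm2 (sm2 (l • .id ℝ _) (.id ℝ _)) (.id ℝ _)

@[simp] theorem f2_rC (l : ℝ) (u : Cf κ ν) : f2 _ _ (rC l u) = f2 _ _ u := by simp [rC]
@[simp] theorem s2_rC (l : ℝ) (u : Cf κ ν) : s2 _ _ (rC l u) = l • s2 _ _ u := by simp [rC]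
@[simp] theorem co_rC (l : ℝ) (u : Cf κ ν) (a : Option κ) : co a (rC l u) = co a u := by
  simp [co_apply]
@[simp] theorem ff_rE (l : ℝ) (u : Ef κ ν) : f2 _ _ (f2 _ _ (rE l u)) = l • f2 _ _ (f2 _ _ u) := by
  simp [rE]
@[simp] theorem sf_rE (l : ℝ) (u : Ef κ ν) : s2 _ _ (f2 _ _ (rE l u)) = s2 _ _ (f2 _ _ u) := by
  simp [rE]
@[simp] theorem s2_rE (l : ℝ) (u : Ef κ ν) : s2 _ _ (rE l u) = s2 _ _ u := by simp [rE]

theorem ext3 {u v : Ef κ ν} (h1 : f2 _ _ (f2 _ _ u) = f2 _ _ (f2 _ _ v))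
    (h2 : s2 _ _ (f2 _ _ u) = s2 _ _ (f2 _ _ v)) (h3 : s2 _ _ u = s2 _ _ v) : u = v :=
  ext2 (ext2 h1 h2) h3

theorem rC_rC {l l' : ℝ} (h : l * l' = 1) (u : Cf κ ν) : rC l (rC l' u) = u :=
  ext2 (by simp) (by simp [smul_smul, h])

theorem rE_rE {l l' : ℝ} (h : l * l' = 1) (u : Ef κ ν) : rE l (rE l' u) = u :=
  ext3 (by simp [smul_smul, h]) (by simp) (by simp)

section pt
variable {E : Type} [NormedAddCommGroup E] [NormedSpace ℝ E] [FiniteDimensional ℝ E]
  [MeasurableSpace E] [BorelSpace E]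
  {HM : Type} [TopologicalSpace HM] {I : ModelWithCorners ℝ E HM}
  {M : Type} [TopologicalSpace M] [ChartedSpace HM M] [IsManifold I ∞ M] [MeasurableSpace M]
  {E' : Type} [NormedAddCommGroup E'] [NormedSpace ℝ E'] [FiniteDimensional ℝ E']
  [MeasurableSpace E'] [BorelSpace E']
  {HM' : Type} [TopologicalSpace HM'] {I' : ModelWithCorners ℝ E' HM'}
  {M' : Type} [TopologicalSpace M'] [ChartedSpace HM' M'] [IsManifold I' ∞ M'] [MeasurableSpace M']
  {nc nc' : ℕ} {b : Bg I M κ lam ν nc} {b' : Bg I' M' κ lam ν nc'} {x : M} {x' : M'}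
  {c : Sw.Cfg M κ ν} {l : ℝ}

theorem pC_two : pC b.two = pC b := rfl
theorem pE_two : pE b.two = pE b := rfl
theorem σF_two : σF b.two = σF b := rfl
theorem qL_two : qL b.two = qL b := rfl
theorem F_two : b.two.F = b.F := rfl
theorem jp_two : b.two.jp = b.jp := rfl
theorem A0_p : b.A0.p = pC b := rfl
theorem A0_q : b.A0.q = pE b := rfl
theorem A0_σ (a : Option κ) (x : M) : b.A0.σ a x = pE b x ∘L σF b a x ∘L pC b x := rfl

theorem pC_rC (u : Cf κ ν) : pC b x (rC l u) = rC l (pC b x u) := ext2 (by simp) (by simp)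

theorem pE_rE (u : Ef κ ν) : pE b x (rE l u) = rE l (pE b x u) :=
  ext3 (by simp) (by simp) (by simp [triv])

theorem maps_rC : Maps (pC b) (pC b) fun _ => rC l := fun x v h => by rw [pC_rC, h]
theorem maps_rE : Maps (pE b) (pE b) fun _ => rE l := fun x v h => by rw [pE_rE, h]

/-- the configuration with the scaled spinor -/
def scl (l : ℝ) (c : Sw.Cfg M κ ν) : Sw.Cfg M κ ν := ⟨c.a, fun x => l • c.Φ x⟩

variable (b x) in
/-- the coupling terms at a point -/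
def l0 (a : Option κ → ℝ) (Φ : Eu ν) : Cf κ ν →L[ℝ] Ef κ ν :=
  pr2 (pr2 ((∑ i, a i • (b.m.ρ i x * b.jp x)) ∘L sp + ∑ i, (co i).smulRight (b.m.ρ i x (b.jp x Φ)))
    (-(2 : ℝ) • ((qL b x Φ + (qL b x).flip Φ) ∘L sp))) (innerSL ℝ (b.m.J Φ) ∘L sp)

theorem lo_eq : b.lo c x = pE b x ∘L l0 b x (c.a · x) (c.Φ x) ∘L pC b x := by
  ext1 v
  simp only [Bg.lo, Bg.A0, full, cut, ContinuousLinearMap.comp_apply, sub_apply, add_apply,
    ← map_sub, add_sub_add_right_eq_sub, pE_two, pC_two]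
  generalize pC b x v = w
  refine congrArg _ (ext3 ?_ ?_ ?_) <;>
    simp [BF, l0, Bg.W, jp_two, qL_two, mul_add, Finset.sum_add_distrib, -Fintype.sum_option] <;> abel

theorem B_two {v : Cf κ ν} (hv : pC b x v = v) :
    (full b.two c).B x v = b.A0.B x v + b.lo c x v := by
  simp [Bg.lo, A0_p, hv]

theorem app_two {u : M → Cf κ ν} (hu : pC b x (u x) = u x) :
    (full b.two c).app b.F u x = b.A0.app b.F u x + b.lo c x (u x) := by
  simp only [Op.app, Pre.op, B_two hu, add_assoc]; rfl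

theorem σF_rC (a : Option κ) (v : Cf κ ν) : σF b a x (rC l v) = rE l (σF b a x v) :=
  ext3 (by simp [σF]) (by simp [σF]) (by simp [σF])

theorem BF_rC (hl : l * l = b.w / 2) (v : Cf κ ν) :
    BF b.two (scl l c) x (rC l v) = rE l (BF b c x v) := by
  have hw : b.w = 2 * (l * l) := by linarith
  refine ext3 ?_ (fm_ext fun s => ?_) ?_ <;>
    simp [BF, scl, Bg.W, jp_two, qL_two, F_two, hw, smul_smul, Finset.smul_sum, mul_assoc, tp_apply,
      mul_comm l (co _ _), -Fintype.sum_option]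

/-- **scaling** -/
theorem app_scl (hl : l * l = b.w / 2) (hp : Sm I (pC b)) {u : M → Cf κ ν} (hu : Sm I u)
    (h : ∀ x, pC b x (u x) = u x) (x : M) :
    (full b.two (scl l c)).app b.F (fun y => rC l (u y)) x = rE l ((full b c).app b.F u x) := by
  have e : ∀ a, b.F.D a (fun y => rC l (u y)) x = rC l (b.F.D a u x) := fun a =>
    dv_clm _ (hu.mdifferentiableAt (by simp))
  have h1 := op_cut (q := pE b) (σ := σF b) (B := BF b.two (scl l c)) b.F.toPre hp
    (u := fun y => rC l (u y)) ((rC l).contMDiff.comp hu) (fun y => maps_rC y _ (h y)) x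
  have h2 := op_cut (q := pE b) (σ := σF b) (B := BF b c) b.F.toPre hp hu h x
  refine h1.trans (Eq.trans ?_ (congrArg _ h2.symm))
  simp only [← pE_rE, Pre.op, e, σF_rC, BF_rC hl, map_add, map_sum]

/-- the same algebraic data at two points -/
structure PtE (b : Bg I M κ lam ν nc) (x : M) (b' : Bg I' M' κ lam ν nc') (x' : M') : Prop where
  P : ∀ i j, b'.B.P i j x' = b.B.P i j x
  o : ∀ i j k l, b'.B.o i j k l x' = b.B.o i j k l x
  J : b'.m.J = b.m.J
  p : b'.m.p x' = b.m.p x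
  ρ : ∀ i, b'.m.ρ i x' = b.m.ρ i x

namespace PtE
variable (h : PtE b x b' x')
include h

theorem vol : b'.vol x' = b.vol x := by simp only [Bg.vol, h.o, h.ρ]
theorem pp : b'.pp x' = b.pp x := by simp only [Bg.pp, h.vol, h.p]
theorem pm : b'.pm x' = b.pm x := by simp only [Bg.pm, h.vol, h.p]
theorem jp : b'.jp x' = b.jp x := by simp only [Bg.jp, h.J, h.p]
theorem p1 : b'.p1 x' = b.p1 x := by simp only [Bg.p1, h.P]
theorem p2 : b'.p2 x' = b.p2 x := congrArg (idx · _) (funext₂ fun s t => by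
  simp only [Base.sd, Base.a2, Base.st, h.P, h.o])
theorem pC : pC b' x' = pC b x := congrArg₂ sm2 h.p1 h.pp
theorem pE : pE b' x' = pE b x := congrArg (sm2 · _) (congrArg₂ sm2 h.pm h.p2)
theorem σF (a : Option κ) : σF b' a x' = σF b a x := by simp only [S.σF, h.P, h.ρ]
theorem qL : qL b' x' = qL b x := by simp only [S.qL, h.J, h.ρ]
theorem σ (a : Option κ) : b'.A0.σ a x' = b.A0.σ a x := by rw [A0_σ, A0_σ, h.pC, h.pE, h.σF]

theorem lo {c' : Sw.Cfg M' κ ν} (ha : ∀ i, c'.a i x' = c.a i x) (hΦ : c'.Φ x' = c.Φ x) :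
    b'.lo c' x' = b.lo c x := by
  simp only [lo_eq, l0, h.pC, h.pE, h.ρ, h.jp, h.qL, h.J, ha, hΦ]

end PtE

theorem In.two {J : Type} {b : J → Bg I M κ lam ν nc} {K : Cls fun j => (b j).F.toPre} (H : In K) :
    In (b := fun j => (b j).two) K :=
  ⟨H.P, H.o, H.p, H.ρ, H.J, K.const _, H.A, H.ms, H.om, H.c, H.dv⟩

theorem In.A0 {J : Type} {b : J → Bg I M κ lam ν nc} {K : Cls fun j => (b j).F.toPre} (H : In K) :
    K.op fun j => (b j).A0 := H.two.full (fun _ => K.const _) (K.const _)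

theorem In.lo {J : Type} {b : J → Bg I M κ lam ν nc} {K : Cls fun j => (b j).F.toPre} (H : In K)
    {c : J → Sw.Cfg M κ ν} (ha : ∀ i, K.mem fun j => (c j).a i) (hΦ : K.mem fun j => (c j).Φ) :
    K.mem fun j => (b j).lo (c j) := Cls.comp (Cls.sub (H.two.full ha hΦ).B H.A0.B) H.A0.p

variable [T2Space M] [BorelSpace M] (h : b.OK)
include h

theorem two_ok : b.two.OK :=
  ⟨h.B, h.G, h.tame, h.m, h.cc, h.sk, h.AJ, h.co, h.cp, h.cρ, h.cA, h.cms, h.com, h.msJ, h.msp,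
    h.omp, zero_le_two, fun j => j.elim0⟩

theorem inB : In (b := fun _ : Unit => b) (cb _ univ) :=
  have T := h.tame.choose_spec
  ⟨fun i j _ _ => (show b.F.P = b.B.P from h.G.P) ▸ ⟨_, T.P i j⟩, fun i j k l _ _ => h.co i j k l,
    fun _ _ => h.cp, fun i _ _ => h.cρ i, fun _ _ => Cb_const _, fun _ _ => Cb_const _,
    fun i _ _ => h.cA i, fun _ _ => h.cms, fun _ _ => h.com, fun i j k _ _ => ⟨_, T.c i j k⟩,
    fun i _ _ => ⟨_, T.dv i⟩⟩

theorem alg_A0 : Alg b.F.P b.A0 := Op40.alg_full (b := b.two) (c := ⟨0, 0⟩) (two_ok h)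
theorem cliff_A0 : b.A0.Cliff b.F := Op40.cliff_full (b := b.two) (c := ⟨0, 0⟩) (two_ok h)

theorem good_A0 : ∃ C, b.A0.Good b.F C :=
  have H := (inB h).A0
  (good_of h.tame.choose_spec (H.p () trivial) (H.q () trivial) (fun a => H.σ a () trivial)
    (H.B () trivial) (alg_A0 h)).imp fun _ k => k.2

theorem pE_lo (v : Cf κ ν) : pE b x (b.lo c x v) = b.lo c x v := by
  rw [lo_eq]; exact (Op40.prjE h).idem x _

end pt

variable {X X' : Mf 4} {nc nc' : ℕ} {b : Bg X.I X.M κ lam ν nc} {b' : Bg X'.I X'.M κ lam ν nc'}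
  {e : En3 κ lam ν}

theorem ptE_lit {φ : OpenPartialHomeomorph X.M X'.M} (h : b.Lit b' φ) {x : X.M}
    (hx : x ∈ φ.source) : PtE b x b' (φ x) :=
  ⟨fun i j => h.P i j x hx, fun i j k l => h.o i j k l x hx, h.J, h.p x hx, fun i => h.ρ i x hx⟩

theorem B_lit (h' : b'.OK) {φ : OpenPartialHomeomorph X.M X'.M} (h : b.Lit b' φ) {x : X.M}
    (hx : x ∈ φ.source) : b'.A0.B (φ x) = b.A0.B x := by
  have k := ptE_lit h hx
  have e : ∀ a, b'.F.D a (pC b') (φ x) = b.F.D a (pC b) x := fun a =>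
    (iso_D' h.iso a (Op40.sm_pC h') (fun y hy => (ptE_lit h hy).pC.symm) hx).symm
  simp only [Bg.A0, full, cut, F_two, pE_two, pC_two, σF_two, BF, Bg.W, jp_two, qL_two, k.pE, k.σF, e, k.ρ,
    k.jp, k.qL, k.J, h.A _ x hx, h.ms x hx, ← Met55.iso_c h.iso hx, ← Met55.iso_dv h.iso hx,
    Pi.zero_apply]

theorem ptE_nk (K : Sw.Nk e b) {z : e.Y.M × ℝ} (hz : z ∈ K.ψ.source) :
    PtE e.cyl (z.1, 0) b (K.ψ z) :=
  ⟨fun i j => (K.P i j z hz).trans (by cases i <;> cases j <;> rfl),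
    fun i j k l => K.o i j k l z hz, K.hJ, K.hp z hz, fun i => K.hρ i z hz⟩

theorem inZ (h : e.OK) : In (b := fun _ : Unit => e.cyl) (Op78.iv e.D.F.toPre) :=
  ⟨Op78.iv_P, fun i j k l => .of (h.cyl.B.so i j k l) fun _ => rfl, .of h.cyl.cc.sp fun _ => rfl,
    fun i => .of (h.cyl.cc.sρ i) fun _ => rfl, (Op78.iv _).const _, (Op78.iv _).const _,
    fun i => .of (h.cyl.cc.sm i) fun _ => by cases i <;> rfl,
    .of h.cyl.cms.choose_spec.1 fun _ => rfl, .of h.cyl.com.choose_spec.1 fun _ => rfl,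
    Op78.iv_c, Op78.iv_dv⟩

theorem cyo_A0 (h : e.OK) : cyo e.A0 = e.cyl.A0 := Op78.cyo_sl0 (inZ h).A0

variable (κ lam ν) in
/-- **IX-OP** -/
theorem ixOp : IxOp κ lam ν where
  good _ _ _ h := ⟨good_A0 h, cliff_A0 h⟩
  lit _ _ _ _ _ _ _ _ h' h _ hx :=
    ⟨(ptE_lit h hx).pC, (ptE_lit h hx).pE, (ptE_lit h hx).σ, B_lit h' h hx⟩
  cy _ := cyo_A0

end Crest.Agent.X212.Map77.S
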