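import Crest.Agent.X212.Map77.S3
import Crest.Agent.X212.Ix82.Defs

/-! # Lane IND-S: the index is constant in a family -/

set_option autoImplicit false
set_option linter.unusedSectionVars false
noncomputable section
open scoped Manifold ContDiff Topology InnerProductSpace
open MeasureTheory Set Function Filter

namespace Crest.Agent.X212.Map77.S
open An An.Pre Sob92 Prm93 Sw Sw.En3 Pb50 Fred93
open M (Mf)

variable {κ lam ν : Type} [Fintype κ] [Fintype lam] [Fintype ν] [DecidableEq ν]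
  {X : Mf 4} {nc nc' nr : ℕ}

/-- the index does not depend on the frame of the Sobolev scale -/
theorem fr_lift {V W : Type} [NormedAddCommGroup V] [InnerProductSpace ℝ V] [CompleteSpace V]
    [NormedAddCommGroup W] [InnerProductSpace ℝ W] [CompleteSpace W]
    {F F' : Pre X.I X.M (Option κ)} (h : Cmp F F') {p p' : X.M → V →L[ℝ] V}
    {q q' : X.M → W →L[ℝ] W} (ep : p' = p) (eq : q' = q) {k j : ℕ} {T : (X.M → V) → X.M → W}
    {L : F'.H k p' →L[ℝ] F'.H j q'} (hL : F'.Rep L T) :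
    F.Rep (F.lift k j p q T) T ∧ ∀ n, Fr L n ↔ Fr (F.lift k j p q T) n := by
  subst ep eq
  have h1 : F.Rep (F.lift k j p' q' T) T := lift_conj h hL ▸ rep_conj h hL
  exact ⟨h1, fun n => ⟨fun e => lift_conj h hL ▸ e.conj _ _,
    fun e => (hL.unique (rep_conj h.symm h1)) ▸ e.conj _ _⟩⟩

theorem pqσ {b : Bg X.I X.M κ lam ν nc} {b' : Bg X.I X.M κ lam ν nc'} (hB : b'.B = b.B)
    (hm : b'.m = b.m) : b'.A0.p = b.A0.p ∧ b'.A0.q = b.A0.q ∧ b'.A0.σ = b.A0.σ := by
  have v : b'.two.vol = b.two.vol := funext fun x => by simp only [Bg.vol, hB, hm]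
  have p : pC b'.two = pC b.two := congrArg₂ ps (funext fun x => by simp only [Bg.p1, hB])
    (funext fun x => by simp only [Bg.pp, v, hm])
  have q : pE b'.two = pE b.two := congrArg (ps · _) (congrArg₂ ps
    (funext fun x => by simp only [Bg.pm, v, hm]) (funext fun x => by simp only [Bg.p2, hB]))
  exact ⟨p, q, funext₂ fun a x => by simp only [Bg.A0, full, cut, p, q, σF, hB, hm]⟩

theorem ng_et {e : En3 κ lam ν} {b : Bg X.I X.M κ lam ν nc} {b' : Bg X.I X.M κ lam ν nc'}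
    {K : Sw.Nk e b} {K' : Sw.Nk e b'} (h : K'.ng = K.ng) (hσ : b'.A0.σ = b.A0.σ) (s : Bool)
    (a : e.T) : K'.et s a = K.et s a := by
  have : K'.bw s = K.bw s := funext fun x => by
    rw [Nk.bw, Nk.bw, ng_p h, ng_q h, ng_tm h]; rw [propext (ng_inf h)]
  funext u x
  simp only [Nk.et, this, ng_ψ h, ng_tm h, hσ]

/-- the terms on the ends -/
def ET {N : Type} [Fintype N] {e : N → En3 κ lam ν} (P : Pz X nc e) (a : TCs e)
    (u : X.M → Cf κ ν) (x : X.M) : Ef κ ν :=
  ∑ i, ∑ s, (P.nk i).elim 0 fun K => K.et s (a i s) u x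

variable {d : Dt κ lam ν} {N : Type} [Fintype N] {ty : N → d.𝓔}
  {T : Type} [NormedAddCommGroup T] [NormedSpace ℝ T] [FiniteDimensional ℝ T]
  {s : Pz X 0 fun i => d.e (ty i)} {σ : Cel s nc nr T} {t : T}

variable (σ) in
/-- the local operator at the trivial configuration, on the scale of the site -/
def L0 (k : ℕ) (t : T) : HC s (k + 1) →L[ℝ] HE s k :=
  LH s.bg.F.toPre (bg σ t).F.toPre k _ _ (bg σ t).A0

variable (σ) in
/-- the operator of the piece at `t`, on the scale of the site -/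
def SH (a : TCs fun i => d.e (ty i)) (t : T) : HC s (7 + 1) →L[ℝ] HE s 7 :=
  s.bg.F.lift (7 + 1) 7 _ _ ((σ.P t).st a)

variable (h : σ.toFam.OK)
include h

theorem op_A0 : (KS h).op fun t => (bg σ t).A0 :=
  have H := inK h
  In.full (b := fun t => (bg σ t).two) (K := KS h) ⟨H.P, H.o, H.p, H.ρ, H.J, (KS h).const _, H.A,
    H.ms, H.om, H.c, H.dv⟩ (fun _ => (KS h).const _) ((KS h).const _)

theorem sm_L0 (k : ℕ) : ContDiffOn ℝ ∞ (L0 σ k) σ.Q :=
  SB.lift_op h.mix h.sS (op_A0 h).σ (op_A0 h).B (cb_pE h) (prj_pE h).idem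
    (fun _ _ _ x _ => (prj_pE h).idem x _) fun _ _ => Maps.of_left fun x _ => (prj_pE h).idem x _

variable (ht : t ∈ σ.Q)
include ht

theorem rep_L0 (k : ℕ) : s.bg.F.Rep (L0 σ k t) ((bg σ t).A0.app (bg σ t).F) :=
  (h.mix t ht).rep_op (fun a b => (h.sS a b).cb t ht) (fun a => ((op_A0 h).σ a).cb t ht)
    ((op_A0 h).B.cb t ht) (fun _ x _ => (prj_pE h).idem x _)
    (Maps.of_left fun x _ => (prj_pE h).idem x _)

theorem ET_fam (a : TCs fun i => d.e (ty i)) : ET (σ.P t).toPz a = ET s a := by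
  have hσ := (pqσ (h.B t ht) (h.m t ht)).2.2
  funext u x
  refine Finset.sum_congr rfl fun i _ => Finset.sum_congr rfl fun b _ => ?_
  cases e : s.nk i with
  | some K =>
    obtain ⟨K', h1, h2⟩ := h.en t ht i K e
    rw [show (σ.P t).nk i = some K' from h1]
    exact congrFun (congrFun (ng_et h2 hσ b _) u) x
  | none =>
    cases e' : (σ.P t).nk i with
    | none => rfl
    | some K' =>
      have : ¬K'.Inf b := fun k => by simpa [e] using inf_site h ht e' k
      simp [Nk.et, Nk.bw, this]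

theorem st_fam (a : TCs fun i => d.e (ty i)) (u : X.M → Cf κ ν) :
    (σ.P t).st a u = (bg σ t).A0.app (bg σ t).F u + ET s a u := by
  rw [bg_eq h ht, ← ET_fam h ht]; rfl

theorem fr_SH (hR : IxRep κ lam ν) {a : TCs fun i => d.e (ty i)} (ha : s.TOK a) :
    s.bg.F.Rep (SH σ a t) ((σ.P t).st a) ∧ ∀ n, (σ.P t).Ix a n ↔ Fr (SH σ a t) n :=
  fr_lift (tw h ht).cmp (pqσ (h.B t ht) (h.m t ht)).1 (pqσ (h.B t ht) (h.m t ht)).2.1
    (hR.x X nc N _ _ (h.ok t ht).toOK a fun i b k => ha i b ((inf_iff h ht i b).1 k)).1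

omit h ht in
variable (d ty X nc T) in
/-- **IX-FAM** -/
theorem ixFam (hR : IxRep κ lam ν) (hF : IxFred κ lam ν) : IxFam d ty X nc T := by
  intro s 𝓕 h a ha t ht t' ht' n hn
  let σ : Cel s nc 0 T := ⟨𝓕, fun _ _ => ⟨0, 0⟩, 0⟩
  have ha' : s.TOK a := fun i b k => (ha i b k).toTOK
  have H := fun t (ht : t ∈ σ.Q) => fr_SH (σ := σ) h ht hR ha'
  have e : ∀ r ∈ σ.Q, SH σ a r = L0 σ 7 r + (SH σ a t - L0 σ 7 t) := fun r hr =>
    RepT_eq (H r hr).1 (RepT_add (rep_L0 h hr 7) (RepT_sub (H t ht).1 (rep_L0 h ht 7))) fun u => by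
      rw [st_fam h hr, st_fam h ht, add_sub_cancel_left]
  refine ((H t' ht').2 n).2 (Fr.of_preconnected h.con (((sm_L0 (σ := σ) h 7).continuousOn.add
    continuousOn_const).congr e) (fun r hr => ?_) ht ht' (((H t ht).2 n).1 hn))
  obtain ⟨m, hm⟩ := hF X nc N _ _ (h.ok r hr).toOK a fun i b k => ha i b ((inf_iff h hr i b).1 k)
  exact (((H r hr).2 m).1 hm).1

end Crest.Agent.X212.Map77.S
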