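import Crest.Agent.X212.Map77.IxF
import Crest.Agent.X212.Map77.IxO
import Crest.Agent.X212.Frc61.Frc
import Crest.Agent.X212.Dl42.Main

/-! # Lane IND-S: the linearisation at a base point has the intrinsic index -/

set_option autoImplicit false
set_option linter.unusedSectionVars false
noncomputable section
open scoped Manifold ContDiff Topology InnerProductSpace
open MeasureTheory Set Function Filter

namespace Crest.Agent.X212.Map77.S
open An An.Pre Sob92 Prm93 Sw Sw.En3 Pb50 Fred93 Cyf70 Cht98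
open Dl42 (fam_sc)
open Nd18 (Dp)
open M (Mf pm)

variable {κ lam ν : Type} [Fintype κ] [Fintype lam] [Fintype ν] [DecidableEq ν]
  {X : Mf 4} {nc nr : ℕ} {l : ℝ}

section pt
variable {E : Type} [NormedAddCommGroup E] [NormedSpace ℝ E] [FiniteDimensional ℝ E]
  [MeasurableSpace E] [BorelSpace E]
  {HM : Type} [TopologicalSpace HM] {I : ModelWithCorners ℝ E HM}
  {M : Type} [TopologicalSpace M] [ChartedSpace HM M] [IsManifold I ∞ M] [MeasurableSpace M]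
  {b : Bg I M κ lam ν nc} {c : Sw.Cfg M κ ν} {u : M → Cf κ ν}

theorem der_quad {V : Type} [NormedAddCommGroup V] [NormedSpace ℝ V] {f : ℝ → V} {a a' q : V}
    (h : ∀ r : ℝ, r • a' = f r - a + (r * r) • q) : HasDerivAt f a' 0 := by
  have : f = fun r => a + r • a' - (r * r) • q := funext fun r => by rw [h r]; abel
  simpa [this] using (((hasDerivAt_id (0 : ℝ)).smul_const a').const_add a).fun_sub
    (((hasDerivAt_id (0 : ℝ)).mul (hasDerivAt_id 0)).smul_const q)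

/-- the operator `full` is the derivative of the field equations -/
theorem der_full (ho : OpAt b c) (hu : Sm I u) (hp : ∀ x, pC b x (u x) = u x) (x : M) :
    HasDerivAt (fun r => b.eD (vr c u r) x) (f2 _ _ (f2 _ _ ((full b c).app b.F u x))) 0 ∧
    HasDerivAt (fun r => b.eC (vr c u r) x) (s2 _ _ (f2 _ _ ((full b c).app b.F u x))) 0 ∧
    s2 _ _ ((full b c).app b.F u x) = lG b c u x := by
  have e := fun r : ℝ => ho.app (r • u) ((contMDiff_const (I' := 𝓘(ℝ, ℝ)) (c := r)).smul hu)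
    (fun x => by rw [Pi.smul_apply, map_smul, hp]) x
  have e1 : ∀ r : ℝ, (full b c).app b.F (r • u) x = r • (full b c).app b.F u x := fun r => by
    simp only [Op.app, Pre.op, b.F.D_smul hu, Pi.smul_apply, map_smul, smul_add, Finset.smul_sum]
  have e2 : ∀ r : ℝ, vr c (r • u) 1 = vr c u r := fun r => by simp [vr]
  simp only [e1, e2] at e
  refine ⟨der_quad (a := b.eD c x) (q := -∑ i, co i (u x) • b.m.ρ i x (b.jp x (sp (u x)))) fun r => ?_,
    der_quad (a := b.eC c x) (q := b.w • b.p2 x (b.qd x (sp (u x)) (sp (u x)))) fun r => ?_, ?_⟩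
  · simpa [sub_eq_add_neg, Finset.smul_sum, smul_smul, mul_assoc, mul_comm (co _ _),
      -Fintype.sum_option] using congrArg (fun z => f2 _ _ (f2 _ _ z)) (e r)
  · simpa [← qL_apply, smul_smul, mul_comm b.w] using congrArg (fun z => s2 _ _ (f2 _ _ z)) (e r)
  · simpa using congrArg (s2 _ _) (ho.app u hu hp x)

theorem σ_i2 (h : b.OK) (a : Option κ) (x : M) (φ : Eu ν) :
    b.A0.σ a x (i2 _ _ φ) = i1 _ _ (i1 _ _ (b.m.ρ a x (b.pp x φ))) :=
  ext3 (by simp [A0_σ, σF, Op40.mp h]) (by simp [A0_σ, σF]) (by simp [A0_σ, σF, triv, co_apply])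

end pt

variable {e : En3 κ lam ν}

variable (e) in
/-- the tangent vector of a section -/
def tg (ξ : e.Y.M → Cf κ ν) : e.YC := ⟨fun k y => co (some k) (ξ y), fun y => sp (ξ y)⟩

/-- the derivative of the radial mass -/
def dR (v w : e.YC) (y : e.Y.M) : Eu ν := e.b (nm v) • e.m.ρ none y (w.Φ y) +
  (deriv e.b (nm v) * (2 * ∫ z, ⟪v.Φ z, w.Φ z⟫_ℝ ∂e.D.F.μ)) • e.m.ρ none y (v.Φ y)

/-- the derivative of the holonomy term -/
def dH (v w : e.YC) (y : e.Y.M) : F2 κ := -(deriv (deriv e.f) (hol v) * hol w) • e.ζ y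

theorem fam_vr {V : Type} [NormedAddCommGroup V] [NormedSpace ℝ V] {a u : e.Y.M → V}
    (ha : Sm e.Y.I a) (hu : Sm e.Y.I u) : Dl42.Fam e.Y.I (fun r y => a y + r • u y) fun _ => u :=
  ⟨(sm_fst ha).add (fam_sc hu).sm, fun s y => ((fam_sc hu).dr s y).const_add _⟩

theorem vr_zero (v w : e.YC) : v.vr w 0 = v := by ext <;> simp [YC.vr]

theorem der_nm {v w : e.YC} (hv : Sm e.Y.I v.Φ) (hw : Sm e.Y.I w.Φ) :
    HasDerivAt (fun r => nm (v.vr w r)) (2 * ∫ z, ⟪v.Φ z, w.Φ z⟫_ℝ ∂e.D.F.μ) 0 := by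
  simpa [nm, YC.vr, ← two_mul, integral_const_mul, fun y => real_inner_comm (v.Φ y) (w.Φ y)] using
    ((fam_vr hv hw).inner (fam_vr hv hw)).int e.D.F.toPre 0

variable (he : e.OK)
include he

theorem der_hol {v w : e.YC} (hv : ∀ k, Sm e.Y.I (v.a k)) (hw : ∀ k, Sm e.Y.I (w.a k)) :
    HasDerivAt (fun r => hol (v.vr w r)) (hol w) 0 :=
  ((Dl42.Fam.sum fun k => (fam_vr (hv k) (hw k)).smul (Dl42.sm_ζ he _)).cmul 4).int e.D.F.toPre 0

theorem σ_nu (y : e.Y.M) (w : Ef κ ν) : e.A0.σ none y (nu e.A0 y w) = pE e.cyl (y, 0) w :=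
  ext_inner_left ℝ fun v => by
    have := (cliff_A0 he.cyl).2 none none (y, 0) v w
    change ⟪-nu e.A0 y v, -nu e.A0 y w⟫_ℝ + ⟪-nu e.A0 y v, -nu e.A0 y w⟫_ℝ =
      2 * 1 * ⟪pE e.cyl (y, 0) v, w⟫_ℝ at this
    rw [inner_neg_neg, (Op40.prjE he.cyl).symm] at this
    rw [← inner_nu]; linarith

theorem ζ_nn (y : e.Y.M) : e.ζ y (none, none) = 0 := by
  have := (he.pζ y ▸ Op40.sd_p2 he.cyl (x := (y, 0)) (e.ζ y)).anti none none
  linarith

theorem σ_ζ (y : e.Y.M) : e.A0.σ none y (i1 _ _ (WithLp.toLp 2 fun a => e.ζ y (none, a))) =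
    (1 / 2 : ℝ) • i1 _ _ (i2 _ _ (e.ζ y)) := by
  have h : nu e.A0 y (i1 _ _ (i2 _ _ (e.ζ y))) =
      (2 : ℝ) • i1 _ _ (WithLp.toLp 2 fun a => e.ζ y (none, a)) :=
    (Op40.tr_full (b := e.cyl.two) (c := ⟨0, 0⟩) (x := (y, 0)) (two_ok he.cyl) none _).trans
      (ext2 (fm_ext fun a => by simpa [show e.cyl.two.p2 = e.cyl.p2 from rfl] using congrArg (· (none, a)) (he.pζ y)) (by simp))
  have := σ_nu he y (i1 _ _ (i2 _ _ (e.ζ y)))
  rw [h, map_smul] at this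
  rw [one_div, eq_inv_smul_iff₀ two_ne_zero, this]
  exact ext3 (by simp) (by simp [he.pζ]) (by simp [triv])

/-- the end term of the Hessian -/
theorem σ_ap {v : e.YC} (hv : e.cyl.Adm (fz v)) {ξ : e.Y.M → Cf κ ν} {y : e.Y.M}
    (hξ : e.cyl.pp (y, 0) (sp (ξ y)) = sp (ξ y)) :
    e.A0.σ none y (e.ap (hs v) (fun y => rC l (ξ y)) y) =
      e.cyl.lo (fz ⟨v.a, fun y => √(e.w / 2) • v.Φ y⟩) (y, 0) (rC l (ξ y)) -
        rE l (i1 _ _ (i1 _ _ (dR v (tg e ξ) y) + i2 _ _ (dH v (tg e ξ) y))) := by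
  have h1 : ∫ z, ⟪i2 _ _ (v.Φ z), rC l (ξ z)⟫_ℝ ∂e.D.F.μ =
      l * ∫ z, ⟪v.Φ z, (tg e ξ).Φ z⟫_ℝ ∂e.D.F.μ := by
    simp only [inner2, f2_i2, s2_i2, s2_rC, inner_zero_left, zero_add, real_inner_smul_right,
      integral_const_mul, tg]
  have h2 : 4 * ∫ z, ⟪i1 _ _ (WithLp.toLp 2 fun a => e.ζ z (none, a)), rC l (ξ z)⟫_ℝ ∂e.D.F.μ =
      hol (tg e ξ) := by
    simp only [inner2, f2_i1, s2_i1, f2_rC, inner_zero_left, add_zero]
    simp [PiLp.inner_apply, ζ_nn he, hol, integral_const_mul, tg, co_apply, mul_comm]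
  have h3 : ∀ φ, e.A0.σ none y (i2 _ _ φ) =
      i1 _ _ (i1 _ _ (e.m.ρ none y (e.cyl.pp (y, 0) φ))) := σ_i2 he.cyl none (y, 0)
  have h4 : e.cyl.pp (y, 0) (v.Φ y) = v.Φ y := hv.pΦ (y, 0)
  simp only [ap, hs, Fintype.sum_bool, cond_true, cond_false, map_add, map_smul, map_sub, sub_apply,
    smul_apply, ContinuousLinearMap.comp_apply, σ_nu he, pE_lo he.cyl, h1, h3, h4, σ_ζ he, s2_rC,
    hξ, dR, dH, ← h2]
  generalize e.cyl.lo _ _ _ = L
  refine ext3 ?_ ?_ ?_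
  · simp only [map_add, map_sub, map_smul, f2_i1, f2_i2, ff_rE, tg]; module
  · simp only [map_add, map_sub, map_smul, f2_i1, s2_i1, s2_i2, sf_rE]; module
  · simp only [map_add, map_sub, map_smul, s2_i1, s2_rE]; module

variable {b : Bg X.I X.M κ lam ν nc} (K : Sw.Nk e b) {c : Sw.Cfg X.M κ ν} {v : e.YC}
  {u : X.M → Cf κ ν} {z : e.Y.M × ℝ}

theorem der_nk (hv : e.cyl.Adm (fz v)) (hu : Sm X.I u) (hz : z.2 ∈ Dp K.p K.q 2)
    (hc : sl (K.pb c) z.2 = v) :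
    HasDerivAt (fun r => K.rad (vr c u r) (K.ψ z)) (dR v (tg e fun y => u (K.ψ (y, z.2))) z.1) 0 ∧
    HasDerivAt (fun r => K.hl (vr c u r) (K.ψ z)) (dH v (tg e fun y => u (K.ψ (y, z.2))) z.1) 0 := by
  have hJ := Nd18.Dp_sub two_pos hz
  have hs := K.mem_src.2 hJ
  have A := Dl42.ay_of hv
  have s1 : Sm e.Y.I fun y => u (K.ψ (y, z.2)) := hu.comp (K.iso.sm.comp_contMDiff
    (contMDiff_id.prodMk contMDiff_const) fun _ => K.mem_src.2 hJ)
  set w := tg e fun y => u (K.ψ (y, z.2))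
  have e1 : ∀ r, sl (K.pb (vr c u r)) z.2 = v.vr w r := fun r => hc ▸ rfl
  have e2 : ∀ r, (vr c u r).Φ (K.ψ z) = v.Φ z.1 + r • w.Φ z.1 := fun r => hc ▸ rfl
  have e3 : K.cut 1 z.2 = 1 := Nd18.ct_one (by norm_num; exact hz)
  simp only [Nk.rad, Nk.hl, Nd18.Nk.χ, K.tm_ψ z hs, e1, e2, e3, K.ext_ψ _ hs, one_mul, one_smul,
    K.hρ none z hs]
  have d1 := (he.sb.differentiable (by simp) _).hasDerivAt.comp 0
    (der_nm A.sΦ (w := w) (sp.contMDiff.comp s1))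
  have d2 := (((contDiff_infty_iff_deriv.1 he.sf).2.differentiable (by simp)) _).hasDerivAt.comp 0
    (der_hol he A.sa (w := w) fun k => (co _).contMDiff.comp s1)
  have d3 := (e.m.ρ none z.1).hasFDerivAt.comp_hasDerivAt (0 : ℝ)
    (((hasDerivAt_id (0 : ℝ)).smul_const (w.Φ z.1)).const_add (v.Φ z.1))
  exact ⟨(d1.smul d3).congr_deriv (by simp [dR, vr_zero]),
    (d2.neg.smul_const _).congr_deriv (by simp [dH, vr_zero])⟩

omit he

/-- far out on the side `s` -/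
def Far (s : Bool) (τ : ℝ) : Prop := |K.p.getD 0| + |K.q.getD 0| + 2 < pm s * τ

theorem far_dp {s : Bool} (hs : K.Inf s) {τ : ℝ} (h : Far K s τ) : τ ∈ Dp K.p K.q 2 := by
  refine ⟨fun a ha => ?_, fun a ha => ?_⟩ <;> cases s <;>
    simp only [Far, Nk.Inf, pm, Option.mem_def.1 ha, Option.getD_some, Bool.false_eq_true, if_true,
      if_false, reduceCtorEq] at h hs
  · linarith [le_abs_self a, abs_nonneg (K.q.getD 0)]
  · linarith [neg_abs_le a, abs_nonneg (K.p.getD 0)]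

section pz
variable {N : Type} [Fintype N] {e : N → En3 κ lam ν} {P : Pz X nc e} (hP : P.OK) {i : N} {s : Bool}
  {K : Sw.Nk (e i) P.bg} (hK : K ∈ P.nk i) (hs : K.Inf s) {z : (e i).Y.M × ℝ} (h : Far K s z.2)
include hP hK hs h

theorem sum_bw {V : Type} [AddCommMonoid V] [Module ℝ V] (f : ∀ j, Bool → Sw.Nk (e j) P.bg → V) :
    ∑ j, ∑ b, ((P.nk j).elim 0 fun K' => K'.bw b (K.ψ z) • f j b K') = f i s K := by
  have hx := K.mem_src.2 (Nd18.Dp_sub two_pos (far_dp K hs h))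
  have a1 := abs_nonneg (K.p.getD 0)
  have a2 := abs_nonneg (K.q.getD 0)
  unfold Far at h
  rw [Finset.sum_comm, Finset.sum_congr rfl fun b _ => sum_nk hP hK (K.ψ.map_source hx) _
    fun j K' hz => by rw [show K'.bw b (K.ψ z) = 0 from by_contra fun k => hz (bw_dp K' k).2.2,
      zero_smul], Finset.sum_eq_single s (fun b _ hb => ?_) fun k => (k (Finset.mem_univ s)).elim,
    Nk.bw, if_pos hs, K.tm_ψ z hx, Real.smoothTransition.one_of_one_le (by linarith), one_smul]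
  rw [show K.bw b (K.ψ z) = 0 from by_contra fun k => ?_, zero_smul]
  have := (bw_dp K k).2.1
  rw [K.tm_ψ z hx] at this
  cases s <;> cases b <;> simp only [pm, ne_eq, not_true, if_true, Bool.false_eq_true, if_false]
    at hb h this <;> linarith

/-- far out on an end the linearisation is the operator with the Hessian as end term -/
theorem far_eq {β : BCs e} (hβ : (e i).cyl.Adm (fz (β i s))) {c : Sw.Cfg X.M κ ν}
    (hc : P.bg.Adm c) (h0 : c.a none (K.ψ z) = 0) (h1 : sl (K.pb c) z.2 = β i s)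
    {u : X.M → Cf κ ν} (hu : Sm X.I u) (hp : ∀ x, pC P.bg x (u x) = u x) {ζ : Ef κ ν}
    (d1 : HasDerivAt (fun r => P.bg.eD (vr c u r) (K.ψ z) - P.p0.D (vr c u r) (K.ψ z))
      (f2 _ _ (f2 _ _ ζ)) 0)
    (d2 : HasDerivAt (fun r => P.bg.eC (vr c u r) (K.ψ z) - P.p0.C (vr c u r) (K.ψ z))
      (s2 _ _ (f2 _ _ ζ)) 0) (d3 : s2 _ _ ζ = lG P.bg c u (K.ψ z)) :
    rE √(P.bg.w / 2) ζ =
      P.st (fun i b => En3.hs (β i b)) (fun x => rC √(P.bg.w / 2) (u x)) (K.ψ z) := by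
  have hz := far_dp K hs h
  have hx := K.mem_src.2 (Nd18.Dp_sub two_pos hz)
  have k := ptE_nk K hx
  obtain ⟨a1, a2, a3⟩ := der_full (Op40.opStmt X nc _ hP.bg c hc) hu hp (K.ψ z)
  obtain ⟨b1, b2⟩ := der_nk (hP.en i) K hβ hu hz h1
  have e1 : ∀ c', P.p0.D c' (K.ψ z) = K.rad c' (K.ψ z) := fun c' =>
    sum_nk hP hK (K.ψ.map_source hx) _ fun j K' hz => by simp [Nk.rad, K'.χ_zero hz]
  have e2 : ∀ c', P.p0.C c' (K.ψ z) = K.hl c' (K.ψ z) := fun c' =>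
    sum_nk hP hK (K.ψ.map_source hx) _ fun j K' hz => by simp [Nk.hl, K'.ext_zero _ hz]
  simp only [e1, e2] at d1 d2
  have e3 : ζ = (full P.bg c).app P.bg.F u (K.ψ z) - i1 _ _ (i1 _ _ (dR _ _ _) + i2 _ _ (dH _ _ _)) :=
    ext3 (by simpa using d1.unique (a1.fun_sub b1)) (by simpa using d2.unique (a2.fun_sub b2))
      (by simpa [a3] using d3)
  have e4 := sum_bw hP hK hs h fun j b K' => P.bg.A0.σ none (K.ψ z) ((e j).ap (En3.hs (β j b))
    (fun y => rC √(P.bg.w / 2) (u (K'.ψ (y, K'.tm (K.ψ z))))) (K'.ψ.symm (K.ψ z)).1)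
  rw [K.tm_ψ z hx, K.ψ.left_inv hx] at e4
  have e5 := σ_ap (l := √(P.bg.w / 2)) (hP.en i) hβ (ξ := fun y => u (K.ψ (y, z.2))) (y := z.1)
    (k.pp ▸ maps_s2 _ _ (hp _))
  have e6 := app_scl (c := c) (Real.mul_self_sqrt (by linarith [hP.bg.w] : 0 ≤ P.bg.w / 2))
    (Op40.sm_pC hP.bg) hu hp (K.ψ z)
  have e7 := app_two (b := P.bg) (c := scl √(P.bg.w / 2) c) (u := fun x => rC √(P.bg.w / 2) (u x))
    (maps_rC (K.ψ z) _ (hp _))
  have e8 := k.lo (c' := scl √(P.bg.w / 2) c) (c := fz ⟨(β i s).a, fun y =>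
    √((e i).w / 2) • (β i s).Φ y⟩) (fun j => by cases j; exacts [h0, h1 ▸ rfl])
    (by rw [← K.hw, ← h1]; rfl)
  rw [e3, map_sub, ← e6, e7, e8, add_sub_assoc, ← e5, show (e i).A0.σ none z.1 = _ from
    (k.σ none).symm, ← e4]
  simp only [Pz.st, Nk.et]

end pz

variable {d : Dt κ lam ν} {N : Type} [Fintype N] {ty : N → d.𝓔}
  {T : Type} [NormedAddCommGroup T] [NormedSpace ℝ T] [FiniteDimensional ℝ T]
  {s : Pz X 0 fun i => d.e (ty i)} {σ : Cel s nc nr T} {t : T}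

variable (s) in
/-- scaling on Sobolev spaces -/
def RC (k : ℕ) (l : ℝ) : HC s k →L[ℝ] HC s k := s.bg.F.mulH k _ _ fun _ => rC l

variable (s) in
/-- scaling on Sobolev spaces -/
def RE (k : ℕ) (l : ℝ) : HE s k →L[ℝ] HE s k := s.bg.F.mulH k _ _ fun _ => rE l

theorem rep_RC {k : ℕ} : s.bg.F.Rep (RC s k l) fun u x => rC l (u x) := rep_mulH (Cb_const _) maps_rC
theorem rep_RE {k : ℕ} : s.bg.F.Rep (RE s k l) fun u x => rE l (u x) := rep_mulH (Cb_const _) maps_rE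

theorem fr_scl {k j : ℕ} (hl : l ≠ 0) {A B : HC s k →L[ℝ] HE s j} {n : ℤ}
    (h : Cq (RE s j l ∘L A) (B ∘L RC s k l)) (hB : Fr B n) : Fr A n := by
  have c : ∀ {l l' : ℝ}, l * l' = 1 → ∀ u, RC s k l (RC s k l' u) = u := fun e =>
    DFunLike.congr_fun (RepT_eq (RepT_comp rep_RC rep_RC) Rep_id fun _ => funext fun _ => rC_rC e _)
  have r : ∀ {l l' : ℝ}, l * l' = 1 → ∀ u, RE s j l (RE s j l' u) = u := fun e =>
    DFunLike.congr_fun (RepT_eq (RepT_comp rep_RE rep_RE) Rep_id fun _ => funext fun _ => rE_rE e _)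
  have h1 := Fr.equiv (.equivOfInverse _ _ (c (inv_mul_cancel₀ hl)) (c (mul_inv_cancel₀ hl)))
  have h2 := Fr.equiv (.equivOfInverse _ _ (r (mul_inv_cancel₀ hl)) (r (inv_mul_cancel₀ hl)))
  exact ((h2.comp (h.fr (hB.comp h1))).congr fun x => (r (inv_mul_cancel₀ hl) _).symm).cast (by simp)

variable (h : σ.toFam.OK) (ht : t ∈ σ.Q)
include h ht

theorem gn_SH (hR : IxRep κ lam ν) {a : TCs fun i => d.e (ty i)} (ha : s.TOK a) :
    Gn (SH σ a t - L0 σ 7 t) := by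
  obtain ⟨h1, -, ⟨C, h2⟩, n, h3⟩ := hR.x X 0 N _ s h.site a ha
  refine ⟨n, Eq.trans ?_ (sub_eq_of_eq_add' h3)⟩
  exact RepT_eq (RepT_sub (fr_SH h ht hR ha).1 (rep_L0 h ht 7)) (RepT_sub h1 (rep_OpH h2 7).1)
    fun u => by rw [st_fam h ht, add_sub_cancel_left]; exact (add_sub_cancel_left _ _).symm

theorem gn_LF (hβ : s.Cr σ.β) (hl : l * l = s.bg.w / 2) (k : ℕ) :
    Gn (RE s k l ∘L LF σ k t (σ.bs t) - L0 σ k t ∘L RC s (k + 1) l) := by
  have hb : (bg σ t).OK := bg_eq h ht ▸ (h.ok t ht).bg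
  have c0 : (KS h).mem fun t => (scl l (σ.bs t)).Φ := Cls.smul ((KS h).const l) (sb_bΦ h hβ)
  have c : s.bg.F.Cb ((bg σ t).lo (scl l (σ.bs t))) :=
    ((inK h).lo (c := fun t => scl l (σ.bs t)) (sb_bs h hβ) c0).cb t ht
  have m : Maps (pC s.bg) (pE s.bg) ((bg σ t).lo (scl l (σ.bs t))) :=
    Maps.of_left fun x v => by rw [lo_eq]; exact (prj_pE h).idem x _
  have r1 := RepT_comp (rep_RE (l := l)) (rep_LF (k := k) h ht (op_bs Op40.opStmt h hβ ht).2)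
  have r2 := RepT_comp (rep_L0 h ht k) (rep_RC (l := l))
  have r3 := RepT_comp (rep_incl k.le_succ) (RepT_comp (rep_mulH c m) (rep_RC (l := l)))
  refine ⟨_, RepT_eq (RepT_sub r1 r2) r3 fun u => funext fun x => ?_⟩
  have e1 := app_scl (b := bg σ t) (c := σ.bs t) hl (Op40.sm_pC hb) u.2.1 u.2.2.2 x
  have e2 := app_two (b := bg σ t) (c := scl l (σ.bs t)) (u := fun x => rC l (u.1 x))
    (maps_rC x _ (u.2.2.2 x))
  simp only [Pi.sub_apply, id, ← e1, e2, add_sub_cancel_left]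

theorem bs_far (hβ : s.Cr σ.β) {i : N} {b : Bool} {K : Sw.Nk (d.e (ty i)) (σ.P t).bg}
    (hK : K ∈ (σ.P t).nk i) (hb : K.Inf b) {z : (d.e (ty i)).Y.M × ℝ} (hz : Far K b z.2) :
    (∀ a, (σ.bs t).a a (K.ψ z) = (fz (σ.β i b)).a a z) ∧ (σ.bs t).Φ (K.ψ z) = (σ.β i b).Φ z.1 := by
  obtain ⟨K₀, h1, h2⟩ := inf_site h ht hK hb
  have h3 := (ng_inf h2).1 hb
  have h4 : Far K₀ b z.2 := by simpa only [Far, ng_p h2, ng_q h2] using hz
  have hx := K₀.mem_src.2 (Nd18.Dp_sub two_pos (far_dp K₀ h3 h4))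
  rw [ng_ψ h2]
  refine ⟨fun a => ?_, (sum_bw h.site h1 h3 h4 _).trans (by rw [K₀.ψ.left_inv hx])⟩
  simp only [Cel.bs, S_nk h ht h1 hx, (adm_base hβ).pa]
  exact (sum_bw h.site h1 h3 h4 fun j b K => (fz (σ.β j b)).a a (K.ψ.symm (K₀.ψ z))).trans
    (by rw [K₀.ψ.left_inv hx])

omit h ht in
variable (d ty X nc nr T) in
/-- **IX-LIN** -/
theorem ixLin (hS : IxSym κ lam ν) (hR : IxRep κ lam ν) : IxLin d ty X nc nr T := by
  intro s σ h H t ht n hn
  have hP := (h.ok.ok t ht).toOK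
  have ha : s.TOK fun i b => hs (σ.β i b) := fun i b k => (hS.hs _ (h.ok.site.en i) _ (h.cr i b k).1).1
  obtain ⟨h1, h2⟩ := fr_SH h.ok ht hR ha
  have hl := Real.mul_self_sqrt (by linarith [h.ok.w0] : 0 ≤ s.bg.w / 2)
  have S := sup h.ok
  let R : ℝ := ∑ i, ((σ.P t).nk i).elim 0 fun K => |K.p.getD 0| + |K.q.getD 0| + 2
  refine fr_scl (Real.sqrt_pos.2 (by linarith [h.ok.w0] : 0 < s.bg.w / 2)).ne' (cq_of_supp
    h.ok.site.bg.tame.choose_spec (by omega) ?_ (s.bg.F.dense_toH _ _) (hP.cpt R) fun u x hx => ?_)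
    ((h2 n).1 hn)
  · obtain ⟨m, e⟩ := h.gainL 7 le_rfl 0 (h.toHy.y0 ht)
    obtain ⟨m1, e1⟩ := gn_SH h.ok ht hR ha
    obtain ⟨m2, e2⟩ := gn_LF h.ok ht h.cr hl 7
    refine ⟨m2 + RE s _ √(s.bg.w / 2) ∘L m - m1 ∘L RC s _ √(s.bg.w / 2), ContinuousLinearMap.ext fun v => ?_⟩
    have e1 := DFunLike.congr_fun e1 (RC s _ √(s.bg.w / 2) v)
    have e2 := DFunLike.congr_fun e2 v
    simp only [e, sub_apply, add_apply, ContinuousLinearMap.comp_apply, map_add, map_sub,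
      Rep_incl rep_RE rep_RE (Nat.le_succ 7) (Nat.le_succ 7)] at e1 e2 ⊢
    have key : ∀ a b c d : HE s 7, a + b - c = a - d + b - (c - d) := fun _ _ _ _ => by abel
    rw [← e1, ← e2]
    exact key _ _ _ _
  · simp only [Pz.core, mem_ofPred_eq, not_forall, not_not] at hx
    obtain ⟨i, b, K, hK, hb, z, hz, rfl⟩ := hx
    have hf : Far K b z.2 := lt_of_le_of_lt (le_of_eq_of_le (by rw [Option.mem_def.1 hK]; rfl)
      (Finset.single_le_sum (f := fun i => ((σ.P t).nk i).elim 0 fun K =>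
        |K.p.getD 0| + |K.q.getD 0| + 2) (fun j _ => by
          cases (σ.P t).nk j
          exacts [le_rfl, by simp only [Option.elim_some]; positivity]) (Finset.mem_univ i))) hz.2.2
    have hp : ∀ x, pC (σ.P t).bg x (u.1 x) = u.1 x := fun x =>
      (congrArg (· x (u.1 x)) (pqσ (h.ok.B t ht) (h.ok.m t ht)).1).trans (u.2.2.2 x)
    rw [ContinuousLinearMap.comp_apply, ContinuousLinearMap.comp_apply, RepT_toH rep_RC, RepT_toH h1,
      val_toH S (by omega), RE, val_mulH S (by omega) (Cb_const _) maps_rE,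
      ← Mod61.ofV_eq S (by omega) (val_toH S (by omega : 4 ≤ 7 + 1) u), ← h.ok.w t ht]
    obtain ⟨a1, a2, a3⟩ := (h.pw 7 le_rfl 0 (h.toHy.y0 ht) _ (Mod61.Hs_sec S u)).2.2 (K.ψ z) _ rfl
    simp only [Frc61.EE_C, Frc61.EE_D, Finsupp.sum_zero_index, add_zero] at a1 a2
    have b1 : sl (K.pb (σ.bs t)) z.2 = σ.β i b := YC.ext (funext₂ fun k y =>
      (bs_far h.ok ht h.cr hK hb (z := (y, z.2)) hf).1 _) (funext fun y =>
        (bs_far h.ok ht h.cr hK hb (z := (y, z.2)) hf).2)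
    have b2 := far_eq (β := σ.β) (c := σ.bs t) hP hK hb hf
      (h.cr i b ((inf_iff h.ok ht i b).1 ⟨K, hK, hb⟩)).1 (h.toHy.y0 ht).2.2.1
      ((bs_far h.ok ht h.cr hK hb hf).1 none) b1 u.2.1 hp a1 a2 a3
    exact b2

omit h ht in
variable (d ty X nc nr T) in
/-- **IX-ROW** -/
theorem ixRow : IxRow d ty X nc nr T := fun _ _ h => Frc61.ix_row h

end Crest.Agent.X212.Map77.S
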