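import Crest.Agent.X212.Ell97.Hil

/-! Cokernel lemma: a subspace that is `L²`-dense against the kernel of the adjoint and contains
the range of the perturbation spans the target together with the range of the perturbed
operator.  No regularity of the cokernel of the perturbed operator is needed. -/

set_option autoImplicit false
set_option linter.unusedSectionVars false
open Function Filter Topology Module
open scoped RealInnerProductSpace

noncomputable section
namespace Crest.Agent.X212.Map77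
open Ell97

variable {X Y : ℕ → Type*} [∀ k, NormedAddCommGroup (X k)] [∀ k, InnerProductSpace ℝ (X k)]
  [∀ k, NormedAddCommGroup (Y k)] [∀ k, InnerProductSpace ℝ (Y k)]
  [∀ k, CompleteSpace (X k)] [∀ k, CompleteSpace (Y k)]

/-- a linear map to the dual of a finite dimensional space whose range separates points is onto -/
theorem map_eq_top {A B : Type*} [AddCommGroup A] [Module ℝ A] [AddCommGroup B] [Module ℝ B]
    [FiniteDimensional ℝ B] (f : A →ₗ[ℝ] Module.Dual ℝ B) (W : Submodule ℝ A)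
    (h : ∀ v, (∀ w ∈ W, f w v = 0) → v = 0) : W.map f = ⊤ := by
  have h1 : (W.map f).dualCoannihilator = ⊥ := by
    rw [eq_bot_iff]
    intro v hv
    rw [Submodule.mem_dualCoannihilator] at hv
    exact h v fun w hw => hv _ ⟨w, hw, rfl⟩
  rw [← Subspace.dualCoannihilator_dualAnnihilator_eq (W := W.map f), h1,
    Submodule.dualAnnihilator_bot]

theorem ker_sup_top {A B : Type*} [AddCommGroup A] [Module ℝ A] [AddCommGroup B] [Module ℝ B]
    (f : A →ₗ[ℝ] B) (W : Submodule ℝ A) (h : W.map f = ⊤) : f.ker ⊔ W = ⊤ := by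
  rw [eq_top_iff]
  intro y _
  have : f y ∈ W.map f := h ▸ Submodule.mem_top
  obtain ⟨w, hw, e⟩ := this
  have e2 : y = (y - w) + w := by abel
  rw [e2]
  exact Submodule.add_mem_sup (by rw [LinearMap.mem_ker, map_sub, e, sub_self]) hw

/-- the range of the elliptic operator and an `L²`-dense subspace span the target -/
theorem range_sup_top (P : Pair X Y) (hcl : IsClosed ((P.L 0).range : Set (Y 0)))
    [FiniteDimensional ℝ (P.Ls 0).ker] (k : ℕ) (W : Submodule ℝ (Y k))
    (hW : ∀ v, P.Ls 0 v = 0 → (∀ w ∈ W, ⟪dn0 P.j k w, P.j 0 v⟫ = 0) → v = 0) :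
    (P.L k).range ⊔ W = ⊤ := by
  rw [← P.ker_pr hcl k]
  refine ker_sup_top _ _ (map_eq_top _ _ fun v hv => Subtype.ext (hW v v.2 hv))

section
variable {A B C : Type*} [NormedAddCommGroup A] [NormedSpace ℝ A] [NormedAddCommGroup B]
  [NormedSpace ℝ B] [NormedAddCommGroup C] [NormedSpace ℝ C]

/-- a perturbation with values in `W` does not change `range ⊔ W` -/
theorem sup_top_of_sub {L T : A →L[ℝ] B} {W : Submodule ℝ B} (h : L.range ⊔ W = ⊤)
    (hK : ∀ u, T u - L u ∈ W) : T.range ⊔ W = ⊤ := by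
  rw [eq_top_iff, ← h]
  refine sup_le ?_ le_sup_right
  rintro _ ⟨u, rfl⟩
  have e : L u = T u + -(T u - L u) := by abel
  change L u ∈ _
  rw [e]
  exact Submodule.add_mem_sup ⟨u, rfl⟩ (W.neg_mem (hK u))

/-- more variables -/
theorem sup_top_of_comp {L : A →L[ℝ] B} {T : C →L[ℝ] B} (i : A →L[ℝ] C) {W : Submodule ℝ B}
    (h : L.range ⊔ W = ⊤) (hK : ∀ u, T (i u) - L u ∈ W) : T.range ⊔ W = ⊤ := by
  have h1 := sup_top_of_sub (T := T.comp i) h hK
  rw [eq_top_iff, ← h1]
  refine sup_le_sup_right ?_ _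
  rintro _ ⟨u, rfl⟩
  exact ⟨i u, rfl⟩

/-- fewer equations: push forward along a surjection -/
theorem sup_top_map {L : A →L[ℝ] B} (π : B →L[ℝ] C) (hπ : Surjective π) {W : Submodule ℝ C}
    (h : L.range ⊔ W.comap (π : B →ₗ[ℝ] C) = ⊤) : (π.comp L).range ⊔ W = ⊤ := by
  rw [eq_top_iff]
  intro y _
  obtain ⟨b, rfl⟩ := hπ y
  have : b ∈ L.range ⊔ W.comap (π : B →ₗ[ℝ] C) := h ▸ Submodule.mem_top
  obtain ⟨_, ⟨u, rfl⟩, w, hw, rfl⟩ := Submodule.mem_sup.1 this
  rw [map_add]
  exact Submodule.add_mem_sup ⟨u, rfl⟩ hw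

/-- products -/
theorem sup_top_prodMap {A' B' : Type*} [NormedAddCommGroup A'] [NormedSpace ℝ A']
    [NormedAddCommGroup B'] [NormedSpace ℝ B'] {L : A →L[ℝ] B} {L' : A' →L[ℝ] B'}
    {W : Submodule ℝ B} {W' : Submodule ℝ B'} (h : L.range ⊔ W = ⊤) (h' : L'.range ⊔ W' = ⊤) :
    (L.prodMap L').range ⊔ W.prod W' = ⊤ := by
  rw [eq_top_iff]
  rintro ⟨y, y'⟩ -
  have h1 : y ∈ L.range ⊔ W := h ▸ Submodule.mem_top
  have h2 : y' ∈ L'.range ⊔ W' := h' ▸ Submodule.mem_top
  obtain ⟨_, ⟨u, rfl⟩, w, hw, rfl⟩ := Submodule.mem_sup.1 h1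
  obtain ⟨_, ⟨u', rfl⟩, w', hw', rfl⟩ := Submodule.mem_sup.1 h2
  exact Submodule.mem_sup.2 ⟨_, ⟨(u, u'), rfl⟩, (w, w'), ⟨hw, hw'⟩, rfl⟩

/-- the form used by the finite-dimensional reduction: `range ⊔ span` is dense -/
theorem dense_sup_of_closure {R S : Submodule ℝ B} (h : R ⊔ S.topologicalClosure = ⊤) :
    Dense ((R ⊔ S : Submodule ℝ B) : Set B) := by
  rw [Submodule.dense_iff_topologicalClosure_eq_top, eq_top_iff, ← h]
  exact sup_le (le_sup_left.trans (Submodule.le_topologicalClosure _))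
    (Submodule.topologicalClosure_mono le_sup_right)

end

end Crest.Agent.X212.Map77
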