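import Crest.Agent.X212.Map77.IsB
import Crest.Agent.X212.Nk89.Gwd

/-!
# Row 212, GL-WALL-PSC (helper77): from the lower bound of a chart to the estimate of a side
(`Nk89/Gwd` with a moving limit, a drift and a row in `z`)
-/

set_option autoImplicit false
set_option linter.unusedSectionVars false
noncomputable section
open scoped Manifold ContDiff Topology InnerProductSpace ENNReal NNReal
open MeasureTheory Set Function Filter

namespace Crest.Agent.X212.Map77.Is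
open An Mod61 Map77 Met55 Prm93 Sob92 Hol14 Nk89
open Gl67 (Sid Cm Eqn PP g0 q2 q2_mono q2_fst q2_snd N_fst N_snd sm_fst sm_snd)

variable {E : Type} [NormedAddCommGroup E] [NormedSpace ℝ E] [FiniteDimensional ℝ E]
  [MeasurableSpace E] [BorelSpace E]
  {HM : Type} [TopologicalSpace HM] {I : ModelWithCorners ℝ E HM}
  {M : Type} [TopologicalSpace M] [ChartedSpace HM M] [IsManifold I ∞ M]
  [MeasurableSpace M] {ι : Type} [Fintype ι] {lam : Type} [Fintype lam]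
  [I.Boundaryless] [T2Space M] [BorelSpace M] [SecondCountableTopology M]
  {T T' U Up R h : Type} [NormedAddCommGroup T] [NormedSpace ℝ T] [NormedAddCommGroup T']
  [NormedSpace ℝ T'] [NormedAddCommGroup U] [NormedSpace ℝ U] [NormedAddCommGroup Up]
  [NormedSpace ℝ Up] [NormedAddCommGroup R] [NormedSpace ℝ R] [Fintype h] {N r n m : ℕ}
  {Jc : En (Fin N)} {B : Base M ι lam} {F0 : An.Fr I M ι} {G0 : Geo I M ι lam}
  {H : T' → Geo I M ι lam} {Q' : Set T'} {t₀ : T'} {θ : T →L[ℝ] T'} {Q : Set T} {δ : ℝ}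
  {θU : U →L[ℝ] T'} {πU : T' →L[ℝ] U}

/-- **the rows**: the gauge row with the drift `μ` and the row `lz` -/
def rowQ {𝔉 : Mod61.Fam I M ι lam T} {o : Ref 𝔉} (μ : ι → M → ℝ) (k : ℕ) (y : Pnt o r)
    (lz : CL (EuclideanSpace ℂ (Fin r)) R) : o.C r k →L[ℝ] 𝔉.F0.H k o.Pg × R :=
  (sigD μ k y).prod (lz ∘L .fst ℝ _ T ∘L .snd ℝ _ _ ∘L .snd ℝ _ _)

namespace Cv
variable {s : Sid (fS B H t₀ θ Q) N Jc U Up R} (K : Cv F0 G0 Q' δ θU πU s) (hδ : 0 ≤ δ) {k : ℕ}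
  (hk : 4 ≤ k)
include K hδ hk

variable {c : Cm N r h R} {ct : h → Cut M lam} {ε : Eqn (fS B H t₀ θ Q) r n m ct}

/-- the gauge row -/
theorem rowb {μ : ι → M → ℝ} (hμ : ∀ a, F0.Cb (μ a))
    (hd : s.dr = fun a x => (Fs (fC B F0 G0 H Q') t₀).dv a x - (H t₀).F.dv a x + μ a x)
    {ρ C : ℝ≥0} (ok : (s.sd c ε).Ok ρ) (lip : (s.sd c ε).Lip δ k ρ ρ C) :
    ∃ C' ≥ (1 : ℝ), ∀ (w : Sec I s.bd.pC) (p : PP T U r h N), ‖p‖ ≤ ρ →
      (s.sd c ε).Q (g0 δ) univ (k + 1) w.1 ≤ ρ → ∀ x ≥ (0 : ℝ),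
      (s.sd c ε).Q (g0 δ) univ k (s.eF c ε.e w p) ≤ q2 x → ∀ z t,
      ‖sigD μ k (K.pt 0 c.z0 K.t0) (sC' K.o r k t₀
        (F0.toH (k + 1) (bd K.o).pC w) + (0, 0, z, t))‖ ≤ C' * (x + ‖p.1‖) := by
  obtain ⟨Cg, hg⟩ := K.ch.qN hδ hk K.o.Pg
  refine ⟨(Cg * (2 + 2 * C) : ℝ≥0) + 1, le_add_of_nonneg_left (NNReal.coe_nonneg _), fun w p hp hw x x0 hx z t => ?_⟩
  have p0 : ‖((0, p.2) : PP T U r h N)‖ ≤ ρ :=
    (max_le (norm_zero.trans_le (norm_nonneg p)) (norm_snd_le p)).trans hp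
  have s1 := ok.smE _ w.2 _ hp
  have s0 := ok.smE _ w.2 _ p0
  have l := lip 0 0 0 le_rfl le_rfl le_rfl _ w.2 _ w.2 _ _ p0 hp hw hw
  rw [sub_self, Gl67.Sd.Q_zero, zero_add] at l
  have a1 : q2 x ≤ q2 (x + ‖p.1‖) := q2_mono (by
    rw [Real.norm_of_nonneg x0, Real.norm_of_nonneg (by positivity)]; simp)
  have a2 : q2 ((0, p.2) - p : PP T U r h N) ≤ q2 (x + ‖p.1‖) := q2_mono (by
    rw [Real.norm_of_nonneg (by positivity), Prod.norm_def]; simp; positivity)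
  refine nle (by positivity) ((hg _ (K.val_row hk hμ hd w _ z t) (sm_fst s0)).1.trans ?_)
  rw [ENNReal.coe_mul, mul_assoc]
  gcongr
  have e : s.row 0 w = (fun y => (s.eF c ε.e w p y).1) +
      fun y => ((s.eF c ε.e w (0, p.2) - s.eF c ε.e w p) y).1 := funext fun y => by
    simp [Gl67.Sid.eF]
  refine (congrArg _ e).trans_le ((Gl67.N_add isOpen_univ .univ Subset.rfl
    (s.sm_pr δ 0 0 0).continuous (Gl67.smO (sm_fst s1)) (Gl67.smO (sm_fst (s0.sub s1)))).trans ?_)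
  push_cast
  rw [add_mul, mul_assoc]
  gcongr
  · exact (N_fst s1).trans (hx.trans a1)
  · exact (N_fst (s0.sub s1)).trans (le_self_add.trans (l.trans (by gcongr)))

/-- the values -/
theorem valb {e : T' → PtX M ι lam r n m} (hD : ∀ t u x, (e (t₀ + (θ t + θU u))).D x = (ε.e t).D x)
    (hC : ∀ t u x, (e (t₀ + (θ t + θU u))).C x = (ε.e t).C x)
    (hS : ∀ t u x, ‖(e (t₀ + (θ t + θU u))).S x‖ = ‖(ε.e t).S x‖)
    (hR : ∀ t u x, (e (t₀ + (θ t + θU u))).R x = (ε.e t).R x) :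
    ∃ C' ≥ (2 : ℝ), ∀ (w : Sec I s.bd.pC) (p : PP T U r h N) (ht : t₀ + (θ p.1 + θU p.2.1) ∈ Q'),
      Sm I (s.eF c ε.e w p) → ∀ x ≥ (0 : ℝ),
      (s.sd c ε).Q (g0 δ) univ k (s.eF c ε.e w p) ≤ q2 x → ‖s.eR c ε w p‖ ≤ x →
      ∀ v : K.o.Y n m k, RepE e (K.pt w (c.z0 + p.2.2.1) ht) v → ‖v‖ ≤ C' * x := by
  obtain ⟨Cm, hm⟩ := K.ch.qN hδ hk K.o.Pm
  obtain ⟨C2, h2⟩ := K.ch.qN hδ hk K.o.P2
  have m0 := Cm.coe_nonneg
  have c0 := C2.coe_nonneg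
  refine ⟨Cm + C2 + 2, by linarith, fun w p ht s1 x x0 hx hr v hv => ?_⟩
  have e0 := K.cfg_pt c w p ht
  have e1 := hv.D.trans ((indicator_univ _).trans ((cfg_congr (β := fun m => M → m.V)
    (e (t₀ + (θ p.1 + θU p.2.1))).D e0).trans (hD _ _ _)))
  have e2 := hv.C.trans ((indicator_univ _).trans ((cfg_congr (β := fun m => M → Fm (ι × ι) m.A)
    (e (t₀ + (θ p.1 + θU p.2.1))).C e0).trans (hC _ _ _)))
  have e3 := hv.S
  have e4 := hv.R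
  rw [e0] at e3 e4
  have s2 := sm_snd s1
  have s3 := sm_snd s2
  have a1 := nle x0 ((hm _ e1 (sm_fst s2)).1.trans
    (mul_le_mul_right ((N_fst s2).trans ((N_snd s1).trans hx)) _))
  have a2 := nle x0 ((h2 _ e2 (sm_fst s3)).1.trans
    (mul_le_mul_right ((N_fst s3).trans ((N_snd s2).trans ((N_snd s1).trans hx))) _))
  have a3 : ‖v.2.2.1‖ ≤ x := ((congrArg _ e3).trans (hS _ _ _)).trans_le
    ((norm_fst_le (s.eR c ε w p).1).trans ((norm_fst_le _).trans hr))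
  have a4 : ‖v.2.2.2‖ ≤ x := (congrArg _ (e4.trans (hR _ _ _))).trans_le
    ((norm_snd_le (s.eR c ε w p).1).trans ((norm_fst_le _).trans hr))
  have b1 := mul_nonneg m0 x0
  have b2 := mul_nonneg c0 x0
  exact max_le (a1.trans (by linarith)) (max_le (a2.trans (by linarith))
    (max_le (a3.trans (by linarith)) (a4.trans (by linarith))))

set_option maxHeartbeats 1000000 in
omit hk in
/-- **the estimate of the side** -/
theorem iso [FiniteDimensional ℝ T'] (hk : 7 ≤ k) {μ : ι → M → ℝ} (hμ : ∀ a, F0.Cb (μ a))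
    (hl : s.lo = 0) {hh : Type} [Fintype hh]
    {j : hh → h} (hj : Surjective j) {e : T' → PtX M ι lam r n m}
    {σ' : ∀ i, T' → Pc r B (ct (j i))} (hψ : ∀ i, c.ψ0 i ∈ Hd Jc (s.md.pp B (ct i).x0))
    (L : LowB (𝔉 := fC B F0 G0 H Q') (o := K.o) (κ := fun i => ct (j i)) k e σ'
      (K.pt 0 c.z0 K.t0) (fun i => ⟨c.ψ0 (j i), hψ (j i)⟩) (rowQ μ k (K.pt 0 c.z0 K.t0) c.lz))
    {Cθ : ℝ} (hθ : ∀ t u, ‖(t, u)‖ ≤ Cθ * ‖θ t + θU u‖) (θ1 : ∀ t u, ‖θ t + θU u‖ ≤ ‖(t, u)‖)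
    (C1 : 1 ≤ Cθ)
    (hD : ∀ t u x, (e (t₀ + (θ t + θU u))).D x = (ε.e t).D x) (hC : ∀ t u x, (e (t₀ + (θ t + θU u))).C x = (ε.e t).C x)
    (hS : ∀ t u x, ‖(e (t₀ + (θ t + θU u))).S x‖ = ‖(ε.e t).S x‖)
    (hR : ∀ t u x, (e (t₀ + (θ t + θU u))).R x = (ε.e t).R x)
    (hσ : ∀ t u i x, σ' i (t₀ + (θ t + θU u)) x = ((ct (j i)).T (fS B H t₀ θ Q).B ((fS B H t₀ θ Q).G t).F
      x.m x.W - ε.σ t (j i) x :))
    (hd : s.dr = fun a x => (Fs (fC B F0 G0 H Q') t₀).dv a x - (H t₀).F.dv a x + μ a x)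
    (ok : ∃ ρ > 0, (s.sd c ε).Ok ρ) (lip : ∃ ρ C : ℝ≥0, 0 < ρ ∧ (s.sd c ε).Lip δ k ρ ρ C) :
    ∃ K ρ : ℝ≥0, 0 < ρ ∧ ∀ w ∈ Sec I s.bd.pC, ∀ p, ‖p‖ ≤ ρ →
      (s.sd c ε).Q (g0 δ) univ (k + 1) w ≤ ρ → (s.sd c ε).Q (g0 δ) univ (k + 1) w + q2 p ≤
        K * ((s.sd c ε).Q (g0 δ) univ k ((s.sd c ε).E w p) + q2 ((s.sd c ε).e w p)) := by
  have k4 : 4 ≤ k := by omega
  obtain ⟨ρ₁, ρ1, ok⟩ := ok
  obtain ⟨ρ₂, C₂, ρ2, lip⟩ := lip
  obtain ⟨ρ₃, ρ3, hQ⟩ := Metric.isOpen_iff.1 K.fc.opn _ K.t0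
  let ρ₄ : ℝ≥0 := min ρ₂ ⟨ρ₁, ρ1.le⟩
  have r1 : (ρ₄ : ℝ) ≤ ρ₁ := min_le_right ρ₂ ⟨ρ₁, ρ1.le⟩
  have r2 : ρ₄ ≤ ρ₂ := min_le_left _ _
  have r2' : (ρ₄ : ℝ≥0∞) ≤ ρ₂ := ENNReal.coe_le_coe.2 r2
  have ρ4 : (0 : ℝ) < ρ₄ := (lt_min ρ2 ρ1 : 0 < ρ₄)
  have ok' : (s.sd c ε).Ok ρ₄ := ⟨ok.sm, fun w hw q hq => ok.smE w hw q (hq.trans r1)⟩
  obtain ⟨Cr, r0, hr⟩ := K.rowb hδ k4 hμ hd ok' (C := C₂) fun x y z a1 a2 a3 w hw w' hw' q q' b1 b2
    b3 b4 => lip x y z a1 a2 a3 w hw w' hw' q q' (b1.trans r2) (b2.trans r2) (b3.trans r2')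
      (b4.trans r2')
  obtain ⟨Cv, v0, hv⟩ := K.valb hδ k4 (c := c) hD hC hS hR
  obtain ⟨Cw, hw⟩ := K.ch.qN hδ (k := k + 1) (by omega) (bd K.o).pC
  obtain ⟨K', K0, ρ', ρ0, hL⟩ := L.le (Cr * Cθ) (by positivity)
  set S' := sC' K.o r k t₀
  set S := sC K.o r k t₀
  have w0 := Cw.coe_nonneg
  have c5 : 0 < ‖S'‖ * (Cw + 1) + 1 := by positivity
  obtain ⟨η, η0, η1, η2, η3, η4⟩ : ∃ η > (0 : ℝ), η ≤ 1 ∧ η ≤ ρ₄ ∧ η < ρ₃ ∧
      (‖S'‖ * (Cw + 1) + 1) * η ≤ ρ' := by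
    refine ⟨min 1 (min ρ₄ (min (ρ₃ / 2) (ρ' / (‖S'‖ * (Cw + 1) + 1)))), by positivity, by simp,
      by simp, lt_of_le_of_lt (by simp) (half_lt_self ρ3), ?_⟩
    rw [← le_div_iff₀' c5]; simp
  have η5 : η ^ 2 ≤ η := pow_le_of_le_one η0.le η1 two_ne_zero
  let C₇ : ℝ≥0 := ⟨(‖S‖ + Cθ) * (K' * (Cv + Cr)) + 1, by positivity⟩
  have c7 : (1 : ℝ≥0) ≤ C₇ := le_add_of_nonneg_left (a := (1 : ℝ)) (by positivity)
  refine ⟨(Cw + 1) * C₇ ^ 2, ⟨η ^ 2, by positivity⟩, (by positivity : 0 < η ^ 2),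
    fun w hw' p hp hq => ?_⟩
  lift w to Sec I s.bd.pC using hw'
  by_cases hX : (s.sd c ε).Q (g0 δ) univ k ((s.sd c ε).E w p) + q2 ((s.sd c ε).e w p) = ⊤
  · rw [hX, ENNReal.mul_top (by positivity)]; exact le_top
  obtain ⟨x, x0, hx⟩ := q2_ex hX
  have hE : (s.sd c ε).Q (g0 δ) univ k (s.eF c ε.e w p) ≤ q2 x := le_self_add.trans hx.ge
  have he : ‖s.eR c ε w p‖ ≤ x := nle1 x0 (le_add_self.trans hx.ge)
  rw [← hx]
  have p1 : ‖p‖ ≤ η := hp.trans η5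
  have q1 : (s.sd c ε).Q (g0 δ) univ (k + 1) w.1 ≤ q2 η := hq.trans_eq (by
    rw [q2, Real.norm_of_nonneg η0.le]; exact (ENNReal.ofReal_coe_nnreal).symm)
  have q2' : (s.sd c ε).Q (g0 δ) univ (k + 1) w.1 ≤ ρ₄ :=
    hq.trans (ENNReal.coe_le_coe.2 (η5.trans η2))
  set τ := θ p.1 + θU p.2.1 with hτ
  have t1 : ‖τ‖ ≤ η := (θ1 _ _).trans ((max_le (norm_fst_le p) ((norm_fst_le p.2).trans
    (norm_snd_le p))).trans p1)
  have ht : t₀ + τ ∈ Q' := hQ (by simpa using t1.trans_lt η3)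
  have z1 : ‖p.2.2.1‖ ≤ η :=
    (norm_fst_le p.2.2).trans ((norm_snd_le p.2).trans ((norm_snd_le p).trans p1))
  have ψ1 : ∀ i, ‖p.2.2.2 i‖ ≤ η := fun i => (norm_le_pi_norm _ i).trans
    ((norm_snd_le p.2.2).trans ((norm_snd_le p.2).trans ((norm_snd_le p).trans p1)))
  set u := F0.toH (k + 1) (bd K.o).pC w
  have hu := hw u (val_toH K.fc.sup (by omega) _) w.2.1
  have u1 : ‖u‖ ≤ (Cw + 1) * η := nle η0.le (hu.1.trans (mul_le_mul_right q1 _))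
  set y := K.pt w (c.z0 + p.2.2.1) ht
  have eΔ : y.pt k - (K.pt 0 c.z0 K.t0).pt k = S' u + (0, 0, p.2.2.1, τ) :=
    K.pt_sub (by omega) w _ _ ht
  let ψ' : ∀ i, HH K.o (ct (j i)) := fun i => ⟨c.ψ0 (j i), hψ (j i)⟩
  let χ : ∀ i, HH K.o (ct (j i)) := fun i =>
    (Hd _ _).orthogonalProjectionOnto (c.ψ0 (j i) + p.2.2.2 (j i))
  have g1 := (norm_snd_le (s.eR c ε w p)).trans he
  have g2 := (norm_snd_le (s.eR c ε w p).2).trans g1
  have ev : ∀ i, evC (𝔉 := fC B F0 G0 H Q') (σ' i) y = _ := fun i =>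
    (cfg_congr (β := fun m => CL ((ct (j i)).H B m) ((ct (j i)).H B m))
      (σ' i (t₀ + τ)) (K.cfg_pt c w p ht)).trans (hσ _ _ _ _)
  have hc := fun i => crow_alg (x := x) (c := s.cfg c w p) (ψ' i) ((ψ1 (j i)).trans η1)
    ((norm_le_pi_norm (s.eR c ε w p).2.1 (j i)).trans ((norm_fst_le _).trans g1))
    ((norm_le_pi_norm (s.eR c ε w p).2.2.1 (j i)).trans ((norm_fst_le _).trans g2)) (χ i) rfl
  obtain ⟨v, rv⟩ := L.ex y
  have b := hL y χ v rv (by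
    rw [eΔ]
    refine le_trans (max_le ((norm_add_le _ _).trans (add_le_add ((S'.le_opNorm u).trans
      (mul_le_mul_of_nonneg_left u1 (norm_nonneg _))) (max_le (by simpa using η0.le) (max_le
        (by simpa using η0.le) (max_le z1 t1))))) ((pi_norm_le_iff_of_nonneg (by positivity)).2
          fun i => ((hc i).2.2.1.trans (ψ1 _)).trans (le_add_of_nonneg_left (by positivity))))
      (η4.trans_eq' (by ring))) (Cr * x) (by positivity) (by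
    rw [eΔ, show y.t - (K.pt 0 c.z0 K.t0).t = τ from add_sub_cancel_left _ _]
    refine max_le (max_le ((hr w p (p1.trans η2) q2' x x0 hE _ _).trans ?_) ?_)
      ((pi_norm_le_iff_of_nonneg (by positivity)).2 fun i => ?_)
    · rw [mul_add, mul_assoc]; gcongr; exact (norm_fst_le (p.1, p.2.1)).trans (hθ _ _)
    · have e1 : (s.eR c ε w p).2.2.2.2 = c.lz (0 + p.2.2.1) := by simp [Gl67.Sid.eR, hl]
      refine (congrArg _ e1.symm).trans_le (((norm_snd_le (s.eR c ε w p).2.2.2).trans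
        ((norm_snd_le (s.eR c ε w p).2.2).trans g2)).trans ?_)
      exact (le_mul_of_one_le_left x0 r0).trans (le_add_of_nonneg_right (by positivity))
    · refine (congrArg _ (((hc i).2.2.2.2 _).trans (congrArg (⟪·, p.2.2.2 (j i)⟫_ℝ)
        (JH_coe (cpC K.fc K.o) (ψ' i))))).trans_le (((norm_le_pi_norm (s.eR c ε w p).2.2.2.1
          (j i)).trans ((norm_fst_le _).trans ((norm_snd_le (s.eR c ε w p).2.2).trans g2))).trans ?_)
      exact (le_mul_of_one_le_left x0 r0).trans (le_add_of_nonneg_right (by positivity)))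
  have c1 : ‖v‖ ≤ Cv * x := hv w p ht (ok'.smE _ w.2 _ (p1.trans η2)) x x0 hE he v rv
  have c2 : ∀ i, ‖evC (𝔉 := fC B F0 G0 H Q') (σ' i) y (χ i)‖ ≤ Cv * x := fun i => by
    rw [ev i]; exact (hc i).1.trans (le_mul_of_one_le_left x0 (one_le_two.trans v0))
  have c3 : ∀ i, ‖‖χ i‖ ^ 2 - 1‖ ≤ Cv * x := fun i =>
    (hc i).2.1.trans (mul_le_mul_of_nonneg_right v0 x0)
  have c0 := (norm_nonneg v).trans c1
  have b2 := b.trans (mul_le_mul_of_nonneg_left (add_le_add_left (max_le c1 (max_le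
    ((pi_norm_le_iff_of_nonneg c0).2 c2) ((pi_norm_le_iff_of_nonneg c0).2 c3))) _) K0)
  rw [← add_mul, ← mul_assoc, eΔ] at b2
  obtain ⟨f1, f2, f3⟩ := cst_alg (norm_nonneg S) C1 (show 0 ≤ K' * (Cv + Cr) by positivity) x0
  have d1 := (norm_fst_le _).trans b2
  have d2 : ‖(p.2.2.1, τ)‖ ≤ _ := (congrArg _ (zero_add _).symm).trans_le
    ((norm_snd_le (S' u + (0, 0, p.2.2.1, τ)).2).trans ((norm_snd_le _).trans d1))
  have d3 := ((hθ p.1 p.2.1).trans (mul_le_mul_of_nonneg_left ((norm_snd_le (p.2.2.1, τ)).trans d2)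
    (zero_le_one.trans C1))).trans f2
  have a1 : ‖u‖ ≤ C₇ * x := (congrArg _ (K.ch.sC_sub u _ _).symm).trans_le
    (((S.le_opNorm _).trans (mul_le_mul_of_nonneg_left d1 (norm_nonneg _))).trans f1)
  have a2 : ‖p‖ ≤ C₇ * x := by
    refine max_le ?_ (max_le ?_ (max_le ?_ ((pi_norm_le_iff_of_nonneg (by positivity)).2 fun i => ?_)))
    · exact (norm_fst_le (p.1, p.2.1)).trans d3
    · exact (norm_snd_le (p.1, p.2.1)).trans d3
    · exact ((norm_fst_le (p.2.2.1, τ)).trans d2).trans ((le_add_of_nonneg_right x0).trans f3)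
    · obtain ⟨i, rfl⟩ := hj i
      exact ((hc i).2.2.2.1.trans (add_le_add_left ((norm_le_pi_norm (χ - ψ') i).trans
        ((norm_snd_le (S' u + (0, 0, p.2.2.1, τ), χ - ψ')).trans b2)) x)).trans f3
  refine (add_le_add (hu.2.trans (mul_le_mul_right (qle a1) _)) (qle a2)).trans_eq ?_
  push_cast
  ring

end Cv

end Crest.Agent.X212.Map77.Is
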