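import Crest.Agent.X212.Map77.IsC
import Crest.Agent.X212.Nk89.Gwp
import Crest.Agent.X212.Gb50.Ht
import Crest.Agent.X212.Pte3.Bas

/-!
# Row 212, GL-WALL-PSC (helper77): **TRS**, the estimate of the face from the lower bound of a chart
-/

set_option autoImplicit false
set_option linter.unusedSectionVars false
noncomputable section
open scoped Manifold ContDiff Topology InnerProductSpace ENNReal NNReal
open MeasureTheory Set Function Filter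

namespace Crest.Agent.X212.Map77.Is
open An Mod61 Map77 Met55 Prm93 Nk89
open Gl67 (Sid Cm Eqn PP g0 q2)
open Grp76 (Nice)

section fmt
variable {E : Type} [NormedAddCommGroup E] [NormedSpace ℝ E] [FiniteDimensional ℝ E]
  [MeasurableSpace E] [BorelSpace E]
  {HM : Type} [TopologicalSpace HM] {I : ModelWithCorners ℝ E HM}
  {M : Type} [TopologicalSpace M] [ChartedSpace HM M] [IsManifold I ∞ M]
  [MeasurableSpace M] {ι : Type} [Fintype ι] {lam : Type} [Fintype lam]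
  [I.Boundaryless] [T2Space M] [BorelSpace M] [SecondCountableTopology M]
  {T T' U Up R h : Type} [NormedAddCommGroup T] [NormedSpace ℝ T] [NormedAddCommGroup T']
  [NormedSpace ℝ T'] [NormedAddCommGroup U] [NormedSpace ℝ U] [NormedAddCommGroup Up]
  [NormedSpace ℝ Up] [NormedAddCommGroup R] [NormedSpace ℝ R] [Fintype h] {N r n m : ℕ}
  {Jc : En (Fin N)} {B : Base M ι lam} {F0 : An.Fr I M ι} {G0 : Geo I M ι lam}
  {H : T' → Geo I M ι lam} {Q' : Set T'} {θ : T →L[ℝ] T'} {Q : Set T} {δ : ℝ}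
  {θU : U →L[ℝ] T'} {πU : T' →L[ℝ] U}

/-- natural families form a submodule -/
def natN (𝔉 : Mod61.Fam I M ι lam T) (r n m : ℕ) : Submodule ℝ (T → PtX M ι lam r n m) where
  carrier := {τ | 𝔉.Nat τ}
  add_mem' := fun {τ σ} a b t ht y y' w c h1 h2 h3 h4 e => by
    obtain ⟨a1, a2, a3, a4⟩ := a t ht y y' w c h1 h2 h3 h4 e
    obtain ⟨b1, b2, b3, b4⟩ := b t ht y y' w c h1 h2 h3 h4 e
    refine ⟨fun x hx => (congrArg₂ (· + ·) (a1 x hx) (b1 x hx)).trans (cs_add' _ _ _ _ _),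
      fun x hx s => (congrArg₂ (· + ·) (a2 x hx s) (b2 x hx s)).trans (map_add _ _ _).symm,
      fun i => (congrArg₂ (· + ·) (a3 i) (b3 i)).trans (mul_add _ _ _).symm,
      congrArg₂ (· + ·) a4 b4⟩
  zero_mem' := fun _ _ y y' w c _ _ _ _ _ => ⟨fun x _ => by
      have := cs_smul' y'.m.J c (w x) 0 0
      rw [zero_smul, zero_smul] at this
      exact this, fun x _ s => (map_zero (Eqv71.cj (w x))).symm, fun i => (mul_zero _).symm, rfl⟩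
  smul_mem' := fun s τ a t ht y y' w c h1 h2 h3 h4 e => by
    obtain ⟨a1, a2, a3, a4⟩ := a t ht y y' w c h1 h2 h3 h4 e
    exact ⟨fun x hx => (congrArg (s • ·) (a1 x hx)).trans (cs_smul' _ _ _ _ _),
      fun x hx i => (congrArg (s • ·) (a2 x hx i)).trans (map_smul _ _ _).symm,
      fun i => (congrArg (s • ·) (a3 i)).trans (mul_smul_comm _ _ _).symm, congrArg (s • ·) a4⟩

theorem rowQ_nat [FiniteDimensional ℝ T] {𝔉 : Mod61.Fam I M ι lam T} (hF : 𝔉.OK) {o o' : Ref 𝔉}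
    {μ : ι → M → ℝ} (hμ : ∀ a, 𝔉.F0.Cb (μ a)) {k : ℕ} (hk : 7 ≤ k) {x : Pnt o r} {x' : Pnt o' r}
    {w : M → CL o'.m.V o.m.V} {ζ : Circle} (ht : x.t = x'.t) (a : x'.Eq x w ζ)
    {lz lz' : CL (EuclideanSpace ℂ (Fin r)) R} (hz : ∀ z, ‖lz (((ζ : ℂ) ^ 2) • z)‖ ≤ ‖lz' z‖) :
    ∃ C, ∀ v, ‖rowQ μ k x lz (Mod61.LC r k w ζ v)‖ ≤ C * ‖rowQ μ k x' lz' v‖ :=
  ⟨max 1 ‖𝔉.F0.mulH k o'.Pg o.Pg (Ixz30.aG w)‖, fun v => by
    have := pair_le (le_max_right _ _) (le_max_left 1 ‖𝔉.F0.mulH k o'.Pg o.Pg (Ixz30.aG w)‖)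
      (sigD μ k x' v) (hz v.2.2.1)
    rw [← sigD_nat hF hμ hk ht a] at this
    exact this⟩

theorem Cv.mv {t₀ : T'} {s : Sid (fS B H t₀ θ Q) N Jc U Up R} (K : Cv F0 G0 Q' δ θU πU s)
    {o : Ref (fC B F0 G0 H Q')} {w : M → CL s.md.V o.m.V} (mi : MI K.o o w)
    (mv : ∀ t i, Nice F0.toPre fun z => Eqv71.cj (w z) (s.b z (πU t) i) - o.b t z i)
    (cp : ∃ K, IsCompact K ∧ ∀ z ∉ K, ∀ a, (H t₀).F.e a z = G0.F.e a z) : Mv K.o o w := fun t => by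
  obtain ⟨C, hC, e⟩ := cp
  refine (Grp76.all_iff K.fc.tame.choose_spec).2 ⟨.fm fun i => ?_, fun z => ?_⟩
  · let L : CL (Fm ι (HS (Fin N))) (HS (Fin N)) := PiLp.proj 2 (fun _ => HS (Fin N)) i
    have c1 : F0.Cb fun z => L (bb G0 πU s t z) - L (s.b z (πU t)) := Sob92.Cb_sub
      (Sob92.Cb_clm L (K.sb_bb.cb t trivial))
      (Sob92.Cb_clm L (Sob92.Cb_app (K.ch.cb K.ok.cb) (Sob92.Cb_const _)))
    have c2 := Nice.of_hcs (F := F0.toPre) (Grp76.cb_sm c1) (.intro hC fun z hz => by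
      have hP : G0.F.P = B.P := K.fc.G0.P
      have := idx_sum (o := K.o) (x := z) (S := fun a b => B.P a b z) (η := s.b z (πU t))
        (by have := K.ok.pb z (πU t); rwa [Md.p1, ← indicator_univ s.md.pg] at this) i
      refine sub_eq_zero.2 (Eq.trans ?_ this)
      show idx (trS (H t₀).F G0.F z) (.id ℝ _) (s.b z (πU t)) i = _
      simp only [idx_apply, (trS_congr G0.F G0.F z _ _ (e z hz)).2, trS_self, hP,
        ContinuousLinearMap.id_apply])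
    have c3 := (mv t i).add (c2.app (Cb_cj mi.cb))
    refine cast (congrArg _ (funext fun z => Eq.symm ?_)) c3
    rw [dB_apply, show (fC B F0 G0 H Q').Om = univ from rfl, indicator_univ, map_sub]
    exact (sub_add_sub_cancel' _ _ _).symm
  · have e1 : o.P1 z (cF _ ι w z (K.o.b t z)) = cF _ ι w z (K.o.b t z) :=
      mi.mF K.fc (fun x a b => B.P a b x) z _ (b_P1 (o := K.o) t z)
    show o.P1 z (cF _ ι w z (K.o.b t z) - o.b t z) = cF _ ι w z (K.o.b t z) - o.b t z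
    rw [map_sub, e1, b_P1]

theorem iso_fmt [FiniteDimensional ℝ T'] {Om Om' : Set M} (h1 : Om = univ) (h2 : Om' = univ)
    (fc : (fam B F0 G0 H Q' Om Om').OK) {o : Ref (fam B F0 G0 H Q' Om Om')} {x : Pnt o r}
    {G₁ : Geo I M ι lam} {Gs : T → Geo I M ι lam} (g1 : G₁ = H x.t)
    (g2 : Gs = fun t => H (x.t + θ t)) {s : Sid (fam B G₁.F G₁ Gs Q univ univ) N Jc U Up R}
    (ok : s.OK) (cmp : Cmp (s.Fw δ).toPre F0.toPre) (πθ : ∀ t u, πU (θ t + θU u) = u)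
    (HU : ∀ t u, H (t + θU u) = H t) (hδ : 0 ≤ δ) {k : ℕ} (hk : 7 ≤ k) {c : Cm N r h R}
    {ct : h → Cut M lam} {ε : Eqn (fam B G₁.F G₁ Gs Q univ univ) r n m ct} {hh : Type} [Fintype hh]
    {j : hh → h} (hj : Surjective j) {e : T' → PtX M ι lam r n m}
    {σ' : ∀ i, T' → Pc r B (ct (j i))} (hψ : ∀ i, c.ψ0 i ∈ Hd Jc (s.md.pp B (ct i).x0))
    {ψ : ∀ i, HH o (ct (j i))} {w : M → CL s.md.V o.m.V} {ζ : Circle}
    (a : Mod61.EqOn B G₁.F univ ⟨s.md, s.A0, s.Φ0, c.z0⟩ x.cfg w ζ)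
    (aψ : ∀ i, (ct (j i)).Eqv (ct (j i)) B B (m := s.md) w ⟨c.ψ0 (j i), hψ _⟩ (ψ i))
    (mv : ∀ t i, Nice F0.toPre fun z => Eqv71.cj (w z) (s.b z (πU t) i) - o.b t z i)
    (cp : ∃ K, IsCompact K ∧ ∀ z ∉ K, ∀ a, G₁.F.e a z = G0.F.e a z)
    (ne : (fam B F0 G0 H Q' Om Om').Nat e)
    (nσ : ∀ i (o' : Ref (fam B F0 G0 H Q' Om Om')), NatC o' o (fun _ _ => True) (σ' i))
    {μ : ι → M → ℝ} (hμ : ∀ a, F0.Cb (μ a)) (hl : s.lo = 0) {lz : CL (EuclideanSpace ℂ (Fin r)) R}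
    (hz : ∀ z, ‖lz (((ζ : ℂ) ^ 2) • z)‖ ≤ ‖c.lz z‖)
    (L : LowB (𝔉 := fam B F0 G0 H Q' Om Om') (o := o) (κ := fun i => ct (j i)) k e σ' x ψ
      (rowQ μ k x lz))
    {Cθ : ℝ} (hθ : ∀ t u, ‖(t, u)‖ ≤ Cθ * ‖θ t + θU u‖) (θ1 : ∀ t u, ‖θ t + θU u‖ ≤ ‖(t, u)‖)
    (C1 : 1 ≤ Cθ) (hD : ∀ t u y, (e (x.t + (θ t + θU u))).D y = (ε.e t).D y)
    (hC : ∀ t u y, (e (x.t + (θ t + θU u))).C y = (ε.e t).C y)
    (hS : ∀ t u y, ‖(e (x.t + (θ t + θU u))).S y‖ = ‖(ε.e t).S y‖)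
    (hR : ∀ t u y, (e (x.t + (θ t + θU u))).R y = (ε.e t).R y)
    (hσ : ∀ t u i y, σ' i (x.t + (θ t + θU u)) y =
      ((ct (j i)).T (fam B G₁.F G₁ Gs Q univ univ).B (Gs t).F y.m y.W - ε.σ t (j i) y :))
    (hd : s.dr = fun a z => (Fs (fam B F0 G0 H Q' Om Om') x.t).dv a z - (H x.t).F.dv a z + μ a z)
    (oke : ∃ ρ > 0, (s.sd c ε).Ok ρ) (lip : ∃ ρ C : ℝ≥0, 0 < ρ ∧ (s.sd c ε).Lip δ k ρ ρ C) :
    ∃ K ρ : ℝ≥0, 0 < ρ ∧ ∀ w ∈ Sec I s.bd.pC, ∀ p, ‖p‖ ≤ ρ →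
      (s.sd c ε).Q (g0 δ) univ (k + 1) w ≤ ρ → (s.sd c ε).Q (g0 δ) univ (k + 1) w + q2 p ≤
        K * ((s.sd c ε).Q (g0 δ) univ k ((s.sd c ε).E w p) + q2 ((s.sd c ε).e w p)) := by
  subst h1 h2 g1 g2
  have K : Cv F0 G0 Q' δ θU πU s := ⟨ok, fc, x.ht, cmp, πθ, HU⟩
  have a' : (K.pt 0 c.z0 K.t0).Eq x w ζ := by
    have e1 : K.o.W x.t (K.pt 0 c.z0 K.t0).α = s.A0 := K.W_zero
    have e2 : s.Φ0 + (K.pt 0 c.z0 K.t0).φ = s.Φ0 := K.ch.Φ_zero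
    show Mod61.EqOn B (H x.t).F univ ⟨s.md, K.o.W x.t (K.pt 0 c.z0 K.t0).α,
      s.Φ0 + (K.pt 0 c.z0 K.t0).φ, c.z0⟩ x.cfg w ζ
    rw [e1, e2]; exact a
  have m' : Mv K.o o w := K.mv (o := o) (a'.mi fc rfl) mv cp
  have r' := rowQ_nat (o := o) (o' := K.o) (lz' := c.lz) fc hμ hk rfl a' hz
  have L' := LowB.tr (o := o) (o' := K.o) (ψ' := fun i => ⟨c.ψ0 (j i), hψ (j i)⟩) fc hk
    (fun _ => subset_univ _) ne rfl a' m' aψ (fun i => nσ i K.o) r' L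
  exact K.iso (c := c) (ct := ct) (ε := ε) (e := e) (σ' := σ') hδ hk hμ hl hj hψ L' hθ θ1 C1 hD hC
    hS hR hσ hd oke lip

end fmt

theorem inner_ph {r : ℕ} (ζ : Circle) (a z : EuclideanSpace ℂ (Fin r)) :
    ⟪Complex.I • ((ζ : ℂ) ^ 2) • a, ((ζ : ℂ) ^ 2) • z⟫_ℝ = ⟪Complex.I • a, z⟫_ℝ := by
  simp only [smul_comm Complex.I, ← smul_add, norm_smul, norm_pow, Circle.norm_coe, one_pow, one_mul,
    real_inner_eq_norm_add_mul_self_sub_norm_mul_self_sub_norm_mul_self_div_two]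

section job
open An.Job M Nd18 Gj67 Rf65 Pte3 Cht98

variable {Wi : Type} {X : Mf 4} {A κ lam : Type} [Fintype A] [Fintype κ] [Fintype lam]
  [DecidableEq lam] {M : Mark X A κ} {W : World M} {L : ML M lam} {Λ : Lns W L}
  {A' h : Type} [Fintype A'] [DecidableEq A'] [Fintype h] {r n : ℕ}
  {J : Job Wi Λ A' h r n} {σ : Cel A'} {a : A'} {V : Type} [Fintype V] {p : Prt A A' h}
  {δ : ℝ} {q : Wi →₀ ℝ}

theorem nat_tot {c : M.Cl} {b : Bp J c} (H : PG J c σ p) (hb : J.Ov σ c b.s) :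
    (b.F p V δ).Nat (EC.tot b p V δ q) := (natN (b.F p V δ) r n _).add_mem (H.nat_e hb)
  (Submodule.sum_mem _ fun w _ => Submodule.smul_mem _ _ (H.nat_τ hb w))

theorem nat_row {c : M.Cl} {b : Bp J c} (H : PG J c σ p) (hb : J.Ov σ c b.s) (F : (b.F p V δ).OK)
    (i : p.H) (o o' : Ref (b.F p V δ)) : NatC o o' (fun _ _ => True) fun t x =>
      tpC (b.F p V δ) r (J.cut c i) t x - (cu p V δ b).tot q i t x := fun y y' w ζ t _ e η v => by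
  have k := H.ok.σc_nat H.mem (H.ov hb y.ht) H.cl (unc_of H.pok.pc (H.pok.nb i i.2)) (H.cut_sub i) q
    ⟨y.ad0 F, t ▸ y'.ad0 F, fun z hz => y.off F z fun k => hz (F.sub k),
      fun z hz => y'.off F z fun k => hz (F.sub k), e⟩ η v
  refine (congrArg₂ (· - ·) (natC_tp F (H.cut_sub i) (fun _ ht => H.cut_ok hb ht i)
    (fun _ _ => True) y y' w ζ t trivial e η v) ?_).trans (map_sub _ _ _).symm
  rw [tot_cu, tot_cu, t]
  exact k

variable (σ a p V) in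
/-- the free coordinates -/
def θT : Tc σ a →L[ℝ] Tq p V :=
  (ContinuousLinearMap.pi fun i : p.V =>
    if k : σ i = none ∧ i.1 ≠ a then .proj (⟨i, k⟩ : {a' // σ a' = none ∧ a' ≠ a}) else 0).prod 0

theorem θT_le (t : Tc σ a) : ‖(θT σ a V p t).1‖ ≤ ‖t‖ :=
  (pi_norm_le_iff_of_nonneg (norm_nonneg t)).2 fun i => by
    simp only [θT, ContinuousLinearMap.prod_apply, ContinuousLinearMap.pi_apply]
    split_ifs
    exacts [norm_le_pi_norm t _, norm_zero.trans_le (norm_nonneg t)]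

theorem le_θT (hV : ∀ a', σ a' = none → a' ≠ a → a' ∈ p.V) (t : Tc σ a) :
    ‖t‖ ≤ ‖(θT σ a V p t).1‖ := (pi_norm_le_iff_of_nonneg (norm_nonneg _)).2 fun i =>
  le_trans (by simp [θT, dif_pos i.2]) (norm_le_pi_norm (θT σ a V p t).1 ⟨i, hV i i.2.1 i.2.2⟩)

variable {Up : Type} [NormedAddCommGroup Up] [NormedSpace ℝ Up] {d : Dat J σ a (V → ℝ) Up ℝ}
  {b : Bp J (J.cf a)} (H : d.OK q δ) (hV : ∀ a', σ a' = none → a' ≠ a → a' ∈ p.V)
include H hV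

theorem θ_s {t₀ : Tq p V} (e : b.θ p V t₀ = d.y.s) (t : Tc σ a) {t' : Tq p V}
    (k : t'.1 = (θT σ a V p t).1) : b.θ p V (t₀ + t') = d.s 1 t := funext fun i => by
  have e1 := congrFun (Gb50.s_one H) i
  by_cases k1 : σ i = none ∧ i ≠ a
  · have k2 := hV i k1.1 k1.2
    rw [θ_V k2, Dat.s, ee, dif_pos k1, ← e, θ_V k2, Prod.fst_add, k]
    simp [θT, dif_pos k1]
  · rw [Dat.s, ee, dif_neg k1] at e1 ⊢
    rw [e1, ← e]
    by_cases k2 : i ∈ p.V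
    · rw [θ_V k2, θ_V k2, Prod.fst_add, k]
      simp [θT, dif_neg k1]
    · rw [θ_off k2, θ_off k2]

/-- **TRS** -/
theorem trs (oke : d.Oke q) (lip : d.LipS q δ 8) {E : EC b p V δ} {x : Pnt E.o r} {ψ : E.K}
    (cs : PG J (J.cf a) σ p) (hb : J.Ov σ (J.cf a) b.s) (F : (b.F p V δ).OK)
    (uP : W.un (J.cf a) p.P = univ) (uP' : W.un (J.cf a) p.P' = univ) (hH : p.H = univ)
    (e : b.θ p V x.t = d.y.s) (cmp : Cmp (d.S.Fw δ).toPre (b.F p V δ).F0.toPre)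
    {dr : Option κ → _ → ℝ} (hr : ∀ i, d.FS.F0.Cb (dr i))
    (hd : d.dS = fun i z => dSY b p V δ x.t i z + dr i z) (lo : d.lo = 0)
    (lz : d.lz = innerSL ℝ (Complex.I • d.y.x.z))
    {w : (W.Z (J.cf a)).M → CL d.y.x.m.V E.o.m.V} {ζ : Circle}
    (ew : Mod61.EqOn (J.B _) (J.G _ (b.θ p V x.t)).F univ d.y.x x.cfg w ζ)
    (eψ : ∀ i : p.H, (J.cut _ i).Eqv (J.cut _ i) (J.B _) (J.B _) w (d.y.ψ i) (ψ i))
    (mv : ∀ t i, Nice (b.F p V δ).F0.toPre fun z => Eqv71.cj (w z) (d.bS z t.2 i) - E.o.b t z i)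
    (L : LowB 8 (EC.tot b p V δ q) (fun (i : p.H) t x => tpC (b.F p V δ) r (J.cut _ i) t x -
      (cu p V δ b).tot q i t x) x ψ (rowQ dr 8 x (innerSL ℝ (Complex.I • x.z)))) :
    d.IsoS q δ 8 := by
  have es : ∀ t u, b.θ p V (x.t + (θT σ a V p t + ContinuousLinearMap.inr ℝ (p.V → ℝ) (V → ℝ) u)) =
      d.s 1 t := fun t u =>
    θ_s H hV e t (add_zero _)
  have n1 : ∀ t (u : V → ℝ), ‖θT σ a V p t + ContinuousLinearMap.inr ℝ (p.V → ℝ) _ u‖ = ‖(t, u)‖ :=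
    fun t u => congrArg₂ max ((congrArg _ (add_zero _)).trans ((θT_le t).antisymm (le_θT hV t)))
      (congrArg _ (zero_add _))
  refine iso_fmt (B := J.B (J.cf a)) (F0 := (b.F p V δ).F0) (G0 := J.G (J.cf a) b.s)
    (H := fun t => J.G (J.cf a) (b.θ p V t)) (Q' := (b.F p V δ).Q) (θ := θT σ a V p)
    (θU := .inr ℝ (p.V → ℝ) (V → ℝ)) (πU := .snd ℝ (p.V → ℝ) (V → ℝ)) (Q := d.FS.Q)
    (G₁ := J.G (J.cf a) d.y.s) (Gs := fun t => J.G (J.cf a) (d.s 1 t)) (ct := J.cut (J.cf a))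
    (Om := W.un (J.cf a) p.P) (Om' := W.un (J.cf a) p.P') (s := d.S) (c := d.cm) (ε := d.εS q)
    (o := E.o) (x := x) (j := fun i : p.H => i.1) (e := EC.tot b p V δ q) (Cθ := 1) (μ := dr)
    (w := w) (ζ := ζ) (ψ := ψ) (k := 8) (δ := δ) (lz := innerSL ℝ (Complex.I • x.z))
    (σ' := fun (i : p.H) t x => tpC (b.F p V δ) r (J.cut _ i) t x - (cu p V δ b).tot q i t x)
    uP uP' ?_ ?_ ?_ ?_ ?_ ?_ ?_ ?_ ?_ ?_ (fun i => (d.y.ψ i).2) ?_ ?_ ?_ ?_ ?_ ?_ ?_ ?_ ?_ ?_ ?_ ?_ ?_ ?_ ?_ ?_ ?_ ?_ ?_ ?_ ?_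
  · exact F
  · exact congrArg (J.G _) e.symm
  · exact funext fun t => congrArg (J.G _) (θ_s H hV e t rfl).symm
  · exact H.okS
  · exact cmp
  · exact fun t u => zero_add u
  · exact fun t u => congrArg (fun s : p.V → ℝ => J.G _ (b.θ p V (s, 0))) (add_zero t.1)
  · exact H.δ0.le
  · norm_num
  · exact fun i => ⟨⟨i, hH ▸ mem_univ i⟩, rfl⟩
  · rw [e] at ew; exact ew
  · exact eψ
  · exact mv
  · exact ⟨_, isCompact_thk W.toCaps _ (J.Θ b.s) one_pos (by norm_num),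
      (agr_thk Λ b.O (d.hb true).2.2.1).e⟩
  · exact nat_tot cs hb
  · exact fun i o' => nat_row cs hb F i o' E.o
  · exact fun i => cmp.Cb_iff.1 (Sid.wtP.Cb.2 (hr i))
  · exact lo
  · intro z
    rw [show d.cm.lz = _ from lz, show x.z = _ from ew.z]
    exact (congrArg _ (inner_ph ζ _ z)).le
  · exact L
  · exact fun t u => (n1 t u).ge.trans_eq (one_mul _).symm
  · exact fun t u => (n1 t u).le
  · exact le_rfl
  · exact fun t u y => (funext (tot_ev y).1).trans (by rw [es]; rfl)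
  · exact fun t u y => (funext (tot_ev y).2.1).trans (by rw [es]; rfl)
  · intro t u y
    rw [funext (tot_ev y).2.2.1, es]; exact norm_neg _
  · exact fun t u y => (tot_ev y).2.2.2
  · intro t u i y
    rw [tot_cu]
    exact congrArg (fun s => (J.cut _ i).T (J.B _) (J.G _ s).F y.m y.W - J.σc _ q s i y) (es t u)
  · exact hd
  · exact let ⟨ρ, h1, h2, _⟩ := oke; ⟨ρ, h1, h2⟩
  · exact lip

end job

end Crest.Agent.X212.Map77.Is
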