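import Crest.Agent.X212.Lw78.Cy
import Crest.Agent.X212.Cyl58.PsC
import Crest.Agent.X212.Es42.Inv
import Crest.Agent.X212.Wp42.Wp
import Crest.Agent.X212.Tmp64.Ode

/-!
# Row 212, RAD-NRC (helper77): reducible configurations of small energy on a window
-/

set_option autoImplicit false
set_option linter.unusedSectionVars false
noncomputable section
open scoped Manifold ContDiff Topology InnerProductSpace ENNReal
open MeasureTheory Set Function Filter

namespace Crest.Agent.X212.Map77.Nr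
open An Sob92 Wz78 Cyf70 Sw Sw.En3
open Dl42 (Ay ay_of ay_sl gr_a eC_split sd)

theorem one_d {f f' : ℝ → ℝ} (h : ∀ t, HasDerivAt f (f' t) t) (hc : Continuous f') {a s t : ℝ}
    (hs : s ∈ Icc a (a + 1)) (ht : t ∈ Icc a (a + 1)) :
    f t ^ 2 ≤ 2 * f s ^ 2 + 2 * ∫ r in Icc a (a + 1), f' r ^ 2 := by
  set m := f t - f s with hm
  have h1 : ∫ r in s..t, 2 * m * f' r = 2 * m * m := by
    rw [intervalIntegral.integral_const_mul, intervalIntegral.integral_eq_sub_of_hasDerivAt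
      (fun r _ => h r) (hc.intervalIntegrable _ _)]
  have i1 : IntegrableOn (fun r => f' r ^ 2) (Icc a (a + 1)) :=
    (hc.fun_pow 2).continuousOn.integrableOn_Icc
  have i2 : IntegrableOn (fun _ => m ^ 2) (Icc a (a + 1)) := continuousOn_const.integrableOn_Icc
  have i3 : IntegrableOn (fun r => ‖2 * m * f' r‖) (Icc a (a + 1)) :=
    (continuous_const.mul hc).norm.continuousOn.integrableOn_Icc
  have h2 := ((intervalIntegral.norm_integral_le_integral_norm_uIoc (a := s) (b := t) (μ := volume)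
    (f := fun r => 2 * m * f' r)).trans (setIntegral_mono_set i3 (.of_forall fun _ => norm_nonneg _)
      (uIoc_subset_uIcc.trans (ordConnected_Icc.uIcc_subset hs ht)).eventuallyLE)).trans
    (integral_mono i3 (i2.add i1) fun r => show |2 * m * f' r| ≤ m ^ 2 + f' r ^ 2 from
      abs_le.2 ⟨by nlinarith [sq_nonneg (m + f' r)], by nlinarith [sq_nonneg (m - f' r)]⟩)
  rw [h1, integral_add' i2 i1, setIntegral_const, Real.volume_real_Icc, add_sub_cancel_left,
    max_eq_left zero_le_one, one_smul] at h2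
  have h3 := (le_abs_self _).trans h2
  have h4 : f t = f s + m := by rw [hm]; ring
  rw [h4]
  nlinarith [sq_nonneg (f s - m)]

section cyl
variable {E : Type} [NormedAddCommGroup E] [NormedSpace ℝ E] [FiniteDimensional ℝ E]
  [MeasurableSpace E] [BorelSpace E]
  {HM : Type} [TopologicalSpace HM] {I : ModelWithCorners ℝ E HM} [I.Boundaryless]
  {Y : Type} [TopologicalSpace Y] [ChartedSpace HM Y] [IsManifold I ∞ Y] [T2Space Y]
  [MeasurableSpace Y] [BorelSpace Y] [SecondCountableTopology Y] [CompactSpace Y]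
  {ι : Type} [Fintype ι] (F : Pre I Y ι)

theorem int_W {g : Y × ℝ → ℝ} (hg : Continuous g) (p q : ℝ) :
    IntegrableOn g (univ ×ˢ Icc p q) (cylP F).μ :=
  hg.continuousOn.integrableOn_compact (isCompact_univ.prod isCompact_Icc)

theorem win_l2 {b : Y × ℝ → ℝ} (hb : Sm (IC I) b) {a s : ℝ} (hs : s ∈ Icc a (a + 1)) :
    ∫ x in univ ×ˢ Icc a (a + 1), b x ^ 2 ∂(cylP F).μ ≤ 2 * ∫ y, b (y, s) ^ 2 ∂F.μ +
      2 * ∫ x in univ ×ˢ Icc a (a + 1), (cylP F).D none b x ^ 2 ∂(cylP F).μ := by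
  have c1 := ((cylP F).sm_D hb none).continuous
  have i1 := int_W F (hb.continuous.fun_pow 2) a (a + 1)
  have i2 := int_W F (c1.fun_pow 2) a (a + 1)
  have i3 : Integrable (fun y => b (y, s) ^ 2) F.μ := Dl42.ii F ((sm_slice_fst hb s).pow 2)
  rw [IntegrableOn, cylP_μ, ← Measure.prod_restrict, Measure.restrict_univ] at i1 i2
  rw [cylP_μ, ← Measure.prod_restrict, Measure.restrict_univ, integral_prod _ i1, integral_prod _ i2,
    ← integral_const_mul, ← integral_const_mul,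
    ← integral_add (i3.const_mul 2) (i2.integral_prod_left.const_mul 2)]
  refine integral_mono i1.integral_prod_left ((i3.const_mul 2).add (i2.integral_prod_left.const_mul 2))
    fun y => ?_
  refine (setIntegral_mono_on ((hb.continuous.comp (Continuous.prodMk_right y)).fun_pow
    2).continuousOn.integrableOn_Icc continuousOn_const.integrableOn_Icc measurableSet_Icc fun t ht =>
      one_d (hasDerivAt_slice F hb y) (c1.comp (Continuous.prodMk_right y)) hs ht).trans_eq ?_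
  rw [setIntegral_const, Real.volume_real_Icc, add_sub_cancel_left, max_eq_left zero_le_one, one_smul]

theorem exists_prim {g : Y × ℝ → ℝ} (hg : Sm (IC I) g) (s : ℝ) {χ : Y → ℝ} (hχ : Sm I χ) :
    ∃ u : Y × ℝ → ℝ, Sm (IC I) u ∧ (∀ y, u (y, s) = χ y) ∧ (cylP F).D none u = g := by
  obtain ⟨u, u1, u2, u3⟩ := Tmp64.exists_sol (I := I) (F := ℝ × ℝ) (A := fun x => g x •
    (ContinuousLinearMap.inl ℝ ℝ ℝ ∘L ContinuousLinearMap.snd ℝ ℝ ℝ)) (hg.smul contMDiff_const) s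
    (x0 := fun y => (χ y, 1)) (hχ.prodMk_space contMDiff_const)
  have s1 : Sm (IC I) fun x => (u x).1 := (ContinuousLinearMap.fst ℝ ℝ ℝ).contMDiff.comp u1
  have u4 : ∀ y t, (u (y, t)).2 = 1 := fun y t => (Tmp64.const_of_deriv (f := fun r => (u (y, r)).2)
    (fun r => ((ContinuousLinearMap.snd ℝ ℝ ℝ).hasFDerivAt.comp_hasDerivAt r (u3 y r)).congr_deriv
      (by simp)) t s).trans (by rw [u2])
  refine ⟨_, s1, fun y => by rw [u2], funext fun x => (hasDerivAt_slice F s1 x.1 x.2).unique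
    (((ContinuousLinearMap.fst ℝ ℝ ℝ).hasFDerivAt.comp_hasDerivAt _ (u3 x.1 x.2)).congr_deriv
      (by simp [u4]))⟩

end cyl

variable {κ lam ν : Type} [Fintype κ] [Fintype lam] [Fintype ν] [DecidableEq ν]
  {e : En3 κ lam ν} (he : e.OK)
include he

/-- a slice of small energy is close to a flat point -/
theorem slice (hw : 0 < e.w) (h1 : e.H1) {δ : ℝ} (δ0 : 0 < δ) : ∃ ε > 0, ∀ v : e.YC,
    e.cyl.Adm (fz v) → v.Φ = 0 → gn v ≤ ε → ∃ (β : e.YC) (χ : e.Y.M → ℝ), Crit β ∧ β.Φ = 0 ∧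
      Sm e.Y.I χ ∧ ∀ k, ∫ y, (v.a k y - β.a k y - e.D.F.D k χ y) ^ 2 ∂e.D.F.μ ≤ δ := by
  by_contra! h
  choose v a1 a2 a3 a4 using fun n : ℕ => h _ (Nat.one_div_pos_of_nat (α := ℝ) (n := n))
  obtain ⟨β, v', b1, b2, b3, -⟩ := Cyl58.psyStmt.ps e he hw 0 ℕ (hyperfilter ℕ) v
    (fun n => ⟨a1 n, fun y => by simp [a2]⟩) (squeeze_zero (fun n => Sep15.S.gn_nonneg hw.le _) a3
      (tendsto_one_div_add_atTop_nhds_zero_nat.mono_left Nat.hyperfilter_le_atTop))
  choose u u1 u2 using b2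
  choose χ c1 c2 using fun n => h1.lg _ (u1 n)
  have e1 : ∀ n, v' n = Dec47.ay (Dec47.ei (χ n)) (v n) := fun n =>
    (congrArg (sl · 0) (u2 n)).trans (congrArg (Dec47.ay · _) (funext (c2 n)))
  have e2 : ∀ n, (v' n).Φ = 0 := fun n => funext fun y => by
    rw [e1, Dec47.ay_Φ, a2]; simp [cs]
  have n0 : ∀ n, 0 ≤ ∑ i, e.D.F.nrm 1 ((v' n).a i - β.a i) := fun n =>
    Finset.sum_nonneg fun _ _ => nrm_nonneg _ _
  have B := ay_of b1.1
  have e3 : β.Φ = 0 := by
    have k1 : e.D.F.nrm 0 (0 - β.Φ) ≤ 0 := ge_of_tendsto' b3 fun n =>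
      (nrm_mono zero_le_one _).trans (e2 n ▸ le_add_of_nonneg_left (n0 n))
    have k2 : ∫ y, ‖β.Φ y‖ ^ 2 ∂e.D.F.μ = 0 := by
      have := nrm_sq (F := e.D.F.toPre) 0 (0 - β.Φ)
      rw [k1.antisymm (nrm_nonneg _ _)] at this
      simpa [N2, n2] using this.symm
    have := openPos e.D.F.toPre
    have c := B.sΦ.continuous.norm.fun_pow 2
    exact funext fun y => by simpa using congrFun ((c.ae_eq_iff_eq _ continuous_zero).1
      ((integral_eq_zero_iff_of_nonneg (fun _ => sq_nonneg _) (Sep15.S.integrable_Y c)).1 k2)) y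
  obtain ⟨n, hn⟩ := (b3.eventually_lt_const (Real.sqrt_pos.2 δ0)).exists
  obtain ⟨k, hk⟩ := a4 n β (χ n) b1 e3 (c1 n)
  have k3 := (nrm_mono zero_le_one _).trans ((Finset.single_le_sum (f := fun i =>
    e.D.F.nrm 1 ((v' n).a i - β.a i)) (fun _ _ => nrm_nonneg _ _) (Finset.mem_univ k)).trans
      ((le_add_of_nonneg_right (nrm_nonneg _ _)).trans hn.le))
  have k4 := pow_le_pow_left₀ (nrm_nonneg _ _) k3 2
  rw [nrm_sq, Real.sq_sqrt δ0.le] at k4
  refine hk.not_ge (le_of_eq_of_le (integral_congr_ae (.of_forall fun y => ?_)) k4)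
  simp only [Pi.sub_apply, e1, Dec47.ay_a (Dec47.gau_ei (c1 n)).1, Dec47.th_ei _ (c1 n y),
    Real.norm_eq_abs, sq_abs]
  ring

theorem gn_red {v : e.YC} (h : v.Φ = 0) : gn v = ∫ y, 2 * ∑ k, (gr v).a k y ^ 2 ∂e.D.F.μ := by
  have : ∀ y, (gr v).Φ y = 0 := fun y => by simp [gr, Sw.Bg.eD, dir, nab, fz, dv_const, h]
  simp only [gn, ip, this, inner_zero_left, mul_zero, add_zero, sq]

variable (hζ : e.ζ = 0)
include hζ

theorem gr_ga {v : e.YC} (A : Ay v) (k : κ) (y : e.Y.M) : (gr v).a k y = Dl42.Ga v k y := by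
  simp [gr_a he A, hζ]

/-- a window of small energy is close to a flat point -/
theorem window (hw : 0 < e.w) (h1 : e.H1) {δ : ℝ} (δ0 : 0 < δ) : ∃ ε > 0, ∀ (c : e.ZC) (a : ℝ),
    e.cyl.Adm c → c.Φ = 0 → (∀ x ∈ univ ×ˢ Icc a (a + 1), ‖e.cyl.eC c x‖ ≤ ε) →
    en c (Icc a (a + 1)) ≤ ENNReal.ofReal ε → ∃ (β : e.YC) (χ : e.Y.M × ℝ → ℝ), Crit β ∧ β.Φ = 0 ∧
      Sm (IC e.Y.I) χ ∧ ∫ x in univ ×ˢ Icc a (a + 1),
        ∑ k, (c.a (some k) x - β.a k x.1 - e.D.Z.D (some k) χ x) ^ 2 ∂e.D.Z.μ ≤ δ := by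
  set n : ℝ := (Fintype.card κ : ℝ)
  have n0 : 0 ≤ n := Nat.cast_nonneg _
  obtain ⟨ε₀, p0, H⟩ := slice he hw h1 (δ := δ / (4 * n + 4)) (by positivity)
  set m := e.D.F.μ.real univ
  obtain ⟨ε, ε0, k1, k2⟩ : ∃ ε > (0 : ℝ), 2 * ε ≤ ε₀ ∧ 16 * ε ^ 2 * m + 2 * ε ≤ δ / 2 :=
    ((eventually_mem_nhdsWithin (a := (0 : ℝ)) (s := Ioi 0)).and (Eventually.filter_mono
      nhdsWithin_le_nhds (((show ContinuousAt (fun ε : ℝ => 2 * ε) 0 by
        fun_prop).eventually_le_const (by simpa)).and ((show ContinuousAt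
          (fun ε : ℝ => 16 * ε ^ 2 * m + 2 * ε) 0 by fun_prop).eventually_le_const
            (by simpa))))).exists
  refine ⟨ε, ε0, fun c a hc h0 hC hE => ?_⟩
  have s0 : ∀ t, (sl c t).Φ = 0 := fun t => funext fun y => congrFun h0 _
  obtain ⟨s, hs, h2⟩ : ∃ s ∈ Icc a (a + 1), gn (sl c s) ≤ 2 * ε := by
    by_contra! h
    have := (setLIntegral_mono' measurableSet_Icc fun t ht =>
      ENNReal.ofReal_le_ofReal (h t ht).le).trans hE
    rw [setLIntegral_const, Real.volume_Icc, ← ENNReal.ofReal_mul (by positivity),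
      ENNReal.ofReal_le_ofReal_iff ε0.le] at this
    linarith
  obtain ⟨β, χ, b1, b2, b3, b4⟩ := H _ (ay_sl hc s).adm (s0 s) (h2.trans k1)
  obtain ⟨u, u1, u2, u3⟩ := exists_prim e.D.F.toPre (hc.sa none) s b3
  refine ⟨β, u, b1, b2, u1, ?_⟩
  have B := ay_of b1.1
  set b := fun k (x : e.Y.M × ℝ) => c.a (some k) x - β.a k x.1 - e.D.Z.D (some k) u x
  have sb : ∀ k, Sm (IC e.Y.I) (b k) := fun k =>
    ((hc.sa _).sub (sm_fst (B.sa k))).sub (e.D.Z.sm_D u1 _)
  have sg := (Dl42.fy_sl hc).sa he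
  have d1 : ∀ k x, (cylP e.D.F.toPre).D none (b k) x =
      2 * e.cyl.eC c x (none, some k) - (gr (sl c x.2)).a k x.1 := fun k x => by
    have t1 := ((hasDerivAt_slice e.D.F.toPre (hc.sa (some k)) x.1 x.2).sub_const (β.a k x.1)).sub
      (hasDerivAt_slice e.D.F.toPre (e.D.Z.sm_D u1 (some k)) x.1 x.2)
    rw [(hasDerivAt_slice e.D.F.toPre (sb k) x.1 x.2).unique t1, eC_split he hc x.1 x.2 k,
      gr_ga he hζ (ay_sl hc _)]
    erw [D_comm e.D.F.toPre u1 k, u3, D_some e.D.F.toPre (hc.sa none)]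
    exact (add_sub_cancel_right _ _).symm
  have cD := fun k => (((cylP e.D.F.toPre).sm_D (sb k) none).continuous.fun_pow 2)
  have cg : Continuous fun x : e.Y.M × ℝ => 2 * ∑ k, (gr (sl c x.2)).a k x.1 ^ 2 :=
    continuous_const.mul (continuous_finsetSum _ fun k _ => (sg k).continuous.fun_pow 2)
  have e1 : ∫ x in univ ×ˢ Icc a (a + 1), 2 * ∑ k, (gr (sl c x.2)).a k x.1 ^ 2
      ∂(cylP e.D.F.toPre).μ ≤ ε := by
    rw [Lw78.int_S _ cg]
    simp only [← gn_red he (s0 _)]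
    rw [← ENNReal.ofReal_le_ofReal_iff ε0.le, ofReal_integral_eq_lintegral_ofReal
      ((Dl42.fy_sl hc).gn he).continuous.continuousOn.integrableOn_Icc
      (.of_forall fun t => Sep15.S.gn_nonneg hw.le _)]
    exact hE
  have e2 : ∫ x in univ ×ˢ Icc a (a + 1), ∑ k, (cylP e.D.F.toPre).D none (b k) x ^ 2
      ∂(cylP e.D.F.toPre).μ ≤ 8 * ε ^ 2 * m + ε := by
    refine (setIntegral_mono_on (int_W _ (continuous_finsetSum _ fun k _ => cD k) _ _)
      (int_W _ (continuous_const.add cg) _ _) (MeasurableSet.univ.prod measurableSet_Icc)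
      fun x hx => (?_ : _ ≤ 8 * ε ^ 2 + _)).trans ?_
    · have := (Mp86.En.sum_sq_le (e.cyl.eC c x)).trans (pow_le_pow_left₀ (norm_nonneg _) (hC x hx) 2)
      refine (Finset.sum_le_sum fun k _ => (?_ : _ ≤ 8 * e.cyl.eC c x (none, some k) ^ 2 +
        2 * (gr (sl c x.2)).a k x.1 ^ 2)).trans ?_
      · rw [d1]
        nlinarith [sq_nonneg (2 * e.cyl.eC c x (none, some k) + (gr (sl c x.2)).a k x.1)]
      · rw [Finset.sum_add_distrib, ← Finset.mul_sum, ← Finset.mul_sum]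
        linarith
    · rw [integral_add' (int_W _ continuous_const _ _) (int_W _ cg _ _), Lw78.int_S _ continuous_const]
      simp only [integral_const, MeasurableSet.univ, measureReal_restrict_apply, univ_inter,
        Real.volume_real_Icc, add_sub_cancel_left, max_eq_left zero_le_one, smul_eq_mul, one_mul]
      linarith
  have e3 : ∀ k, ∫ y, b k (y, s) ^ 2 ∂e.D.F.μ ≤ δ / (4 * n + 4) := fun k => by
    refine le_of_eq_of_le (integral_congr_ae (.of_forall fun y => ?_)) (b4 k)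
    simp only [b]
    erw [D_some e.D.F.toPre u1]
    simp only [u2]
    rfl
  rw [integral_finsetSum _ fun k _ => int_W e.D.F.toPre (cD k) a (a + 1)] at e2
  refine ((integral_finsetSum _ fun k _ => int_W e.D.F.toPre ((sb k).continuous.fun_pow 2) _ _).trans_le
    (Finset.sum_le_sum fun k _ => (win_l2 _ (sb k) hs).trans (add_le_add_left
      (mul_le_mul_of_nonneg_left (e3 k) zero_le_two) _))).trans ?_
  rw [Finset.sum_add_distrib, ← Finset.mul_sum, ← Finset.mul_sum, Finset.sum_const, Finset.card_univ,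
    nsmul_eq_mul]
  have : n * (δ / (4 * n + 4)) ≤ δ / 4 := by
    rw [← mul_div_assoc, div_le_div_iff₀ (by positivity) (by positivity)]
    nlinarith
  linarith

omit he hζ in
/-- the modification -/
def md (ρ : ℝ → ℝ) (c : e.ZC) (β : e.YC) (χ : e.Y.M × ℝ → ℝ) (i : Option κ) (x : e.Y.M × ℝ) : ℝ :=
  ρ x.2 * ((fz β).a i x - c.a i x) - i.elim (deriv ρ x.2 * χ x) fun _ => 0

variable {ρ : ℝ → ℝ} {c : e.ZC} {β : e.YC} {χ : e.Y.M × ℝ → ℝ} (hρ : ContDiff ℝ ∞ ρ)
  (hc : e.cyl.Adm c) (hβ : Crit β) (hχ : Sm (IC e.Y.I) χ)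
include hρ hc hβ hχ

omit he hζ in
theorem adm_md : e.cyl.Adm ⟨md ρ c β χ, 0⟩ := by
  refine ⟨fun i => ((sm_snd hρ).mul ((hβ.1.sa i).sub (hc.sa i))).sub ?_, contMDiff_const,
    fun i x => ?_, fun _ => map_zero _⟩
  · cases i
    exacts [(sm_snd (contDiff_infty_iff_deriv.1 hρ).2).mul hχ, contMDiff_const]
  · simp only [md, mul_sub, Finset.sum_sub_distrib, mul_left_comm _ (ρ x.2), ← Finset.mul_sum,
      hc.pa, hβ.1.pa, sub_right_inj]
    cases i <;> simp [En3.cyl, Nd18.YD.B, cP]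

omit he hζ in
theorem adm_add : e.cyl.Adm ⟨fun i x => c.a i x + md ρ c β χ i x, 0⟩ :=
  have h := adm_md hρ hc hβ hχ
  ⟨fun i => (hc.sa i).add (h.sa i), contMDiff_const, fun i x => by
    simp only [mul_add, Finset.sum_add_distrib, hc.pa, h.pa i x], fun _ => map_zero _⟩

theorem eC_md (h0 : c.Φ = 0) (b0 : β.Φ = 0) (x : e.Y.M × ℝ) :
    ‖e.cyl.eC ⟨fun i x => c.a i x + md ρ c β χ i x, 0⟩ x‖ ^ 2 ≤ 8 * (1 - ρ x.2) ^ 2 *
      ‖e.cyl.eC c x‖ ^ 2 + 2 * deriv ρ x.2 ^ 2 *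
        ∑ k, (c.a (some k) x - β.a k x.1 - e.D.Z.D (some k) χ x) ^ 2 := by
  obtain ⟨y, s⟩ := x
  have A := adm_add hρ hc hβ hχ
  have B := ay_of hβ.1
  have S := ay_sl hc s
  set c' : e.ZC := ⟨fun i x => c.a i x + md ρ c β χ i x, 0⟩ with hc'
  have k : ∀ k, 2 * e.cyl.eC c' (y, s) (none, some k) = (1 - ρ s) * (2 * e.cyl.eC c (y, s) (none, some k)) -
      deriv ρ s * (c.a (some k) (y, s) - β.a k y - e.D.Z.D (some k) χ (y, s)) := fun k => by
    have t0 := hasDerivAt_slice e.D.F.toPre (hc.sa (some k)) y s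
    have t1 : (Dl42.dt c').a (some k) (y, s) = _ := (hasDerivAt_slice e.D.F.toPre (A.sa (some k)) y s).unique
      (t0.add ((((hρ.differentiable (by simp) s).hasDerivAt).mul (t0.const_sub (β.a k y))).sub_const 0))
    have s1 := sm_slice_fst (hc.sa none) s y
    have s2 := sm_slice_fst hχ s y
    have t2 : e.D.F.D k (fun z => c'.a none (z, s)) y = (1 - ρ s) * e.D.F.D k (fun z => c.a none (z, s)) y -
        deriv ρ s * e.D.Z.D (some k) χ (y, s) := by
      rw [show (fun z => c'.a none (z, s)) = fun z => (1 - ρ s) • c.a none (z, s) - deriv ρ s • χ (z, s) from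
        funext fun z => by simp only [c', md, fz, Nd18.ca, Option.elim, smul_eq_mul]; ring,
        Pre.D_def, dv_sub' (SA.smul contMDiffAt_const s1) (SA.smul contMDiffAt_const s2)]
      exact congrArg₂ _ (dv_const_smul _ (SA.md s1)) ((dv_const_smul _ (SA.md s2)).trans
        (congrArg _ (D_some e.D.F.toPre hχ k (y, s)).symm))
    have t3 : sd e (sl c' s).a k y = sd e (sl c s).a k y +
        ρ s * (sd e β.a k y + -1 * sd e (sl c s).a k y) := by
      rw [← Es42.sd_lin B.sa S.sa, ← Es42.sd_lin (b := fun k y => β.a k y + -1 * (sl c s).a k y) S.sa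
        fun k => (B.sa k).add (contMDiff_const.mul (S.sa k))]
      refine congrArg (sd e · k y) (funext₂ fun j z => ?_)
      simp only [c', md, fz, sl, Nd18.ca, Option.elim]
      ring
    have t4 := (gr_ga he hζ B k y).symm.trans (hβ.2.1 k y)
    rw [eC_split he A, eC_split he hc, t1, t2]
    have t5 : ∀ v : e.YC, v.Φ = 0 → Dl42.Ga v k y = 2 * Dl42.g0 e k y + sd e v.a k y / 2 := fun v h => by
      simp [Dl42.Ga, Dl42.qq, h]
    rw [t5 _ b0] at t4
    rw [t5 _ rfl, t5 (sl c s) (funext fun y => congrFun h0 _), t3,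
      show (Dl42.dt c).a (some k) (y, s) = (cylP e.D.F.toPre).D none (c.a (some k)) (y, s) from rfl]
    linear_combination ρ s * t4
  have p : e.cyl.p2 (y, 0) (e.cyl.eC c' (y, s)) = e.cyl.eC c' (y, s) := by
    have h : ∀ a b, e.cyl.B.P a b (y, s) = e.cyl.B.P a b (y, 0) := fun a b => by
      cases a <;> cases b <;> rfl
    have : e.cyl.p2 (y, 0) = e.cyl.p2 (y, s) := by
      refine congrArg (idx · _) (funext₂ fun a b => ?_)
      simp only [Base.sd, Base.a2, h]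
      rfl
    rw [this, Bg.eC, map_sub, Sw88.p2_p2 he.cyl, he.cyl.omp]
  rw [Wp42.norm_sd he p, Finset.mul_sum, Finset.mul_sum]
  refine le_trans ?_ (add_le_add_left (mul_le_mul_of_nonneg_left (Mp86.En.sum_sq_le _)
    (by positivity)) _)
  rw [Finset.mul_sum, ← Finset.sum_add_distrib]
  refine Finset.sum_le_sum fun j _ => ?_
  have := congrArg (· ^ 2) (k j)
  simp only [] at this ⊢
  nlinarith [sq_nonneg ((1 - ρ s) * (2 * e.cyl.eC c (y, s) (none, some j)) +
    deriv ρ s * (c.a (some j) (y, s) - β.a j y - e.D.Z.D (some j) χ (y, s)))]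

end Crest.Agent.X212.Map77.Nr
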