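import Crest.Agent.X212.Map77.NrA
import Crest.Agent.X212.Sw88.Apr

/-!
# Row 212, RAD-NRC (helper77): cutting off a reducible configuration on the ends
-/

set_option autoImplicit false
set_option linter.unusedSectionVars false
noncomputable section
open scoped Manifold ContDiff Topology InnerProductSpace ENNReal
open MeasureTheory Set Function Filter

namespace Crest.Agent.X212.Map77.Nr
open An Sob92 Wz78 Cyf70 Sw Sw.En3
open M (Mf pm)

theorem pigeon {G : ℝ → ℝ≥0∞} {S : Set ℝ} {W : ℕ → Set ℝ} (hd : Pairwise (Disjoint on W))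
    (hm : ∀ j, MeasurableSet (W j)) (hs : ∀ j, W j ⊆ S) {E ε : ℝ} {n : ℕ}
    (hE : ∫⁻ t in S, G t ≤ ENNReal.ofReal E) (hn : |E| < n * ε) :
    ∃ j < n, ∫⁻ t in W j, G t ≤ ENNReal.ofReal ε := by
  by_contra! h
  have := (Finset.card_nsmul_le_sum (Finset.range n) _ _ fun j hj =>
    (h j (Finset.mem_range.1 hj)).le).trans (((lintegral_biUnion_finset (hd.set_pairwise _)
      (fun j _ => hm j) G).symm.trans_le (lintegral_mono_set (iUnion₂_subset fun j _ => hs j))).trans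
        (hE.trans (ENNReal.ofReal_le_ofReal (le_abs_self E))))
  rw [Finset.card_range, nsmul_eq_mul, ← ENNReal.ofReal_natCast, ← ENNReal.ofReal_mul n.cast_nonneg,
    ENNReal.ofReal_le_ofReal_iff (abs_nonneg _)] at this
  exact this.not_gt hn

theorem exists_R : ∃ R, ∀ t, bp t ^ 2 ≤ R := by
  have c : Continuous bp := (Real.smoothTransition.contDiff (n := 1)).continuous_deriv le_rfl
  obtain ⟨R, h⟩ := isCompact_Icc.exists_bound_of_continuousOn (c.continuousOn (s := Icc 0 1))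
  refine ⟨R ^ 2, fun t => ?_⟩
  by_cases k : t ∈ Icc (0 : ℝ) 1
  · exact sq_le_sq' (abs_le.1 (h t k)).1 (abs_le.1 (h t k)).2
  · rw [Pb50.bp_zero k, sq, mul_zero]
    positivity

/-- the cut-off -/
def rho (s : Bool) (T t : ℝ) : ℝ := Real.smoothTransition (pm s * t - T)

theorem cd_rho (s : Bool) (T : ℝ) : ContDiff ℝ ∞ (rho s T) :=
  Real.smoothTransition.contDiff.comp ((contDiff_const.mul contDiff_id).sub contDiff_const)

theorem d_rho (s : Bool) (T t : ℝ) : deriv (rho s T) t = bp (pm s * t - T) * pm s := by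
  have := (((Real.smoothTransition.contDiff (n := 1)).differentiable one_ne_zero
    (pm s * t - T)).hasDerivAt.comp t (((hasDerivAt_id t).const_mul (pm s)).sub_const T)).deriv
  rwa [mul_one] at this

theorem pm_sq (s : Bool) : pm s ^ 2 = 1 := by cases s <;> simp [pm]

theorem pre_Icc (s : Bool) (a b : ℝ) : ∃ a', {t | pm s * t ∈ Icc a (a + b)} = Icc a' (a' + b) := by
  cases s
  · exact ⟨-(a + b), ext fun t => by
      simp only [pm, mem_ofPred_eq, mem_Icc, Bool.false_eq_true, if_false]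
      constructor <;> rintro ⟨_, _⟩ <;> constructor <;> linarith⟩
  · exact ⟨a, ext fun t => by simp [pm]⟩

variable {κ lam ν : Type} [Fintype κ] [Fintype lam] [Fintype ν] [DecidableEq ν]

/-- the side `s` is the end of the neck, `L` controls the other side -/
structure En1 {X : Mf 4} {nc : ℕ} {e : En3 κ lam ν} {b : Bg X.I X.M κ lam ν nc} (K : Nk e b)
    (s : Bool) (L : ℝ) : Prop where
  far : ∀ t, L ≤ pm s * t → t ∈ K.deep 3
  near : ∀ t ∈ K.deep 3, -L ≤ pm s * t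
  one : ∀ s', K.Inf s' → s' = s

theorem md_zero {e : En3 κ lam ν} {s : Bool} {T : ℝ} (c : e.ZC) (β : e.YC) (χ : e.Y.M × ℝ → ℝ)
    (i : Option κ) {x : e.Y.M × ℝ} (h : pm s * x.2 < T) : md (rho s T) c β χ i x = 0 := by
  rw [md, rho, Real.smoothTransition.zero_of_nonpos (by linarith), d_rho,
    Pb50.bp_zero fun k => by linarith [k.1]]
  cases i <;> simp

theorem neck {e : En3 κ lam ν} (he : e.OK) (hζ : e.ζ = 0) (hw : 0 < e.w) (h1 : e.H1) (E L : ℝ)
    {δ : ℝ} (δ0 : 0 < δ) : ∃ ε > 0, ∀ (X : Mf 4) (nc : ℕ) (b : Bg X.I X.M κ lam ν nc) (K : Nk e b) s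
      (c : Sw.Cfg X.M κ ν) (G : ℝ → ℝ≥0∞), En1 K s L → b.Adm c → c.Φ = 0 → (∀ x, ‖b.eC c x‖ ≤ ε) →
      ∫⁻ t in K.deep 2, G t ≤ ENNReal.ofReal E →
      (∀ t ∈ K.deep 2, ENNReal.ofReal (gn (sl (K.pb c) t)) ≤ G t + ENNReal.ofReal ε) →
      ∃ (m : Option κ → X.M → ℝ) (β : e.YC), b.Adm ⟨m, 0⟩ ∧ Crit β ∧ β.Φ = 0 ∧
        (∀ i, ∀ x ∉ K.ψ '' univ ×ˢ K.deep 3, m i =ᶠ[𝓝 x] 0) ∧ ∀ c' : Sw.Cfg X.M κ ν, c'.Φ = 0 →
          (∀ i, ∀ x ∈ K.ψ.target, c'.a i x = c.a i x + m i x) → K.Asy s β c' ∧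
            ∫⁻ x in K.ψ '' univ ×ˢ K.deep 3, ‖b.eC c' x‖ₑ ^ 2 ∂b.F.μ ≤ ENNReal.ofReal δ := by
  obtain ⟨R, hR⟩ := exists_R
  have R0 : 0 ≤ R := (sq_nonneg _).trans (hR 0)
  obtain ⟨ε₁, p1, H⟩ := window he hζ hw h1 (δ := δ / (4 * R + 4)) (by positivity)
  obtain ⟨n, hn⟩ := exists_nat_gt (|E| / (ε₁ / 2))
  rw [div_lt_iff₀ (half_pos p1)] at hn
  set v := e.D.F.μ.real univ
  obtain ⟨ε, ε0, k1, k2⟩ : ∃ ε > (0 : ℝ), ε ≤ ε₁ / 2 ∧ 8 * ε ^ 2 * (v * (2 * |L| + 2 * n)) ≤ δ / 2 :=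
    ((eventually_mem_nhdsWithin (a := (0 : ℝ)) (s := Ioi 0)).and (Eventually.filter_mono
      nhdsWithin_le_nhds ((eventually_le_nhds (half_pos p1)).and ((show ContinuousAt
        (fun ε : ℝ => 8 * ε ^ 2 * (v * (2 * |L| + 2 * n))) 0 by fun_prop).eventually_le_const
          (by simpa))))).exists
  refine ⟨ε, ε0, fun X nc b K s c G hK hc h0 hC hG hg => ?_⟩
  have d3 : K.deep 3 ⊆ K.deep 2 := fun t ht => Sw88.deep_near K ht (by norm_num)
  have j2 : K.deep 2 ⊆ K.J := fun _ => Pb50.deep_J K two_pos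
  have o2 : IsOpen (K.deep 2) := Nd18.isOpen_Jv
  have o3 : IsOpen (K.deep 3) := Nd18.isOpen_Jv
  have mW : ∀ a b, MeasurableSet {t | pm s * t ∈ Icc a b} := fun a b =>
    measurableSet_Icc.preimage (by fun_prop)
  obtain ⟨j, hj, h2⟩ := pigeon (W := fun j => {t | pm s * t ∈ Icc (L + 2 * j) (L + 2 * j + 1)})
    (fun i j hij => disjoint_left.2 fun t a b => hij (by
      have h1 : (i : ℝ) < j + 1 := by linarith [a.1, b.2]
      have h2 : (j : ℝ) < i + 1 := by linarith [a.2, b.1]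
      norm_cast at h1 h2
      omega)) (fun _ => mW _ _) (fun j t ht => d3 (hK.far t (by linarith [ht.1, j.cast_nonneg (α := ℝ)])))
    hG hn
  set T := L + 2 * j
  have LT : L ≤ T := le_add_of_nonneg_right (by positivity)
  have Tn : T + 1 ≤ L + 2 * n := by
    have : (j : ℝ) + 1 ≤ n := by exact_mod_cast hj
    linarith
  obtain ⟨a, ha⟩ := pre_Icc s T 1
  have aW : ∀ t ∈ Icc a (a + 1), t ∈ K.deep 3 := fun t ht => hK.far t (LT.trans (ha ▸ ht :
    t ∈ {t | pm s * t ∈ Icc T (T + 1)}).1)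
  set z : e.ZC := Sw88.cut (fun x => K.cut 1 x.2) (K.pb c)
  have hz : e.cyl.Adm z := Sw88.adm_cut (isOpen_univ.prod Nd18.isOpen_Jv) (Pb50.admOn_pb K hc)
    (sm_snd Nd18.contDiff_ct) ((closure_minimal (s := support fun x : e.Y.M × ℝ => K.cut 1 x.2)
      (fun x hx => by_contra fun k => hx (Nd18.ct_zero k)) (Nd18.isClosed_Dp.preimage
        continuous_snd)).trans fun x hx => ⟨trivial, Nd18.Dp_sub one_pos hx⟩)
  have z0 : z.Φ = 0 := funext fun x => by simp [z, Sw88.cut, Cfg.pb, h0]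
  have za : ∀ i (x : e.Y.M × ℝ), x.2 ∈ K.deep 2 → z.a i x = c.a i (K.ψ x) := fun i x hx => by
    have : K.cut 1 x.2 = 1 := Nd18.ct_one (one_add_one_eq_two (R := ℝ) ▸ Pb50.deep_sub K hx)
    simp [z, Sw88.cut, Cfg.pb, this]
  have ev : ∀ x : e.Y.M × ℝ, x.2 ∈ K.deep 2 → ∀ᶠ y in 𝓝 x, y.2 ∈ K.deep 2 := fun x hx =>
    continuous_snd.continuousAt.eventually (o2.eventually_mem hx)
  have zC : ∀ x : e.Y.M × ℝ, x.2 ∈ K.deep 2 → ‖e.cyl.eC z x‖ ≤ ε := fun x hx => by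
    rw [(Dl42.e_congr (c' := K.pb c) (fun i => (ev x hx).mono (za i)) (.of_forall fun y => by
      simp [z0, Cfg.pb, h0])).2, ← Pb50.eC_ψ K (K.mem_src.2 (j2 hx))]
    exact hC _
  obtain ⟨β, χ, b1, b2, b3, b4⟩ := H z a hz z0 (fun x hx => (zC x (d3 (aW _ hx.2))).trans (by linarith))
    ((setLIntegral_mono' measurableSet_Icc fun t ht => le_of_eq_of_le (by
      rw [show sl z t = sl (K.pb c) t from YC.ext (funext₂ fun k y => za _ (y, t) (d3 (aW t ht)))
        (funext fun y => by simp [sl, z0, Cfg.pb, h0])]) (hg t (d3 (aW t ht)))).trans (by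
      rw [lintegral_add_right _ measurable_const, setLIntegral_const, Real.volume_Icc,
        add_sub_cancel_left, ENNReal.ofReal_one, mul_one, ← add_halves ε₁,
        ENNReal.ofReal_add (half_pos p1).le (half_pos p1).le]
      exact add_le_add (ha ▸ h2) (ENNReal.ofReal_le_ofReal k1)))
  have A := adm_md (cd_rho s T) hz b1 b3
  have m0 : ∀ i (x : e.Y.M × ℝ), x.2 ∉ K.deep 3 → md (rho s T) z β χ i x = 0 := fun i x hx =>
    md_zero _ _ _ _ ((not_le.1 fun k => hx (hK.far _ k)).trans_le LT)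
  refine ⟨fun i => K.push (md (rho s T) z β χ i), β, ⟨fun i => sm_pull (iso_symm K.iso) (A.sa i)
    (K.adm three_pos fun x hx => m0 i x fun k => hx (Pb50.deep_sub K k)), contMDiff_const,
    fun i x => ?_, fun _ => map_zero _⟩, b1, b2, fun i x hx => ?_, fun c' c0 hc' => ?_⟩
  · by_cases hx : x ∈ K.ψ.target
    · simp only [pull_of_mem (φ := K.ψ.symm) hx]
      refine .trans (Finset.sum_congr rfl fun j _ => ?_) (A.pa i (K.ψ.symm x))
      rw [← K.ψ.right_inv hx, K.P _ _ _ (K.ψ.map_target hx), K.ψ.right_inv hx]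
      rfl
    · simp [pull_of_notMem (φ := K.ψ.symm) hx]
  · have : pm s * K.tm x < L := not_le.1 fun k => by
      have k1 := hK.far _ k
      have k2 : x ∈ K.ψ.target := K.tgt ▸ j2 (d3 k1)
      exact hx ⟨K.ψ.symm x, ⟨trivial, K.snd_symm k2 ▸ k1⟩, K.ψ.right_inv k2⟩
    filter_upwards [(continuous_const.mul K.cont).continuousAt.eventually_lt_const this] with y hy
    by_cases k : y ∈ K.ψ.target
    · exact (pull_of_mem (φ := K.ψ.symm) k _).trans (md_zero _ _ _ _ (K.snd_symm k ▸ hy.trans_le LT))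
    · exact pull_of_notMem (φ := K.ψ.symm) k _
  have ca : ∀ i (x : e.Y.M × ℝ), x.2 ∈ K.deep 2 →
      c'.a i (K.ψ x) = z.a i x + md (rho s T) z β χ i x := fun i x hx => by
    have k := K.mem_src.2 (j2 hx)
    rw [hc' i _ (K.ψ.map_source k), za i x hx]
    exact congrArg _ ((pull_of_mem (φ := K.ψ.symm) (K.ψ.map_source k) _).trans
      (congrArg _ (K.ψ.left_inv k)))
  have one : ∀ t, T + 1 < pm s * t → rho s T t = 1 ∧ deriv (rho s T) t = 0 := fun t ht =>
    ⟨Real.smoothTransition.one_of_one_le (by linarith), by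
      rw [d_rho, Pb50.bp_zero fun k => by linarith [k.2], zero_mul]⟩
  have hz0 : ∀ {V : Type} [NormedAddCommGroup V] [NormedSpace ℝ V] (O : Set (e.Y.M × ℝ)),
      Hh e.D.Z.toPre O (0 : e.Y.M × ℝ → V) := fun O => Pb50.Hi.zero.hh O
  have of : IsOpen ((univ : Set e.Y.M) ×ˢ K.far s (T + 1)) := isOpen_univ.prod
    (Nd18.isOpen_Jv.inter (isOpen_lt continuous_const (continuous_const.mul continuous_id)))
  refine ⟨⟨T + 1, fun i => Pb50.hh_congr (hz0 _) of fun x hx => ?_,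
    Pb50.hh_congr (hz0 _) of fun x _ => by simp [Cfg.pb, c0, b2]⟩, ?_⟩
  · have k := one _ hx.2.2
    simp only [Cfg.pb, ca i x (d3 (hK.far _ (by linarith [show T + 1 < _ from hx.2.2]))), md, k.1, k.2]
    cases i <;> simp
  obtain ⟨a', ha'⟩ := pre_Icc s (-|L|) (2 * |L| + 2 * n)
  set f := fun x : e.Y.M × ℝ => ∑ k, (z.a (some k) x - β.a k x.1 - e.D.Z.D (some k) χ x) ^ 2
  have cf : Continuous f := continuous_finsetSum _ fun k _ => (((hz.sa _).sub
    (sm_fst ((Dl42.ay_of b1.1).sa k))).sub (e.D.Z.sm_D b3 _)).continuous.fun_pow 2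
  have f0 : ∀ x, 0 ≤ f x := fun x => by positivity
  have m1 : ∀ a b : ℝ, MeasurableSet ((univ : Set e.Y.M) ×ˢ Icc a b) := fun a b =>
    MeasurableSet.univ.prod measurableSet_Icc
  refine (Sw88.lint_img K o3 (d3.trans j2) _).trans ((setLIntegral_mono' (g := fun x =>
    (univ ×ˢ Icc a' (a' + (2 * |L| + 2 * n))).indicator (fun _ => ENNReal.ofReal (8 * ε ^ 2)) x +
      (univ ×ˢ Icc a (a + 1)).indicator (fun x => ENNReal.ofReal (2 * R * f x)) x)
    (MeasurableSet.univ.prod o3.measurableSet) fun x hx => ?_).trans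
      ((setLIntegral_le_lintegral _ _).trans ?_))
  · have hx2 := d3 hx.2
    rw [Pb50.eC_ψ K (K.mem_src.2 (j2 hx2)), (Dl42.e_congr (c' := ⟨fun i x => z.a i x +
      md (rho s T) z β χ i x, 0⟩) (fun i => (ev x hx2).mono (ca i)) (.of_forall fun y => by
        simp [Cfg.pb, c0])).2, ← ofReal_norm, ← ENNReal.ofReal_pow (norm_nonneg _)]
    refine (ENNReal.ofReal_le_ofReal (eC_md he hζ (cd_rho s T) hz b1 b3 z0 b2 x)).trans
      (ENNReal.ofReal_add_le.trans (add_le_add ?_ ?_))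
    · by_cases k : T + 1 < pm s * x.2
      · simp [(one _ k).1]
      · rw [indicator_of_mem (show x ∈ univ ×ˢ _ from ⟨trivial, ha' ▸ ⟨by
          linarith [hK.near _ hx.2, le_abs_self L], by linarith [le_abs_self L]⟩⟩)]
        refine ENNReal.ofReal_le_ofReal ?_
        have r0 : 0 ≤ rho s T x.2 := Real.smoothTransition.nonneg _
        have r1 : rho s T x.2 ≤ 1 := Real.smoothTransition.le_one _
        exact mul_le_mul (by nlinarith) (pow_le_pow_left₀ (norm_nonneg _) (zC x hx2) 2)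
          (sq_nonneg _) (by norm_num)
    · rw [d_rho, mul_pow, pm_sq, mul_one]
      by_cases k : x ∈ univ ×ˢ Icc a (a + 1)
      · rw [indicator_of_mem k]
        exact ENNReal.ofReal_le_ofReal (mul_le_mul_of_nonneg_right (by linarith [hR (pm s * x.2 - T)])
          (f0 x))
      · rw [Pb50.bp_zero fun h => k ⟨trivial, ha ▸ ⟨by linarith [h.1], by linarith [h.2]⟩⟩]
        simp
  · rw [lintegral_add_left (measurable_const.indicator (m1 _ _)), lintegral_indicator (m1 _ _),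
      lintegral_indicator (m1 _ _), setLIntegral_const, ← ofReal_integral_eq_lintegral_ofReal
        (μ := e.D.Z.μ.restrict _) ((int_W e.D.F.toPre cf _ _).const_mul _)
        (.of_forall fun x => by have := f0 x; positivity),
      integral_const_mul, show e.D.Z.μ = e.D.F.μ.prod volume from rfl, Measure.prod_prod, Real.volume_Icc,
      add_sub_cancel_left, ← ENNReal.ofReal_toReal (measure_ne_top e.D.F.μ univ),
      ← ENNReal.ofReal_mul ENNReal.toReal_nonneg, ← ENNReal.ofReal_mul (by positivity),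
      ← add_halves δ, ENNReal.ofReal_add (half_pos δ0).le (half_pos δ0).le]
    refine add_le_add (ENNReal.ofReal_le_ofReal k2) (ENNReal.ofReal_le_ofReal
      ((mul_le_mul_of_nonneg_left b4 (by positivity)).trans ?_))
    rw [← mul_div_assoc, div_le_div_iff₀ (by positivity) (by positivity)]
    nlinarith

theorem p0C_zero {X : Mf 4} {nc : ℕ} {N : Type} [Fintype N] {e : N → En3 κ lam ν} {P : Pz X nc e}
    (h : ∀ i, P.Off i ∨ (e i).ζ = 0) (c : Sw.Cfg X.M κ ν) (x : X.M) : P.p0.C c x = 0 := by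
  refine Finset.sum_eq_zero fun i _ => Pb50.elim_zero fun K hK => ?_
  rw [Nk.hl, Nd18.Nk.ext]
  rcases h i with h | h
  · obtain ⟨a, h1, h2⟩ := h K hK
    have : K.χ x = 0 := by
      simp only [Nd18.Nk.χ, Nd18.Nk.cut, Nd18.ct, h1, h2, Option.elim]
      rcases le_total (K.tm x) (a + 1) with e | e
      · rw [Real.smoothTransition.zero_of_nonpos (by linarith), zero_mul]
      · rw [Real.smoothTransition.zero_of_nonpos (x := a + 2 - _ - _) (by linarith), mul_zero]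
    rw [this, zero_smul, smul_zero]
  · simp [h]

/-- an almost reducible solution of bounded energy gives a reducible configuration of small defect -/
theorem piece {N : Type} [Fintype N] (e : N → En3 κ lam ν) (Q : N → Prop)
    (hQ : ∀ i, Q i → (e i).OK ∧ (e i).ζ = 0 ∧ 0 < (e i).w ∧ (e i).H1) (V E L : ℝ) {δ : ℝ}
    (δ0 : 0 < δ) : ∃ ε > 0, ∀ (X : Mf 4) (nc : ℕ) (P : Pz X nc e), P.OK →
      P.bg.F.μ (P.thick 3) ≤ ENNReal.ofReal V →
      (∀ i, P.Off i ∨ Q i ∧ ∃ K ∈ P.nk i, ∃ s, En1 K s L) → ∀ c, P.bg.Adm c → c.Φ = 0 →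
      (∀ x, ‖P.bg.eC c x‖ ≤ ε) → (∀ i, ∀ K ∈ P.nk i, ∃ G : ℝ → ℝ≥0∞,
        ∫⁻ t in K.deep 2, G t ≤ ENNReal.ofReal E ∧
          ∀ t ∈ K.deep 2, ENNReal.ofReal (gn (sl (K.pb c) t)) ≤ G t + ENNReal.ofReal ε) →
      ∃ β c', P.Cr β ∧ (∀ i s, (β i s).Φ = 0) ∧ P.As β c' ∧ c'.Φ = 0 ∧
        ∫⁻ x, ‖P.bg.eC c' x‖ₑ ^ 2 ∂P.bg.F.μ < ENNReal.ofReal δ := by
  set n : ℝ := (Fintype.card N : ℝ)
  have n0 : 0 ≤ n := Nat.cast_nonneg _
  have d1 : 0 < δ / (2 * n + 2) := by positivity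
  choose ρ ρ0 hρ using fun i : {i // Q i} =>
    have h := hQ i i.2
    neck h.1 h.2.1 h.2.2.1 h.2.2.2 E L d1
  have := Fintype.ofFinite {i // Q i}
  obtain ⟨ε, ε0, k1, k2⟩ : ∃ ε > (0 : ℝ), ε ^ 2 * |V| < δ / 2 ∧ ∀ i, ε ≤ ρ i :=
    ((eventually_mem_nhdsWithin (a := (0 : ℝ)) (s := Ioi 0)).and (Eventually.filter_mono
      nhdsWithin_le_nhds (((show ContinuousAt (fun ε : ℝ => ε ^ 2 * |V|) 0 by
        fun_prop).eventually_lt_const (by simpa)).and
          (eventually_all.2 fun i => eventually_le_nhds (ρ0 i))))).exists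
  refine ⟨ε, ε0, fun X nc P hP hV hN c hc h0 hC hG => ?_⟩
  have key : ∀ i, ∃ (m : Option κ → X.M → ℝ) (β : (e i).YC), P.bg.Adm ⟨m, 0⟩ ∧ β.Φ = 0 ∧
      (∀ a x, (∀ K ∈ P.nk i, x ∉ K.ψ '' univ ×ˢ K.deep 3) → m a =ᶠ[𝓝 x] 0) ∧
      ∀ K ∈ P.nk i, (∀ s, K.Inf s → Crit β) ∧ ∀ c' : Sw.Cfg X.M κ ν, c'.Φ = 0 →
        (∀ a, ∀ x ∈ K.ψ.target, c'.a a x = c.a a x + m a x) → (∀ s, K.Inf s → K.Asy s β c') ∧
          ∫⁻ x in K.ψ '' univ ×ˢ K.deep 3, ‖P.bg.eC c' x‖ₑ ^ 2 ∂P.bg.F.μ ≤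
            ENNReal.ofReal (δ / (2 * n + 2)) := fun i => by
    rcases hN i with h | ⟨q, K, hK, s, h⟩
    · refine ⟨0, ⟨0, 0⟩, ⟨fun _ => contMDiff_const, contMDiff_const, by simp, fun _ => map_zero _⟩, rfl,
        fun _ _ _ => .rfl, fun K hK => ?_⟩
      obtain ⟨a, h1, h2⟩ := h K hK
      have no : ∀ s, ¬K.Inf s := fun s => by cases s <;> simp [Nk.Inf, h1, h2]
      have : K.deep 3 = ∅ := eq_empty_of_forall_notMem fun t ht => by
        rw [Sw88.mem_deep] at ht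
        linarith [ht.1 a h1, ht.2 _ h2]
      exact ⟨fun s h => (no s h).elim, fun _ _ _ => ⟨fun s h => (no s h).elim, by simp [this]⟩⟩
    · obtain ⟨G, g1, g2⟩ := hG i K hK
      obtain ⟨m, β, b1, b2, b3, b4, b5⟩ := hρ ⟨i, q⟩ X nc P.bg K s c G h hc h0
        (fun x => (hC x).trans (k2 _)) g1 fun t ht => (g2 t ht).trans
          (add_le_add_right (ENNReal.ofReal_le_ofReal (k2 _)) _)
      refine ⟨m, β, b1, b3, fun a x hx => b4 a x (hx K hK), fun K' hK' => ?_⟩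
      obtain rfl := Option.mem_unique hK hK'
      exact ⟨fun _ _ => b2, fun c' c1 c2 => ⟨fun s' hs => h.one s' hs ▸ (b5 c' c1 c2).1, (b5 c' c1 c2).2⟩⟩
  choose m β b1 b2 b3 b4 using key
  set c' : Sw.Cfg X.M κ ν := ⟨fun a x => c.a a x + ∑ i, m i a x, 0⟩
  have hc' : ∀ i, ∀ K ∈ P.nk i, ∀ a, ∀ x ∈ K.ψ.target, c'.a a x = c.a a x + m i a x :=
    fun i K hK a x hx => congrArg (c.a a x + ·) (Finset.sum_eq_single i (fun j _ hj =>
      (b3 j a x fun K' h' ⟨y, hy, k⟩ => disjoint_left.1 (hP.dj hj K' h' K hK) (k ▸ K'.ψ.map_source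
        (K'.mem_src.2 (Pb50.deep_J K' three_pos hy.2))) hx).self_of_nhds)
      fun h => (h (Finset.mem_univ i)).elim)
  refine ⟨fun i _ => β i, c', fun i s ⟨K, hK, hs⟩ => (b4 i K hK).1 s hs, fun i _ => b2 i,
    ⟨⟨fun a => (hc.sa a).add (contMDiff_finsetSum fun i _ => (b1 i).sa a), contMDiff_const,
      fun a x => ?_, fun _ => map_zero _⟩, fun i s K hK hs =>
        ((b4 i K hK).2 c' rfl (hc' i K hK)).1 s hs⟩, rfl, ?_⟩
  · simp only [c', mul_add, Finset.sum_add_distrib, hc.pa, Finset.mul_sum]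
    rw [Finset.sum_comm]
    exact congrArg _ (Finset.sum_congr rfl fun i _ => (b1 i).pa a x)
  have nk : ∀ i, ∫⁻ x in ⋃ K ∈ P.nk i, K.ψ '' univ ×ˢ K.deep 3, ‖P.bg.eC c' x‖ₑ ^ 2 ∂P.bg.F.μ ≤
      ENNReal.ofReal (δ / (2 * n + 2)) := fun i => by
    cases hK : P.nk i with
    | none => simp
    | some K =>
    simp only [Option.mem_def, Option.some.injEq, iUnion_iUnion_eq_right]
    exact ((b4 i K hK).2 c' rfl (hc' i K hK)).2
  have mt : MeasurableSet (P.thick 3) := by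
    rw [show P.thick 3 = (⋃ i, ⋃ K ∈ P.nk i, K.ψ '' univ ×ˢ K.deep 3)ᶜ from ext fun x => by
      simp only [Pz.thick, mem_ofPred_eq, mem_compl_iff, mem_iUnion, not_exists]]
    exact (isOpen_iUnion fun i => isOpen_biUnion fun K _ => K.ψ.isOpen_image_of_subset_source
      (isOpen_univ.prod Nd18.isOpen_Jv) fun x hx =>
        K.mem_src.2 (Pb50.deep_J K three_pos hx.2)).measurableSet.compl
  have th : ∫⁻ x in P.thick 3, ‖P.bg.eC c' x‖ₑ ^ 2 ∂P.bg.F.μ ≤ ENNReal.ofReal (ε ^ 2 * |V|) := by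
    refine (setLIntegral_mono' (g := fun _ => ENNReal.ofReal (ε ^ 2)) mt fun x hx => ?_).trans ?_
    · rw [(Dl42.e_congr (c' := c) (fun a => ((eventually_all.2 fun i => b3 i a x (hx i)).mono
        fun y hy => by simp [c', hy])) (by rw [h0])).2, ← ofReal_norm,
        ← ENNReal.ofReal_pow (norm_nonneg _)]
      exact ENNReal.ofReal_le_ofReal (pow_le_pow_left₀ (norm_nonneg _) (hC x) 2)
    · rw [setLIntegral_const, ENNReal.ofReal_mul (by positivity)]
      exact mul_le_mul_right (hV.trans (ENNReal.ofReal_le_ofReal (le_abs_self V))) _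
  have cov : univ ⊆ P.thick 3 ∪ ⋃ i, ⋃ K ∈ P.nk i, K.ψ '' univ ×ˢ K.deep 3 := fun x _ => by
    by_contra h
    simp only [mem_union, mem_iUnion, not_or, not_exists] at h
    exact h.1 h.2
  rw [← setLIntegral_univ]
  refine ((lintegral_mono_set cov).trans ((lintegral_union_le _ _ _).trans (add_le_add th
    ((lintegral_iUnion_le _ _).trans ((tsum_fintype _).trans_le
      (Finset.sum_le_card_nsmul _ _ _ fun i _ => nk i)))))).trans_lt ?_
  rw [Finset.card_univ, nsmul_eq_mul, ← ENNReal.ofReal_natCast, ← ENNReal.ofReal_mul n0,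
    ← ENNReal.ofReal_add (by positivity) (by positivity)]
  refine (ENNReal.ofReal_lt_ofReal_iff δ0).2 ?_
  have : n * (δ / (2 * n + 2)) ≤ δ / 2 := by
    rw [← mul_div_assoc, div_le_div_iff₀ (by positivity) (by positivity)]
    nlinarith
  linarith

end Crest.Agent.X212.Map77.Nr
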