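import Crest.Agent.X212.Map77.NrB
import Crest.Agent.X212.Irr71.Main
import Crest.Agent.X212.Sw88.RadA

/-!
# Row 212, RAD-NRC (helper77): without reducible solutions there are no bounded solutions
-/

set_option autoImplicit false
set_option linter.unusedSectionVars false
noncomputable section
open scoped Manifold ContDiff Topology InnerProductSpace ENNReal
open MeasureTheory Set Function Filter

namespace Crest.Agent.X212.Map77.Nr
open An Sob92 Wz78 Cyf70 Sw Sw.En3 Flo2 Lvo97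
open M (Mf pm)

variable {κ lam ν : Type} [Fintype κ] [Fintype lam] [Fintype ν] [DecidableEq ν]

section bg
variable {E : Type} [NormedAddCommGroup E] [NormedSpace ℝ E] [FiniteDimensional ℝ E]
  [MeasurableSpace E] [BorelSpace E]
  {HM : Type} [TopologicalSpace HM] {I : ModelWithCorners ℝ E HM}
  {M : Type} [TopologicalSpace M] [ChartedSpace HM M] [IsManifold I ∞ M] [MeasurableSpace M]
  {nc : ℕ} {b : Bg I M κ lam ν nc}

theorem eC_red (hb : b.OK) (w : ℝ) {c : Sw.Cfg M κ ν} {x : M} (h : b.pp x (c.Φ x) = c.Φ x) :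
    b.eC ⟨c.a, 0⟩ x = ({ b with w := w } : Bg I M κ lam ν nc).eC c x + w • b.qd x (c.Φ x) (c.Φ x) := by
  have : b.qd x 0 0 = 0 := by
    ext s
    simp [Bg.qd]
  change b.p2 x (b.fc c x - b.w • b.qd x 0 0) - b.om x =
    b.p2 x (b.fc c x - w • b.qd x (c.Φ x) (c.Φ x)) - b.om x + _
  rw [this, smul_zero, sub_zero, map_sub, map_smul, Dl42.p2_qd hb h]
  abel

end bg

theorem gn_le {e : En3 κ lam ν} (he : e.OK) {w : ℝ} {β ψ : ℝ → ℝ} {S : Set ℝ}
    (he' : (e.re w β S ψ).OK) {v : (e.re w β S ψ).YC} (hv : (e.re w β S ψ).cyl.Adm (fz v)) {C : ℝ}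
    (hC : ∀ y, ‖v.Φ y‖ ≤ C) :
    gn (⟨v.a, 0⟩ : e.YC) ≤ 2 * gn v + w ^ 2 * C ^ 4 * e.D.F.μ.real univ := by
  have A := Dl42.ay_of hv
  have B : Dl42.Ay (⟨v.a, 0⟩ : e.YC) := ⟨A.sa, contMDiff_const, A.pa, fun _ => map_zero _⟩
  have i1 := (Sep15.S.integrable_gn he' hv).const_mul 2
  rw [gn_red he rfl, gn, ip, ← integral_const_mul, mul_comm _ (e.D.F.μ.real univ), ← smul_eq_mul,
    ← integral_const, ← integral_add i1 (integrable_const _)]
  refine integral_mono (Sep15.S.integrable_Y (continuous_const.mul (continuous_finsetSum _ fun k _ =>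
    (Sep15.S.sm_gr_a he B.adm k).continuous.fun_pow 2))) (i1.add (integrable_const _)) fun y => ?_
  set η := e.cyl.qd (y, 0) (v.Φ y) (v.Φ y)
  have h1 : ∀ k, (gr (⟨v.a, 0⟩ : e.YC)).a k y = (gr v).a k y + 2 * w * η (none, some k) := fun k => by
    have := congrArg (· (none, some k)) (eC_red he.cyl w (c := fz (e := e.re w β S ψ) v) (x := (y, 0)) (A.pΦ y))
    simp only [PiLp.add_apply, PiLp.smul_apply, smul_eq_mul] at this
    change 2 * (e.cyl.eC ⟨(fz v).a, 0⟩ (y, 0) (none, some k) + _) = 2 * (_ + _) + _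
    rw [this]
    exact (by intros; ring : ∀ a b c w : ℝ, 2 * (a + w * b + c) = 2 * (a + c) + 2 * w * b) _ _ _ _
  have h2 : ‖η‖ ^ 2 ≤ C ^ 4 / 16 := by
    rw [Sw88.norm_qd he.cyl (A.pΦ y), div_pow, ← pow_mul]
    exact div_le_div₀ ((by decide : Even 4).pow_nonneg C) (pow_le_pow_left₀ (norm_nonneg _) (hC y) 4)
      (by norm_num) (by norm_num)
  have h3 := mul_le_mul_of_nonneg_left ((Mp86.En.sum_sq_le η).trans h2) (sq_nonneg w)
  have h4 : ∑ k, (gr (⟨v.a, 0⟩ : e.YC)).a k y ^ 2 ≤ 2 * ∑ k, (gr v).a k y * (gr v).a k y +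
      8 * (w ^ 2 * ∑ k, η (none, some k) ^ 2) := by
    simp only [Finset.mul_sum, ← Finset.sum_add_distrib]
    exact Finset.sum_le_sum fun k _ => by
      rw [h1]
      nlinarith [sq_nonneg ((gr v).a k y - 2 * w * η (none, some k))]
  have h5 : 0 ≤ (e.re w β S ψ).w * ⟪(gr v).Φ y, (gr v).Φ y⟫_ℝ :=
    mul_nonneg he'.cyl.w real_inner_self_nonneg
  simp only []
  linarith

theorem gn_rt {X : Mf 4} {nc : ℕ} {b : Bg X.I X.M κ lam ν nc} {ε ε' : Ty κ lam ν} (h : ε = ε')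
    (K : Nk ε.en b) (he : ε.en.OK) {w : ℝ} {β ψ : ℝ → ℝ} {S : Set ℝ} (he' : (ε'.en.re w β S ψ).OK)
    {c : Sw.Cfg X.M κ ν} (hc : b.Adm c) {C : ℝ} (hC : ∀ x, ‖c.Φ x‖ ≤ C) {t : ℝ} (ht : t ∈ K.J) :
    gn (sl (K.pb ⟨c.a, 0⟩) t) ≤ 2 * gn (sl (((rt h K).re w β S ψ).pb c) t) +
      w ^ 2 * C ^ 4 * ε.en.D.F.μ.real univ := by
  subst h
  exact gn_le he he' (v := sl ((K.re w β S ψ).pb c) t) (Pb50.sl_adm fun y => Pb50.la_ψ (K.re w β S ψ)
    (Pb50.src (K.re w β S ψ) ht y) (.of_adm (adm_re.2 hc) _)) fun y => hC _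

theorem en1 {X : Mf 4} {nc : ℕ} {e : En3 κ lam ν} {b : Bg X.I X.M κ lam ν nc} (K : Nk e b) {s : Bool}
    (h : ∀ s', K.Inf s' ↔ s' = s) {L : ℝ} (hL : |K.p.getD 0| + |K.q.getD 0| + 4 ≤ L) : En1 K s L := by
  have h1 := (h s).2 rfl
  have h2 : ¬K.Inf !s := fun k => by simpa using (h _).1 k
  refine ⟨fun t ht => ?_, fun t ht => ?_, fun s' => (h s').1⟩ <;> rw [Sw88.mem_deep] at * <;>
    cases s <;> simp only [Nk.Inf, pm, Bool.false_eq_true, if_false, if_true, Bool.not_false,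
      Bool.not_true] at h1 h2 ht ⊢ <;> obtain ⟨a, ha⟩ := Option.ne_none_iff_exists'.1 h2 <;>
    simp only [h1, ha, Option.getD_none, Option.getD_some, abs_zero, Option.mem_def, reduceCtorEq,
      false_imp_iff, implies_true, true_and, and_true, Option.some.injEq, forall_eq'] at hL ht ⊢ <;>
    linarith [le_abs_self a, neg_abs_le a]

variable {G : Gr κ lam ν} {mk : Mk κ lam ν}

/-- **RAD-NRC** -/
theorem nrc (hB : BndStmt G mk) : Rad94.NrcStmt mk := by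
  intro g hg ι hι ⟨δ, δ0, hδ⟩ 𝓔 _ ty Sl _ p hty
  obtain ⟨B, hB⟩ := hB.en g.toBs
  obtain ⟨μ₀, hB⟩ := hB g rfl hg 𝓔 ty Sl p hty
  have inf := Sw88.inf_ι hg.1 hι
  have u : ∀ t, t ∈ g.𝓕.Q := fun t => hg.1.Q ▸ mem_univ t
  choose K₀ k1 k2 using fun s => (inf _ s).2 rfl
  have qh := fun s => (hg.2 (ι s)).qhs (Sw88.kd_two hg.1 hι s)
  have ne : ∀ s s', ι s = ι s' → s = s' := fun s s' h => by
    have := (hg.1.cyl _ hι.pin).1
    rw [hι.pout] at this
    cases s <;> cases s' <;> first | rfl | exact (this (by rw [h])).elim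
  set L := ∑ s, (|(K₀ s).p.getD 0| + |(K₀ s).q.getD 0|) + 4
  set E := B * (1 + max 0 (-(G.dg g : ℝ)))
  obtain ⟨ε, ε0, H⟩ := piece (fun i => (g.ty i).en) (· ∈ range ι) (fun _ ⟨s, h⟩ => h ▸
    ⟨(hg.2 _).ok _, (qh s).2.2.1, one_pos, (qh s).2.2.2.2 _⟩) (g.C 0) (2 * E) L δ0
  refine ⟨μ₀, fun μ hμ C => ?_⟩
  obtain ⟨w₁, p1, hB⟩ := hB μ hμ
  obtain ⟨w₀, p0, w1, w2, w3⟩ : ∃ w > (0 : ℝ), w ≤ w₁ ∧ w * (C ^ 2 / 4) ≤ ε / 2 ∧
      ∀ i, w ^ 2 * C ^ 4 * (g.ty i).en.D.F.μ.real univ ≤ ε :=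
    ((eventually_mem_nhdsWithin (a := (0 : ℝ)) (s := Ioi 0)).and (Eventually.filter_mono
      nhdsWithin_le_nhds ((eventually_le_nhds p1).and (((show ContinuousAt
        (fun w : ℝ => w * (C ^ 2 / 4)) 0 by fun_prop).eventually_le_const (by simpa)).and
          (eventually_all.2 fun i => (show ContinuousAt (fun w : ℝ => w ^ 2 * C ^ 4 *
            (g.ty i).en.D.F.μ.real univ) 0 by fun_prop).eventually_le_const (by simpa)))))).exists
  refine ⟨w₀, p0, fun l e1 e2 Γ W yt τ hτ => ?_⟩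
  obtain ⟨η, η0, hB⟩ := hB l e1 (e2.trans w1) Γ
  set n : ℝ := (Fintype.card (𝓔 × Sl) : ℝ)
  have n0 : 0 ≤ n := Nat.cast_nonneg _
  choose r r0 hr using sz p l yt (fun ε => (Γ.ok ε).ok) hτ
  refine Sw88.evQ_mono (Sw88.evQ_le r (η := min η (ε / 2 / (1 + n))) (by positivity))
    fun q a β hβ y hy => by_contra fun hC => ?_
  push Not at hC
  have sm : ∀ {η'}, min η (ε / 2 / (1 + n)) ≤ η' → ∀ t, ((p.fam l yt τ).P t).Small 6 η' q :=
    fun h t => ⟨r, a.trans h, fun w _ => ⟨r0 w, hr w t⟩⟩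
  have hE := hB W yt τ hτ q (sm (min_le_left _ _)) β hβ y hy
  have hs := hy.1.1.2
  have hc : (g.P y.1.1).bg.Adm y.1.2 := adm_re.1 hs.toAdm
  have ok := (hg.1.fam.ok _ (u y.1.1)).toOK
  have hN : ∀ i, (g.P y.1.1).Off i ∨ i ∈ range ι ∧ ∃ K ∈ (g.P y.1.1).nk i, ∃ s, En1 K s L := fun i => by
    rcases e : g.s.nk i with _ | K
    · exact .inl (hg.1.off i e (fun c => by simp [hι.wl]) _)
    obtain ⟨s, h⟩ := hg.1.fam.ends i K e
    obtain rfl := (inf i s).1 ⟨K, e, h⟩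
    obtain rfl := Option.mem_unique (k1 s) e
    obtain ⟨K', a1, a2⟩ := hg.1.fam.en _ (u y.1.1) _ _ e
    refine .inr ⟨⟨s, rfl⟩, K', a1, s, en1 K' (fun s' => ⟨fun k => (ne _ _ ((inf _ _).1
      (hg.1.inf ⟨K', a1, k⟩))).symm, fun k => (Pb50.ng_inf a2).2 (k.symm ▸ h)⟩) ?_⟩
    rw [show K'.p = (K₀ s).p from congrArg (·.1) a2, show K'.q = (K₀ s).q from congrArg (·.2.1) a2]
    exact add_le_add_left (Finset.single_le_sum (f := fun s => |(K₀ s).p.getD 0| + |(K₀ s).q.getD 0|)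
      (fun _ _ => by positivity) (Finset.mem_univ s)) _
  have z := p0C_zero (P := g.P y.1.1) fun i => (hN i).imp_right fun ⟨⟨s, h⟩, _⟩ => h ▸ (qh s).2.2.1
  have w0 := Γ.w0.le
  refine (H _ _ _ ok (hg.1.bd _ hy.2).2 hN ⟨y.1.2.a, 0⟩
    ⟨hc.sa, contMDiff_const, hc.pa, fun _ => map_zero _⟩ rfl (fun x => ?_) fun i K hK =>
      ⟨fun t => 2 * ENNReal.ofReal (gn (sl ((lk p l K).pb y.1.2) t)), ?_, fun t ht => ?_⟩).elim
    fun β' ⟨c', a1, a2, a3, a4, a5⟩ => a5.not_ge ((hδ _ hy.2 β' c' a1 (fun i s _ => a2 i s) a3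
      a4).trans_eq (by simp only [z, sub_zero]))
  · rw [eC_red ok.bg l.w (hc.pΦ x)]
    refine (norm_add_le_of_le ((congrArg norm (hs.eq x trivial).2).trans_le (norm_add_le_of_le
      ((congrArg norm ((Irr71.lev_p0C p l _ _ x).trans (z _ x))).trans norm_zero).le
        (Sw88.norm_terms _ (sm (min_le_right _ _) _) _ x))) (?_ : _ ≤ ε / 2)).trans ?_
    · rw [norm_smul, Sw88.norm_qd ok.bg (hc.pΦ x), Real.norm_of_nonneg w0]
      exact (mul_le_mul e2 (div_le_div_of_nonneg_right (pow_le_pow_left₀ (norm_nonneg _) (hC x) 2)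
        (by norm_num)) (by positivity) p0.le).trans w2
    · rw [zero_add, div_mul_cancel₀ _ (by positivity), add_halves]
  · rw [lintegral_const_mul' _ _ (by simp), ENNReal.ofReal_mul zero_le_two, ENNReal.ofReal_ofNat,
      ← lk_deep p l K]
    refine mul_le_mul_right (le_trans (le_trans (le_trans ?_ (Finset.single_le_sum (f := fun j =>
      ((p.lev l (g.P y.1.1)).nk j).elim 0 fun K => en (K.pb y.1.2) (K.deep 2)) (fun _ _ => zero_le)
        (Finset.mem_univ (p.ι i)))) le_add_self) hE) _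
    rw [Option.mem_def.1 (lk_mem p l hK)]
    rfl
  · refine (ENNReal.ofReal_le_ofReal (gn_rt (p.ty i).symm K (ok.en i) (Γ.ok _).ok hc hC
      (Pb50.deep_J K two_pos ht))).trans (ENNReal.ofReal_add_le.trans (add_le_add ?_
        (ENNReal.ofReal_le_ofReal (le_trans ?_ (w3 i)))))
    · rw [ENNReal.ofReal_mul zero_le_two, ENNReal.ofReal_ofNat]
      rfl
    · exact mul_le_mul_of_nonneg_right (mul_le_mul_of_nonneg_right (pow_le_pow_left₀ w0 e2 2)
        ((by decide : Even 4).pow_nonneg C)) measureReal_nonneg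

end Crest.Agent.X212.Map77.Nr
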