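import Crest.Agent.X212.Prm93.Chg
import Crest.Agent.X212.Map77.Cls

/-! The frame of `G` with the measure of `F`. -/

set_option autoImplicit false
set_option linter.unusedSectionVars false
noncomputable section
open scoped Manifold ContDiff Topology InnerProductSpace NNReal
open MeasureTheory Set Function Filter

namespace Crest.Agent.X212.Map77
open An An.Pre Sob92 Ell97 Prm93

variable {E : Type} [NormedAddCommGroup E] [NormedSpace ℝ E] [FiniteDimensional ℝ E]
  [MeasurableSpace E] [BorelSpace E]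
  {HM : Type} [TopologicalSpace HM] {I : ModelWithCorners ℝ E HM} [I.Boundaryless]
  {M : Type} [TopologicalSpace M] [ChartedSpace HM M] [IsManifold I ∞ M]
  [MeasurableSpace M] [T2Space M] [BorelSpace M] {ι ι' : Type} [Fintype ι] [Fintype ι']

/-- the frame of `G` with the measure of `F` -/
def rem (G : Fr I M ι) (F : Pre I M ι') : Fr I M ι where
  e := G.e
  μ := F.μ
  sm := G.sm
  span := G.span
  fin := F.fin
  dens := F.dens
  P := G.P
  c := G.c
  dv a := Met55.dvg F (G.e a)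
  P_sm := G.P_sm
  c_sm := G.c_sm
  dv_sm a x := (Met55.dvg_spec isOpen_univ fun y _ => G.sm a y).1 x trivial
  P_symm := G.P_symm
  P_e := G.P_e
  P_ker := G.P_ker
  c_P := G.c_P
  br := G.br
  ibp a f hf hc := (Met55.dvg_spec isOpen_univ fun y _ => G.sm a y).2 f hf hc (subset_univ _)

variable {G : Fr I M ι} {F : Fr I M ι'} {A : ι → ι' → M → ℝ} {A' : ι' → ι → M → ℝ}

theorem rem_dv (h : Mix F.toPre G.toPre A) (hA : ∀ a b, Sm I (A a b)) (a : ι) :
    (rem G F.toPre).dv a = fun x => ∑ b, (F.D b (A a b) x + A a b x * F.dv b x) := by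
  have hs : ∀ b, Sm I fun x => F.D b (A a b) x + A a b x * F.dv b x := fun b =>
    (F.sm_D (hA a b) b).add ((hA a b).smul (F.dv_sm b))
  funext x
  refine Met55.dvg_eq isOpen_univ (fun y _ => G.sm a y) (fun f h1 h2 _ => ?_)
    (fun y _ => (contMDiff_finsetSum fun b _ => hs b) y) (mem_univ x)
  have i1 : ∀ b, Integrable (fun y => A a b y * F.D b f y) F.μ := fun b =>
    ((hA a b).continuous.mul (F.sm_D h1 b).continuous).integrable_of_hasCompactSupport
      (F.hcs_D h2 b).mul_left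
  have i2 : ∀ b, Integrable (fun y => (F.D b (A a b) y + A a b y * F.dv b y) * f y) F.μ := fun b =>
    ((hs b).continuous.mul h1.continuous).integrable_of_hasCompactSupport h2.mul_left
  have i3 : ∀ b, Integrable (fun y => F.dv b y * (A a b y * f y)) F.μ := fun b =>
    ((F.dv_sm b).continuous.mul
      ((hA a b).continuous.mul h1.continuous)).integrable_of_hasCompactSupport h2.mul_left.mul_left
  change ∫ y, G.D a f y ∂F.μ = _
  simp only [h.D, smul_eq_mul, Finset.sum_mul]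
  rw [integral_finsetSum _ fun b _ => i1 b, integral_finsetSum _ fun b _ => i2 b,
    ← Finset.sum_neg_distrib]
  refine Finset.sum_congr rfl fun b _ => ?_
  have e := F.ibp b (fun y => A a b y * f y) ((hA a b).smul h1) h2.mul_left
  have e2 : ∫ y, (A a b y * F.D b f y + (F.D b (A a b) y + A a b y * F.dv b y) * f y) ∂F.μ =
      ∫ y, (F.D b (fun y => A a b y * f y) y + F.dv b y * (A a b y * f y)) ∂F.μ :=
    integral_congr_ae (.of_forall fun y => by
      have := Met55.dv_mul (X := F.e b) (hA a b y) (h1 y)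
      simp only [D_def, this]; ring)
  have i4 : Integrable (fun y => F.D b (fun y => A a b y * f y) y) F.μ :=
    (F.sm_D (u := fun y => A a b y * f y) ((hA a b).smul h1)
      b).continuous.integrable_of_hasCompactSupport (F.hcs_D h2.mul_left b)
  rw [integral_add (i1 b) (i2 b), integral_add i4 (i3 b)] at e2
  linarith

theorem cmp_rem (h : Mix F.toPre G.toPre A) (hA : ∀ a b, F.Cb (A a b)) (h' : Mix G.toPre F.toPre A')
    (hA' : ∀ a b, F.Cb (A' a b)) : Cmp F.toPre (rem G F.toPre).toPre :=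
  have h1 : Mix F.toPre (rem G F.toPre).toPre A := h
  ⟨⟨⟨A, h1, hA⟩, 1, by simp [rem]⟩, ⟨A', h', fun a b => h1.Cb hA (hA' a b)⟩, 1, by simp [rem]⟩

variable [SecondCountableTopology M]

theorem tame_rem {C : ℕ → ℝ} (hF : F.Tame C) (h : Mix F.toPre G.toPre A)
    (hA : ∀ a b, F.Cb (A a b)) (h' : Mix G.toPre F.toPre A') (hA' : ∀ a b, F.Cb (A' a b))
    (hP : ∀ a b, F.Cb (G.P a b)) (hc : ∀ a b k, F.Cb (G.c a b k)) :
    ∃ C', (rem G F.toPre).Tame C' := by
  set R := rem G F.toPre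
  have h1 : Mix F.toPre R.toPre A := h
  have h2 : Mix R.toPre F.toPre A' := h'
  obtain ⟨C1, e1⟩ := Cb_unif (f := fun s : ι × ι => G.P s.1 s.2) fun s => h1.Cb hA (hP _ _)
  obtain ⟨C2, e2⟩ := Cb_unif (f := fun s : ι × ι × ι => G.c s.1 s.2.1 s.2.2)
    fun s => h1.Cb hA (hc _ _ _)
  obtain ⟨C3, e3⟩ := Cb_unif (F := R.toPre) (f := R.dv) fun a => h1.Cb hA <| by
    rw [rem_dv h fun a b => (hA a b).choose_spec.1]
    exact Cb_sum _ fun b _ => Cb_add (Cb_D (hA a b) b) (Cb_smul (hA a b) ⟨C, hF.dv b⟩)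
  obtain ⟨C4, e4⟩ := Cb_unif (f := fun s : ι × ι' => A s.1 s.2) fun s => hA _ _
  obtain ⟨C5, e5⟩ := Cb_unif (f := fun s : ι' × ι => A' s.1 s.2) fun s => h1.Cb hA (hA' _ _)
  have key : ∀ k (f : M → ℝ), Sm I f → HasCompactSupport f →
      C 0 * F.ip k f f ≤ |C 0| * cN ι ι' 1 (C5 k) k ^ 2 * R.ip k f f := fun k f hf hc => by
    have := h2.nrm (fun a b => (e5 (a, b)).1) (c := 1) (by simp [R, rem]) k
      (fun a b => (e5 (a, b)).2 k) hf hc
    have h3 := pow_le_pow_left₀ (nrm_nonneg _ _) this 2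
    rw [mul_pow, nrm_sq, nrm_sq, ← ip_eq, ← ip_eq] at h3
    rw [mul_assoc]
    exact mul_le_mul (le_abs_self _) h3 (F.ip_nonneg k f) (abs_nonneg _)
  refine ⟨fun k => max (max (C1 k) (max (C2 k) (C3 k))) (max (cM (Fintype.card ι') (C4 k) k * |C k|)
    (max (|C 0| * cN ι ι' 1 (C5 1) 1 ^ 2) (|C 0| * cN ι ι' 1 (C5 4) 4 ^ 2))),
    fun a b => CBs_mono (e1 (a, b)) fun k => by simp,
    fun a b l => CBs_mono (e2 (a, b, l)) fun k => by simp,
    fun a => CBs_mono (e3 a) fun k => by simp, fun f hf hc => ?_, fun f hf hc x => ?_,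
    fun K hK => ?_⟩
  · exact ((hF.l4 f hf hc).trans (key 1 f hf hc)).trans
      (mul_le_mul_of_nonneg_right (by simp) (R.ip_nonneg 1 f))
  · exact ((hF.sup f hf hc x).trans (key 4 f hf hc)).trans
      (mul_le_mul_of_nonneg_right (by simp) (R.ip_nonneg 4 f))
  · obtain ⟨χ, c1, c2⟩ := hF.exh K hK
    exact ⟨χ, ⟨c1.1, fun k => CB_mono (h1.CB (fun a b => (e4 (a, b)).1) k
      (fun a b => (e4 (a, b)).2 k) c1.1 (c1.2 k)) (by simp)⟩, c2⟩

end Crest.Agent.X212.Map77
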