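import Crest.Agent.X212.Map77.S1
import Crest.Agent.X212.Map77.Ins
import Crest.Agent.X212.Pb50.Pt
import Crest.Agent.X212.Pb50.Main
import Crest.Agent.X212.Sw21.Fac
import Crest.Agent.X212.Sw88.Wz
import Crest.Agent.X212.Mon62.Hyp
import Crest.Agent.X212.Met55.Fr

/-! # Lane MODEL-S: frames, coefficients, the basic calculus, restriction and gluing -/

set_option autoImplicit false
set_option linter.unusedSectionVars false
noncomputable section
open scoped Manifold ContDiff Topology InnerProductSpace NNReal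
open MeasureTheory Set Function Filter

namespace Crest.Agent.X212.Map77.S
open An An.Pre Sob92 Prm93 Sw Sw.En3 Mon62 Pb50
open M (Mf)

variable {κ lam ν : Type} [Fintype κ] [Fintype lam] [Fintype ν] [DecidableEq ν]

/-! ### coefficients -/

section cls
variable {E : Type} [NormedAddCommGroup E] [NormedSpace ℝ E] [FiniteDimensional ℝ E]
  [MeasurableSpace E] [BorelSpace E]
  {HM : Type} [TopologicalSpace HM] {I : ModelWithCorners ℝ E HM}
  {M : Type} [TopologicalSpace M] [ChartedSpace HM M] [IsManifold I ∞ M] [MeasurableSpace M]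
  {nc : ℕ}

section prj
variable {b : Bg I M κ lam ν nc} (h : b.OK)
include h

theorem prj_p1 : Prj b.p1 :=
  ⟨fun x => idx_idem (h.B.pr x).idem fun _ => rfl, fun x => idx_symm (h.B.pr x).symm fun _ _ => rfl⟩
theorem prj_p2 : Prj b.p2 := ⟨fun _ => Sw88.p2_p2 h, fun _ => Sw88.inner_p2 h⟩
theorem prj_pp : Prj b.pp :=
  ⟨fun x v => congrArg (· v) (Sw88.p8 h x).pp_pp, fun x => (Sw88.p8 h x).pp_s⟩
theorem prj_pm : Prj b.pm :=
  ⟨fun x v => congrArg (· v) (Sw88.p8 h x).pm_pm, fun x => (Sw88.p8 h x).pm_s⟩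

theorem pm_ρ {x : M} {v : Eu ν} (hv : b.pp x v = v) (a : Option κ) :
    b.pm x (b.m.ρ a x v) = b.m.ρ a x v := (Sw88.p8 h x).pm_ρ hv a

theorem pp_jp {x : M} {v : Eu ν} (hv : b.pp x v = v) : b.pp x (b.jp x v) = b.jp x v := by
  rw [Bg.jp, mul_apply_eq_comp, Sw88.p_of h hv]
  exact (Sw88.p8 h x).pp_J hv

end prj

variable {J : Type} {b : J → Bg I M κ lam ν nc} {K : Cls fun j => (b j).F.toPre}

variable (K) in
/-- the coefficients of a family of backgrounds lie in a class -/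
structure In : Prop where
  P : ∀ i l, K.mem fun j => (b j).B.P i l
  o : ∀ i l m n, K.mem fun j => (b j).B.o i l m n
  p : K.mem fun j => (b j).m.p
  ρ : ∀ i, K.mem fun j => (b j).m.ρ i
  J : K.mem fun j _ => (b j).m.J
  w : K.mem fun j _ => (b j).w
  A : ∀ i, K.mem fun j => (b j).A i
  ms : K.mem fun j => (b j).ms
  om : K.mem fun j => (b j).om
  c : ∀ i l m, K.mem fun j => (b j).F.c i l m
  dv : ∀ i, K.mem fun j => (b j).F.dv i

theorem mulE {f g : J → M → En ν} (hf : K.mem f) (hg : K.mem g) :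
    K.mem fun j x => f j x * g j x := Cls.comp hf hg

namespace In
variable (h : In K) {c : J → Sw.Cfg M κ ν}
include h

theorem vol : K.mem fun j => (b j).vol :=
  Cls.smul (K.const _) (Cls.sum fun i => Cls.sum fun l => Cls.sum fun m => Cls.sum fun n =>
    Cls.smul (h.o i l m n) (mulE (mulE (mulE (h.ρ i) (h.ρ l)) (h.ρ m)) (h.ρ n)))

theorem pp : K.mem fun j => (b j).pp := Cls.smul (K.const _) (Cls.sub h.p h.vol)
theorem pm : K.mem fun j => (b j).pm := Cls.smul (K.const _) (K.add h.p h.vol)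
theorem jp : K.mem fun j => (b j).jp := mulE h.J h.p
theorem p1 : K.mem fun j => (b j).p1 := Cls.idx h.P (K.const _)

theorem p2 : K.mem fun j => (b j).p2 := Cls.idx (fun s t => by
  simpa only [Base.sd, Base.a2, Base.st, div_eq_mul_inv] using Cls.mul (K.add (Cls.mul (Cls.sub
    (Cls.mul (h.P s.1 t.1) (h.P s.2 t.2)) (Cls.mul (h.P s.1 t.2) (h.P s.2 t.1))) (K.const 2⁻¹))
    (Cls.mul (h.o s.1 s.2 t.1 t.2) (K.const 2⁻¹))) (K.const 2⁻¹)) (K.const _)

theorem pC : K.mem fun j => pC (b j) := Cls.ps h.p1 h.pp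
theorem pE : K.mem fun j => pE (b j) := Cls.ps (Cls.ps h.pm h.p2) (K.const _)

theorem qL : K.mem fun j => qL (b j) := Cls.sum fun s => Cls.post (K.const _)
  (Cls.smul (K.const _) (Cls.flip (Cls.comp (K.const (innerSL ℝ).flip)
    (Cls.comp h.J (Cls.comp (h.ρ s.1) (h.ρ s.2))))))

theorem σF (a : Option κ) : K.mem fun j => σF (b j) a :=
  Cls.pr2 (Cls.pr2 (Cls.comp (h.ρ a) (K.const _)) (Cls.comp (Cls.tp fun s =>
    Cls.sub (Cls.smul (h.P s.1 a) (K.const _)) (Cls.smul (h.P s.2 a) (K.const _))) (K.const _)))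
    (K.const _)

variable (ha : ∀ i, K.mem fun j => (c j).a i) (hΦ : K.mem fun j => (c j).Φ)
include ha

theorem W (i : Option κ) : K.mem fun j => (b j).W (c j) i := K.add (h.A i) (Cls.smul (ha i) h.jp)

theorem fc : K.mem fun j => (b j).fc (c j) := Cls.toLp fun s => Cls.mul (K.const _)
  (Cls.bil (innerSL ℝ) (Cls.clm hsL h.jp) (Cls.clm hsL (Cls.sub (K.add (Cls.sub
    (K.D (h.W ha s.2) s.1) (K.D (h.W ha s.1) s.2)) (Cls.sub (mulE (h.W ha s.1) (h.W ha s.2))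
      (mulE (h.W ha s.2) (h.W ha s.1)))) (Cls.sum fun k => Cls.smul (h.c s.1 s.2 k) (h.W ha k)))))

include hΦ

theorem eD : K.mem fun j => (b j).eD (c j) := K.add (Cls.sum fun a => K.app (h.ρ a)
  (K.add (K.D hΦ a) (K.app (h.W ha a) hΦ))) (K.app h.ms hΦ)

theorem eC : K.mem fun j => (b j).eC (c j) := Cls.sub (K.app h.p2 (Cls.sub (h.fc ha)
  (Cls.smul h.w (Cls.toLp fun s => Cls.mul (K.const _) (Cls.bil (innerSL ℝ)
    (K.app h.J (K.app (h.ρ s.1) (K.app (h.ρ s.2) hΦ))) hΦ))))) h.om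

theorem BF : K.mem fun j => BF (b j) (c j) :=
  Cls.pr2 (Cls.pr2 (K.add (Cls.comp (K.add (Cls.sum fun i => mulE (h.ρ i) (h.W ha i)) h.ms)
      (K.const _)) (Cls.sum fun i => Cls.clm (ContinuousLinearMap.smulRightL ℝ (Cf κ ν) (Eu ν) (co i))
        (K.app (h.ρ i) (K.app h.jp hΦ))))
    (Cls.sub (Cls.tp fun s => Cls.neg (Cls.sum fun k => Cls.smul (h.c s.1 s.2 k) (K.const _)))
      (Cls.smul h.w (Cls.comp (K.add (K.app h.qL hΦ) (K.app (Cls.flip h.qL) hΦ)) (K.const _)))))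
    (K.add (Cls.sum fun a => Cls.smul (h.dv a) (K.const _))
      (Cls.smul (Cls.clm ((ContinuousLinearMap.mul ℝ ℝ).flip 2⁻¹) h.w)
        (Cls.comp (Cls.clm (innerSL ℝ) (K.app h.J hΦ)) (K.const _))))

theorem full : K.op fun j => full (b j) (c j) := Cls.op.cut h.pC h.pE h.σF (h.BF ha hΦ)

end In

end cls

variable {d : Dt κ lam ν} {N : Type} [Fintype N] {ty : N → d.𝓔} {X : Mf 4} {nc nr : ℕ}
  {T : Type} [NormedAddCommGroup T] [NormedSpace ℝ T] [FiniteDimensional ℝ T]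
  {s : Pz X 0 fun i => d.e (ty i)}

/-! ### frames -/

section fam
variable {𝓕 : Sw.Fam s nc T} (h : 𝓕.OK) {t : T} (ht : t ∈ 𝓕.Q)
include h

theorem sup : Sup s.bg.F.toPre (h.site.bg.tame.choose 0) := Sup.of_tame h.site.bg.tame.choose_spec

theorem F_P : s.bg.F.P = s.bg.B.P := h.site.bg.G.P

theorem cb_P (a b : Option κ) : s.bg.F.Cb (s.bg.B.P a b) :=
  F_P h ▸ ⟨_, h.site.bg.tame.choose_spec.P a b⟩

include ht

theorem mix_inv : Mix (𝓕.P t).bg.F.toPre s.bg.F.toPre fun a b x => 𝓕.Si t x a b := fun a x => by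
  simp only [h.mix t ht _ x, Finset.smul_sum, smul_smul]
  rw [Finset.sum_comm]
  simp only [← Finset.sum_smul, h.SiS t ht, ← F_P h, s.bg.F.P_e]

theorem μ_end {i : N} {K : Sw.Nk (d.e (ty i)) s.bg} (hK : K ∈ s.nk i) :
    (𝓕.P t).bg.F.μ.restrict K.ψ.target = s.bg.F.μ.restrict K.ψ.target := by
  obtain ⟨K', -, k⟩ := h.en t ht i K hK
  have := K'.iso.μ
  rw [ng_ψ k] at this
  exact this.symm.trans K.iso.μ

/-- the frame at `t` is comparable with the frame of the site -/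
theorem tw : Tw s.bg.F (𝓕.P t).bg.F := by
  obtain ⟨g, g1, g2⟩ := h.dens
  obtain ⟨g3, g4⟩ := g2 t ht
  obtain ⟨C, hC⟩ := g1.cb t ht
  have m1 := h.mix t ht
  have c1 := fun a b => (h.sS a b).cb t ht
  refine ⟨h.site.bg.tame, (h.ok t ht).bg.tame, ⟨⟨_, m1, c1⟩, (C 0).toNNReal, ?_⟩,
    ⟨_, mix_inv h ht, fun a b => m1.Cb c1 ((h.sSi a b).cb t ht)⟩, ?_⟩
  · rw [g4]
    refine (withDensity_mono (.of_forall fun x => ENNReal.ofReal_le_ofReal
      ((le_abs_self _).trans (CB_bound (hC.2 0) x)))).trans_eq ?_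
    rw [withDensity_const]; rfl
  · obtain ⟨c, c0, hc⟩ := (h.site.cpt 0).exists_forall_le' hC.1.continuous.continuousOn
      fun x _ => g3 x
    let W : Set X.M := ⋃ i, ⋃ K ∈ s.nk i, K.ψ.target
    have hW : MeasurableSet W :=
      (isOpen_iUnion fun i => isOpen_biUnion fun K _ => K.ψ.open_target).measurableSet
    have e : (𝓕.P t).bg.F.μ.restrict W = s.bg.F.μ.restrict W := by
      refine Measure.restrict_iUnion_congr.2 fun i => ?_
      cases e : s.nk i with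
      | none => simp
      | some K => simpa using μ_end h ht e
    refine ⟨1 + c⁻¹.toNNReal, ?_⟩
    rw [← Measure.restrict_add_restrict_compl (μ := s.bg.F.μ) hW, add_smul, one_smul, ← e]
    refine add_le_add Measure.restrict_le_self ?_
    rw [g4, ← withDensity_one (μ := s.bg.F.μ.restrict Wᶜ), ← withDensity_indicator hW.compl,
      ENNReal.smul_def, ← withDensity_smul' _ _ ENNReal.coe_ne_top]
    refine withDensity_mono (.of_forall fun x => ?_)
    by_cases hx : x ∈ Wᶜ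
    · have := hc x fun i b K hK _ ⟨y, hy, e⟩ => hx (mem_iUnion.2 ⟨i, mem_biUnion hK
        (e ▸ K.ψ.map_source (K.mem_src.2 hy.2.1))⟩)
      rw [indicator_of_mem hx, Pi.smul_apply, smul_eq_mul, Pi.one_apply, ← ENNReal.ofReal_one]
      exact (ENNReal.ofReal_le_ofReal ((le_inv_mul_iff₀ c0).2 (by rwa [mul_one]))).trans_eq
        (ENNReal.ofReal_mul (by positivity))
    · rw [indicator_of_notMem hx]; exact zero_le

theorem cr_fam {β : BCs fun i => d.e (ty i)} (hβ : s.Cr β) : (𝓕.P t).Cr β :=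
  fun i b k => hβ i b ((inf_iff h ht i b).1 k)

end fam

variable {σ : Cel s nc nr T} {k : ℕ}

section ok
variable (h : σ.toFam.OK)
include h

theorem endAt : EndAt σ := fun t ht i K hK x hx => by
  obtain ⟨K', -, k⟩ := h.en t ht i K hK
  obtain ⟨y, hy, rfl⟩ : ∃ y ∈ K.ψ.source, K.ψ y = x := ⟨_, K.ψ.map_target hx, K.ψ.right_inv hx⟩
  have hy' : y ∈ K'.ψ.source := ng_ψ k ▸ hy
  have e : K'.ψ y = K.ψ y := by rw [ng_ψ k]
  exact ⟨fun a b => ⟨S_nk h ht hK hy a b, Si_nk h ht hK hy a b⟩, fun a => ⟨ng_e k a hy,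
    e ▸ (Met55.iso_dv K'.iso hy' a).symm.trans (e ▸ Met55.iso_dv K.iso hy a),
    e ▸ (K'.hA a y hy').trans (e ▸ (K.hA a y hy).symm), fun b l =>
    e ▸ (Met55.iso_c K'.iso hy' a b l).symm.trans (e ▸ Met55.iso_c K.iso hy a b l)⟩,
    e ▸ (K'.hms y hy').trans (e ▸ (K.hms y hy).symm), e ▸ (K'.hom y hy').trans (e ▸ (K.hom y hy).symm)⟩

theorem bg_eq {t : T} (ht : t ∈ σ.Q) : bg σ t = (σ.P t).bg := by
  rw [bg, ← h.B t ht, ← h.m t ht, ← h.w t ht]

/-- smooth families over the cell -/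
abbrev KS : Cls fun t => (bg σ t).F.toPre := sb s.bg.F.toPre h.mix h.sS

theorem inK : In (KS h) :=
  ⟨fun a b => SB.fixed (cb_P h a b), fun i j l m => SB.fixed (h.site.bg.co i j l m),
    SB.fixed h.site.bg.cp, fun i => SB.fixed (h.site.bg.cρ i), SB.fixed (Cb_const s.bg.m.J),
    SB.fixed (Cb_const s.bg.w), h.sA, h.sms, h.som, h.sc, h.sdv⟩

theorem cb_p1 : s.bg.F.Cb s.bg.p1 := (inK h).p1.cb _ h.ne.some_mem
theorem cb_p2 : s.bg.F.Cb s.bg.p2 := (inK h).p2.cb _ h.ne.some_mem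
theorem cb_pp : s.bg.F.Cb s.bg.pp := (inK h).pp.cb _ h.ne.some_mem
theorem cb_pm : s.bg.F.Cb s.bg.pm := (inK h).pm.cb _ h.ne.some_mem

variable (hβ : s.Cr σ.β)
include hβ

theorem sb_bs (a : Option κ) : SB s.bg.F.toPre σ.Q fun t => (σ.bs t).a a :=
  SB.sum fun b => (h.sS a b).mul (SB.fixed (cb_base_a hβ b))

theorem sb_bΦ : SB s.bg.F.toPre σ.Q fun t => (σ.bs t).Φ := SB.fixed (cb_base_Φ hβ)

theorem hy : Hy σ := ⟨h, hβ, ptStmt X nc nr d ty T s σ h hβ⟩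

theorem cb_a (y : σ.Pnt) (a : Option κ) : s.bg.F.Cb (y.1.2.a a) :=
  (tw h y.2.1).cmp.Cb_iff.2 ((as_cb (h.ok _ y.2.1).toOK (cr_fam h y.2.1 hβ) y.2.2).1 a)

theorem cb_Φ (y : σ.Pnt) : s.bg.F.Cb y.1.2.Φ :=
  (tw h y.2.1).cmp.Cb_iff.2 (as_cb (h.ok _ y.2.1).toOK (cr_fam h y.2.1 hβ) y.2.2).2

end ok

/-! ### the basic calculus -/

namespace Hy
variable (h : Hy σ) (hk : 4 ≤ k)

theorem uc {Z : Type} [NormedAddCommGroup Z] [NormedSpace ℝ Z] {f : σ.C k → Z}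
    (hf : ContDiffOn ℝ ∞ f (σ.U k)) : UC (h.dm hk).toRg fun _ => f :=
  UC.of_compact (fun _ => isCompact_singleton) fun _ => hf

theorem sz {V : Type} [NormedAddCommGroup V] [NormedSpace ℝ V] {w : σ.Pnt → X.M → V}
    (hw : ∀ y, s.bg.F.Cb (w y)) : (h.dm hk).Sz fun _ => w :=
  ⟨fun _ => hw, Dm.ub_of_finite fun _ => hw _⟩

theorem ub {V : Type} [NormedAddCommGroup V] [NormedSpace ℝ V] {w : X.M → V}
    (hw : s.bg.F.Cb w) : Ell97.UB (h.dm hk).P fun _ => w := Dm.ub_of_finite fun _ => hw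

theorem us {V : Type} [NormedAddCommGroup V] [NormedSpace ℝ V] {f : T → X.M → V}
    (hf : SB s.bg.F.toPre σ.Q f) : (h.dm hk).US fun _ v => f v.2.2 :=
  Dm.US.of_sb (fun _ => isCompact_singleton) fun _ =>
    hf.reparam (contDiff_snd.comp contDiff_snd).contDiffOn fun _ hv => hv

theorem a0_sb {V : Type} [NormedAddCommGroup V] [InnerProductSpace ℝ V] [CompleteSpace V]
    {f : T → X.M → V} (hf : SB s.bg.F.toPre σ.Q f)
    (e : ∃ r, ∀ t ∈ σ.Q, ∀ t' ∈ σ.Q, ∀ x ∉ s.core r, f t x = f t' x) {j : ℕ} (hj : 4 ≤ j) :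
    (h.dm hk).A0 False j fun _ y => f y.1.1 := by
  obtain ⟨r, e⟩ := e
  obtain ⟨χ, c1, c2, -, c3⟩ := h.ok.site.bg.tame.choose_spec.exh _ (h.ok.site.cpt r)
  refine Dm.A0.loc hj (h.us hk hf) (Dm.A0.of_cs hj (fun _ => c1.1) fun _ => c2) fun _ y x => ?_
  by_cases hx : x ∈ s.core r
  · rw [c3 x hx, one_smul]
  · rw [sub_eq_zero.2 (e _ ((h.dm hk).mem _ y) _ ((h.dm hk).mem _ _) x hx), smul_zero]

omit h hk in
theorem not_core {r : ℝ} {x : X.M} (hx : x ∉ s.core r) : ∃ i, ∃ K ∈ s.nk i, x ∈ K.ψ.target := by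
  by_contra k
  exact hx fun i b K hK _ ⟨y, hy, e⟩ => k ⟨i, K, hK, e ▸ K.ψ.map_source (K.mem_src.2 hy.2.1)⟩

theorem a0_S (a b : Option κ) {j : ℕ} (hj : 4 ≤ j) :
    (h.dm hk).A0 False j fun _ y x => σ.S y.1.1 x a b :=
  h.a0_sb hk (h.ok.sS a b) ⟨0, fun t ht t' ht' x hx => let ⟨i, K, hK, k⟩ := not_core hx
    ((endAt h.ok t ht i K hK x k).1 a b).1.trans ((endAt h.ok t' ht' i K hK x k).1 a b).1.symm⟩ hj

theorem a0_al : (h.dm hk).A0 False (k + 1) fun _ y => σ.al y.1.1 y.1.2 := by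
  have b1 : s.bg.F.Cb fun x => (WithLp.toLp 2 fun a => (s.base σ.β).a a x : Fm (Option κ) ℝ) :=
    (Cls.toLp (K := KS h.ok) fun a => SB.fixed (cb_base_a h.cr a)).cb _ h.ok.ne.some_mem
  exact ((Dm.A0.fixed (h.ub hk b1)).add (Dm.A0.of_coord (by omega) (h.uc hk contDiffOn_fst)
    (h.sz hk fun y => cb_hs (sup h.ok) (hs_a h.ok h.cr y)) fun _ y =>
      (val_a h.ok h.cr (by omega) y).symm)).congr fun _ _ _ => (add_sub_cancel _ _).symm

theorem bas : Bas h hk where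
  en := endAt h.ok
  tw _ := tw h.ok
  a i := (Dm.A0.fsum Finset.univ fun b _ => ((h.a0_S hk i b (j := k + 8) (by omega)).bil
    (ContinuousLinearMap.mul ℝ ℝ) (Lev.left (by omega) (by omega)) (by omega)
    ((h.a0_al hk).clm (by omega) (pj ℝ b))).aff).congr fun _ y x =>
      (S_al h.ok y.2.1 ((as_fam h.ok y.2.1 _ _).1 y.2.2).2 i x).symm
  Φ := ((Dm.A0.fixed (h.ub hk (cb_base_Φ h.cr))).add (Dm.A0.of_coord (by omega)
    (h.uc hk (contDiff_fst.comp contDiff_snd).contDiffOn)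
    (h.sz hk fun y => cb_hs (sup h.ok) (hs_Φ h.ok h.cr y)) fun _ y =>
      (val_Φ h.ok h.cr (by omega) y).symm)).congr fun _ _ _ => (add_sub_cancel _ _).symm
  D V _ _ _ p j w a hj hw := (Dm.A0.fsum Finset.univ fun b _ =>
    ((h.a0_S hk a b (j := j + 7) (by omega)).bil (ContinuousLinearMap.lsmul ℝ ℝ)
      (Lev.left (by omega) (by omega)) hj (hw.dD hj b)).imp Or.inr).congr fun _ y x =>
        congrFun ((h.ok.mix _ y.2.1).D a _) x
  sb V _ _ _ f hf e j hj := h.a0_sb hk hf e hj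
  bs := ⟨((inK h.ok).eD (sb_bs h.ok h.cr) (sb_bΦ h.ok h.cr)).congr fun t ht => by
      rw [bg_eq h.ok ht],
    ((inK h.ok).eC (sb_bs h.ok h.cr) (sb_bΦ h.ok h.cr)).congr fun t ht => by rw [bg_eq h.ok ht]⟩

/-- a pure family as a map of the Banach model -/
theorem out {V : Type} [NormedAddCommGroup V] [InnerProductSpace ℝ V] [CompleteSpace V]
    {q : X.M → V →L[ℝ] V} (hq : s.bg.F.Cb q) (hi : Prj q) {j : ℕ} (hj : 4 ≤ j)
    {w : σ.Pnt → X.M → V} (hw : (h.dm hk).A0 True j fun _ => w) (e : ∀ y x, q x (w y x) = w y x) :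
    ∃ f : σ.C k → s.bg.F.H j q, ContDiffOn ℝ ∞ f (σ.U k) ∧
      ∀ y, s.bg.F.val j q (f (σ.pt k y)) = w y :=
  let ⟨f, h1, h2⟩ := hw.out hj (h.ub hk hq) fun _ => hi.idem
  ⟨f (), h1.sm (), fun y => funext fun x => (h2 () y x).trans (e y x)⟩

end Hy

/-! ### restriction to an open set and gluing -/

variable (σ) in
/-- the restriction of a cell to a smaller set of parameters -/
def rst (V : Set T) : Cel s nc nr T := { σ with Q := V }

theorem ok_rst (h : σ.toFam.OK) {V : Set T} (hV : V ⊆ σ.Q) (ho : IsOpen V) (hc : IsPreconnected V)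
    (hn : V.Nonempty) : (rst σ V).toFam.OK :=
  have jc : ∀ {f : T → R4 → Eu ν}, JC σ.Q f → JC V f := fun h =>
    ⟨h.1.mono (prod_mono hV le_rfl), h.2.imp fun _ k => ⟨k.1, fun t ht => k.2 t (hV ht)⟩⟩
  ⟨h.site, h.ends, h.w0, ho, hc, hn, fun t k => h.ok t (hV k), fun t k => h.B t (hV k),
    fun t k => h.m t (hV k), fun t k => h.w t (hV k), fun t k => h.mix t (hV k),
    fun t k => h.PS t (hV k), fun t k => h.SP t (hV k), fun t k => h.PSi t (hV k),
    fun t k => h.SiP t (hV k), fun t k => h.SSi t (hV k), fun t k => h.SiS t (hV k),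
    fun a b => (h.sS a b).mono hV, fun a b => (h.sSi a b).mono hV,
    fun a b c => (h.sc a b c).mono hV, fun a => (h.sdv a).mono hV,
    h.dens.imp fun _ g => ⟨g.1.mono hV, fun t k => g.2 t (hV k)⟩, fun a => (h.sA a).mono hV,
    h.sms.mono hV, h.som.mono hV, fun w => (h.sfo w).mono hV,
    fun w => (h.cfo w).imp fun _ g t k => g t (hV k), fun t k => h.en t (hV k),
    fun t k => h.nk t (hV k), fun t k t' k' => h.ct t (hV k) t' (hV k'), fun j => jc (h.η0 j),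
    fun w j => jc (h.η w j)⟩

/-- near every parameter all necks are ends, switched off or stretched -/
theorem exists_rst (h : σ.toFam.OK) {t : T} (ht : t ∈ σ.Q) : ∃ V ⊆ σ.Q, IsOpen V ∧ t ∈ V ∧
    (rst σ V).toFam.OK ∧ ∀ i, s.nk i = none → (∀ t ∈ V, (σ.P t).Off i) ∨ StrQ (rst σ V) i := by
  have : ∀ i, ∀ᶠ V in (𝓝 t).smallSets, t ∈ V → s.nk i = none →
      (∀ t ∈ V, (σ.P t).Off i) ∨ StrQ (rst σ V) i := fun i => by
    by_cases hi : s.nk i = none
    · rcases h.nk t ht i hi with k | ⟨K₀, h0, a, b, h1, h2, ℓ, W, hW, h3, h4⟩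
      · exact (eventually_smallSets_forall.2 k).mono fun V k _ _ => .inl k
      · exact (eventually_smallSets_subset.2 hW).mono fun V k tV _ => .inr ⟨t, tV, K₀, h0, a, b,
          h1, h2, ℓ, h3.mono (prod_mono k le_rfl), fun t' k' => h4 t' (k k')⟩
    · exact .of_forall fun _ _ k => absurd k hi
  obtain ⟨W, hW, k⟩ := eventually_smallSets.1 (eventually_all.2 this)
  obtain ⟨r, r0, hr⟩ := Metric.mem_nhds_iff.1 (inter_mem hW (h.opn.mem_nhds ht))
  have h1 : Metric.ball t r ⊆ σ.Q := hr.trans inter_subset_right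
  exact ⟨_, h1, Metric.isOpen_ball, Metric.mem_ball_self r0, ok_rst h h1 Metric.isOpen_ball
    (convex_ball t r).isPreconnected ⟨t, Metric.mem_ball_self r0⟩,
    fun i => k _ (hr.trans inter_subset_left) i (Metric.mem_ball_self r0)⟩

/-- **Gluing** of local representatives. -/
theorem glue (h : Hy σ) (hk : 4 ≤ k) {Z Z' : Type} [NormedAddCommGroup Z] [NormedSpace ℝ Z]
    {e : Z → Z'} (he : Injective e) {g : σ.Pnt → Z'} (H : ∀ t ∈ σ.Q, ∃ V, IsOpen V ∧ t ∈ V ∧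
      ∃ f : σ.C k → Z, ContDiffOn ℝ ∞ f {v | v.2.2 ∈ V} ∧ ∀ y, y.1.1 ∈ V → e (f (σ.pt k y)) = g y) :
    ∃ f : σ.C k → Z, ContDiffOn ℝ ∞ f (σ.U k) ∧ ∀ y, e (f (σ.pt k y)) = g y := by
  choose! V h1 h2 f h3 h4 using H
  have o : ∀ {W : Set T}, IsOpen W → IsOpen {v : σ.C k | v.2.2 ∈ W} := fun hW =>
    hW.preimage (by fun_prop)
  refine ⟨fun v => f v.2.2 v, fun v hv => ?_, fun y => h4 _ y.2.1 y (h2 _ y.2.1)⟩
  refine (((h3 _ hv).contDiffAt ((o (h1 _ hv)).mem_nhds (h2 _ hv))).congr_of_eventuallyEq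
    (eventually_of_mem ((o ((h1 _ hv).inter h.ok.opn)).mem_nhds ⟨h2 _ hv, hv⟩)
      fun w hw => ?_)).contDiffWithinAt
  have o' := o ((h1 _ hw.2).inter (h1 _ hv))
  refine EqOn.of_subset_closure (s := {u : σ.C k | u.2.2 ∈ V w.2.2 ∩ V v.2.2} ∩ range (σ.pt k))
    (t := {u : σ.C k | u.2.2 ∈ V w.2.2 ∩ V v.2.2} ∩ σ.U k) ?_
    ((h3 _ hw.2).continuousOn.mono fun _ a => a.1.1) ((h3 _ hv).continuousOn.mono fun _ a => a.1.2)
    ?_ (fun u hu => o'.inter_closure ⟨hu.1, (h.pt.2 k hk).1 hu.2⟩) ⟨⟨h2 _ hw.2, hw.1⟩, hw.2⟩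
  · rintro _ ⟨a, y, rfl⟩
    exact he ((h4 _ hw.2 y a.1).trans (h4 _ hv y a.2).symm)
  · rintro _ ⟨a, y, rfl⟩
    exact ⟨a, y.2.1⟩

/-- representatives are local in the parameter -/
theorem rep_loc (h : Hy σ) (hk : 4 ≤ k) {j : ℕ} (hj : 4 ≤ j)
    {E : T → Sw.Cfg X.M κ ν → Ev κ ν X nc nr} (H : ∀ V ⊆ σ.Q, (rst σ V).toFam.OK →
      (∀ i, s.nk i = none → (∀ t ∈ V, (σ.P t).Off i) ∨ StrQ (rst σ V) i) →
      ∃ f : σ.C k → σ.Y j, (rst σ V).Rep E f) : ∃ f : σ.C k → σ.Y j, σ.Rep E f :=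
  glue h hk (e := fun z : σ.Y j => ((s.bg.F.val j _ z.1, s.bg.F.val j _ z.2.1, z.2.2) :
    Ev κ ν X nc nr)) (fun _ _ e => Prod.ext (val_injective (sup h.ok) hj (congrArg (·.1) e))
      (Prod.ext (val_injective (sup h.ok) hj (congrArg (·.2.1) e)) (congrArg (·.2.2) e)))
    fun _ ht => let ⟨V, h1, h2, h3, h4, h5⟩ := exists_rst h.ok ht
      let ⟨f, f1, f2⟩ := H V h1 h4 h5
      ⟨V, h2, h3, f, f1, fun y hy => f2 ⟨y.1, hy, y.2.2⟩⟩

end Crest.Agent.X212.Map77.S
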