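import Crest.Agent.X212.Map77.Row

/-! The bootstrap step and the leaf `GrpM.Slc`. -/

set_option autoImplicit false
set_option linter.unusedSectionVars false
noncomputable section
open scoped Manifold ContDiff Topology InnerProductSpace
open MeasureTheory Set Function Filter Module

namespace Crest.Agent.X212.Map77
open An An.Pre Sob92 Ell97 Prm93 Fred93 Mod61

variable {E : Type} [NormedAddCommGroup E] [NormedSpace ℝ E] [FiniteDimensional ℝ E]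
  [MeasurableSpace E] [BorelSpace E]
  {HM : Type} [TopologicalSpace HM] {I : ModelWithCorners ℝ E HM} [I.Boundaryless]
  {M : Type} [TopologicalSpace M] [ChartedSpace HM M] [IsManifold I ∞ M]
  [MeasurableSpace M] [T2Space M] [BorelSpace M] [SecondCountableTopology M]
  {ι : Type} [Fintype ι] {lam : Type} [Fintype lam]
  {T : Type} [NormedAddCommGroup T] [NormedSpace ℝ T] {𝔉 : Fam I M ι lam T} {j k : ℕ}
  {o : Ref 𝔉} {Fs : T → Fr I M ι} {r n m : ℕ}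

theorem add_z {X Y Z : Type} [AddMonoid X] [AddMonoid Y] [AddMonoid Z] (a : X × Y × Z) (z : Z)
    (h : a.2.2 = 0) : (a + (0, 0, z)).2.2 = z := by simp [h]

namespace Adj
variable (h : Adj 𝔉 Fs) {e : T → PtX M ι lam r n m}
include h

theorem incl_row (y : Pnt o r) {t : T} (ht : t ∈ 𝔉.Q) (hj : j ≤ k) (x : o.C r k) :
    𝔉.F0.incl k j o.Pg (row Fs k y t x) = row Fs j y t (o.iC r j k x) := by
  have H := h.hy o ht
  rw [row_apply, row_apply, ← incl_sC h.toOK hj ht x]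
  exact (H.toTw.incl (H.nc_row ((sb_ut h.toOK y).cb _ ht)) hj _ :)

theorem row_mem (hk : 3 ≤ k) (y : Pnt o r) {t : T} (ht : t ∈ 𝔉.Q) (hj : k ≤ j) {v : o.C r j}
    (h0 : row Fs k y t (o.iC r k j v - y.pt k) = 0) :
    row Fs j y t v ∈ range (𝔉.F0.incl (j + 1) j o.Pg) := by
  have e1 : row Fs j y t (v - y.pt j) = 0 := incl_inj 𝔉.F0 hj _ (by
    rw [h.incl_row y ht hj, map_sub (o.iC r k j), iC_pt h.toOK hk hj, h0, map_zero])
  refine ⟨row Fs (j + 1) y t (y.pt (j + 1)), ?_⟩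
  rw [h.incl_row y ht (Nat.le_add_right j 1), iC_pt h.toOK (by omega) (Nat.le_add_right j 1)]
  exact (sub_eq_zero.1 ((map_sub _ _ _).symm.trans e1)).symm

theorem mem_iC {t : T} (ht : t ∈ 𝔉.Q) (hj : j ≤ k) {v : o.C r j}
    (h0 : sC o r j t v ∈ range (𝔉.F0.incl (k + 1) (j + 1) (bd o).pC)) :
    v ∈ range (o.iC r j k) := by
  obtain ⟨x, hx⟩ := h0
  have e : sC o r k t (0, 0, v.2.2) = 0 := by
    rw [sC, ContinuousLinearMap.comp_apply, jC_apply, map_zero, map_zero, add_zero, map_zero]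
  refine ⟨sC' o r k t x + (0, 0, v.2.2), sC_inj h.toOK ht ?_ ?_⟩
  · rw [← incl_sC h.toOK hj ht, map_add, sC_sC' h.toOK ht, e, add_zero, hx]
  · exact (iC_z _).trans (add_z _ _ (sC'_z t x))

theorem boot (he : Aff o Fs r n m e) (hk : 7 ≤ k) (y : Pnt o r) (hj : k ≤ j)
    {f : o.C r j → o.Y n m j} (hf : RepF e f) {v : o.C r j} (hv : v ∈ o.U r j)
    (h0 : row Fs k y v.2.2.2 (o.iC r k j v - y.pt k) = 0)
    (h1 : f v ∈ range (o.iY n m j (j + 1))) : v ∈ range (o.iC r j (j + 1)) := by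
  obtain ⟨g, g1, g2⟩ := he j (by omega)
  obtain ⟨w, hw⟩ := h1
  have e0 : f v = f0 o Fs r n m j v + o.iY n m j (j + 1) (g v) :=
    repF_eqOn h.toOK (by omega) (by omega) hf (h.repF g1 g2) hv
  have e1 := h.row_mem (by omega) y hv hj h0
  rw [row_apply] at e1
  have e2 : 𝔉.F0.incl (j + 1) j _ (sY o n m _ (w - g v)) = (bd o).NH 𝔉.F0.toPre (Fs v.2.2.2) j
      (u0 o v.2.2.2) (sC o r j v.2.2.2 v) := by
    rw [incl_sY (Nat.le_add_right j 1), map_sub (o.iY n m j (j + 1)), hw, e0, add_sub_cancel_right,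
      f0, sY_jY, hC_eq]
  exact h.mem_iC hv (Nat.le_add_right j 1) ((h.hy o hv).boot ((sb_u0 o h.toOK).cb _ hv)
    ((sb_ut h.toOK y).cb _ hv) e1 ⟨_, e2⟩)

theorem sm_row (y : Pnt o r) : ContDiffOn ℝ ∞ (row Fs k y) 𝔉.Q :=
  (h.sm_RR o (sb_ut h.toOK y)).clm_comp ((sm_SH o h.toOK).clm_comp contDiffOn_const)

/-- the gauge condition of the slice depends on the parameter -/
theorem exists_gam [FiniteDimensional ℝ T] (he : Aff o Fs r n m e) (hk : 7 ≤ k) (y : Pnt o r) :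
    ∃ γ : o.C r k → 𝔉.F0.H k o.Pg, ContDiff ℝ ∞ γ ∧ HasStrictFDerivAt γ (sig Fs k y) (y.pt k) ∧
      γ (y.pt k) = 0 ∧ ∀ᶠ v₀ in 𝓝 (y.pt k), γ v₀ = 0 → ∀ j, k ≤ j → ∀ f : o.C r j → o.Y n m j,
        RepF e f → ∀ v : o.C r j, o.iC r k j v = v₀ → f v ∈ range (o.iY n m j (j + 1)) →
          v ∈ range (o.iC r j (j + 1)) := by
  obtain ⟨γ, h1, h2, h3, h4⟩ := Map77.exists_gam (tC o r k) h.opn (h.sm_row y)
    (x := y.pt k) y.ht
  refine ⟨γ, h1, h2.congr_fderiv ?_, h3, h4.mono fun v₀ hv h5 j hj f hf v e h6 => ?_⟩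
  · rw [sig, ← ut_self]; rfl
  · subst e
    have e : tC o r k (o.iC r k j v) = v.2.2.2 := iC_t (j := k) v
    rw [e] at hv
    exact h.boot he hk y hj hf hv.1 (hv.2 h5) h6

/-- **the leaf `Slc` from slice data whose row is `sig` and finitely many further rows** -/
theorem slc_of [FiniteDimensional ℝ T] (he : Aff o Fs r n m e) (hk : 7 ≤ k)
    {Al : (M → CL o.m.V o.m.V) → Circle → Prop} (Γ : GrpM o r k Al) (y : Pnt o r) {K : Type}
    [NormedAddCommGroup K] [NormedSpace ℝ K] [FiniteDimensional ℝ K]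
    (a : (𝔉.F0.H k o.Pg × K) ≃L[ℝ] Γ.H) {d : ℤ}
    (hD : Γ.Free (y.pt k) → ∃ (l : o.C r k →L[ℝ] K) (D : Slc61.SliceData Γ.G Γ.L Γ.H (y.pt k)),
      D.σ = (a : _ →L[ℝ] Γ.H) ∘L (sig Fs k y).prod l ∧
      (∀ U ∈ 𝓝 (0 : Γ.L), D.e '' U ∈ 𝓝 (1 : Γ.G)) ∧
      (∀ x, ∃ s : Γ.L →L[ℝ] CL o.m.V o.m.V, HasStrictFDerivAt (fun ξ => Γ.u (D.e ξ) x) s 0) ∧
      ∃ s : Γ.L →L[ℝ] ℂ, HasStrictFDerivAt (fun ξ => (Γ.ζ (D.e ξ) : ℂ)) s 0)
    (hF : ∀ f : o.C r k → o.Y n m k, RepF e f →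
      Fr ((fderiv ℝ f (y.pt k)).prod (sig Fs k y)) d) : Γ.Slc e (d - finrank ℝ K) y := fun hf => by
  obtain ⟨l, D, h1, h2, h3, h4⟩ := hD hf
  obtain ⟨γ, g1, g2, g3, g4⟩ := h.exists_gam he hk y
  refine ⟨⟨D.e, D.d, fun v => a (γ v, l (v - y.pt k)), D.σ, D.e_zero, D.act, ?_, by simp [g3], D.bij,
    D.tame⟩, a.contDiff.comp (g1.prodMk (l.contDiff.comp (contDiff_id.sub contDiff_const))), h2, h3,
    h4, fun f hf => ?_, g4.mono fun v hv h5 => hv ?_⟩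
  · rw [h1]
    exact a.hasStrictFDerivAt.comp _ (g2.prodMk
      (l.hasStrictFDerivAt.comp _ ((hasStrictFDerivAt_id _).sub_const _)))
  · have := fr_row (hF f hf) l a
    rwa [← h1] at this
  · exact congrArg Prod.fst (a.injective (h5.trans (map_zero a).symm))

end Adj

end Crest.Agent.X212.Map77
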