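import Crest.Agent.X212.Map77.UsF
import Crest.Agent.X212.Inv14.Main

/-!
# Row 212, USF (helper77): the estimate on the cylinders of the ends, and the leaf
-/

set_option autoImplicit false
set_option linter.unusedSectionVars false
noncomputable section
open scoped Manifold ContDiff Topology InnerProductSpace ENNReal
open MeasureTheory Set Function Filter Real

namespace Crest.Agent.X212.Map77.Us
open An An.Pre M Sob92 Prm93 Fred93 Mod61 Map77 Nd18 Cyf70 Ell97 Nk89 Usf71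
open Wal14 (drC drH sgm Usf Dr Tz ZE UsfAt)
open Rdc90 (Bs)
open Inv14 (bo)
open Crt72 (Cz Wz)

variable {E : Type} [NormedAddCommGroup E] [NormedSpace ℝ E] [FiniteDimensional ℝ E]
  [MeasurableSpace E] [BorelSpace E]
  {HM : Type} [TopologicalSpace HM] {I : ModelWithCorners ℝ E HM} [I.Boundaryless]
  {M : Type} [TopologicalSpace M] [ChartedSpace HM M] [IsManifold I ∞ M]
  [MeasurableSpace M] [T2Space M] [BorelSpace M] [SecondCountableTopology M]
  {ι κ : Type} [Fintype ι] [Fintype κ] {lam : Type} [Fintype lam]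
  {T : Type} [NormedAddCommGroup T] [NormedSpace ℝ T]

theorem deriv_ab {s t : ℝ} (h : s = 1 ∨ s = -1) (ht : 1 < s * t) : deriv Nk89.ab t = s := by
  rw [show deriv Nk89.ab t = deriv (fun t => s * t) t from EventuallyEq.deriv_eq
    (((continuous_const.mul continuous_id).continuousAt.eventually (lt_mem_nhds ht)).mono
      fun _ h' => ab_eq h h'.le)]
  simp

theorem tt0 {𝔉 : Fam I M ι lam T} {o : Ref 𝔉} {r n m k : ℕ} (h : 𝔉.OK)
    (hz : ∀ (y : Pnt o r) x, eD n m (bs y) x = 0 ∧ Map77.eC n m (bs y) x = 0) (hk : 6 ≤ k)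
    {f : o.C r k → o.Y n m k} (hf : RepF (𝔉.eq0 r n m) f) (y : Pnt o r) :
    TT k f y = (bd o).FF 𝔉.F0.toPre (Fs 𝔉 y.t) k (uy y) := by
  have a := adj_rem h
  refine ContinuousLinearMap.ext fun x => ?_
  have e1 := a.fderiv_aff hk y contDiffOn_const (Inv14.rep0 h hz hk) hf x
  simp only [fderiv_fun_const, Pi.zero_apply, ContinuousLinearMap.zero_comp,
    ContinuousLinearMap.comp_zero, zero_apply, add_zero] at e1
  simp only [TG, _root_.add_apply, ContinuousLinearMap.comp_apply, e1,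
    (a.hy o y.ht).FF_eq (cb_uy h y)]

/-- the weight enters only through the gauge row -/
theorem app_full [CompactSpace M] {K : Type} [Fintype K] [DecidableEq K] {F : Fr I M κ}
    {G : Fr (IC I) (M × ℝ) (Option κ)} {ψ : ℝ → ℝ} {d : Bd (M × ℝ) (Option κ) K}
    {W : Option κ → M × ℝ → En K} {Φ : M × ℝ → Eu K} (z : Cz F d W Φ) (w : Wz F G ψ)
    (u : Sec (IC I) d.pC) (x : M × ℝ) : (d.full G (base W 0)).app G u.1 x =
      (d.full (cyl F) (base W 0)).app (cyl F) u.1 x +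
        (2 * deriv ψ x.2) • i1 _ _ (fa (u.1 x) none) := by
  have := z.app_wt w u x
  rw [Op78.app_sful, Op78.app_sful, Crt72.jC_apply, sub_sub_cancel, map_smul, z.σ_pT,
    Op78.g_fa z.cp.ok (u.2.2.2 x), add_right_comm, smul_smul, mul_comm] at this
  exact add_right_cancel this

theorem est_abs {V W : Type} [NormedAddCommGroup V] [InnerProductSpace ℝ V] [NormedAddCommGroup W]
    [InnerProductSpace ℝ W] {F G : Pre I M ι} {ψ χ : M → ℝ} (w : WtP F G ψ) {B : ℕ → ℝ}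
    (hB : ∀ a, F.CBs (F.D a ψ) B) {k : ℕ} {p : M → V →L[ℝ] V} {q : M → W →L[ℝ] W}
    {L : G.H (k + 1) p →L[ℝ] G.H k q} {S : (M → V) → M → W} (r : G.Rep L S) {C : ℝ} (C0 : 0 ≤ C)
    (u : Sec I p) {v : M → W}
    (hC : Dec35.nw F (k + 1) χ u.1 ≤ C * (Dec35.nw F k χ v + (0 : (M → V) → ℝ) u.1))
    (e1 : S u.1 = v) (e2 : ∀ x, exp (ψ x) • u.1 x = exp (χ x) • u.1 x)
    (e3 : ∀ x, exp (ψ x) • v x = exp (χ x) • v x) :
    ‖G.toH (k + 1) p u‖ ≤ cW ι B (k + 1) * (C * cW ι B k) * ‖L (G.toH _ _ u)‖ := by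
  subst e1
  have m := RepT_mem r u
  have n1 := w.nrm_le_exp hB (k + 1) u.2.1 u.2.2.1
  have n2 := w.nrm_exp_le hB k m.1 m.2.1
  rw [funext e2] at n1
  rw [funext e3] at n2
  rw [Pi.zero_apply, add_zero] at hC
  rw [RepT_toH r, norm_toH, norm_toH, mul_assoc, mul_assoc]
  exact n1.trans
    (mul_le_mul_of_nonneg_left (hC.trans (mul_le_mul_of_nonneg_left n2 C0)) (cW_nonneg _ _))

theorem lp_sec {V X Y : Type} [NormedAddCommGroup V] [InnerProductSpace ℝ V] [NormedAddCommGroup X]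
    [InnerProductSpace ℝ X] [CompleteSpace X] [NormedAddCommGroup Y] [InnerProductSpace ℝ Y]
    [CompleteSpace Y] {F : Pre I M ι} {k : ℕ} {p : M → V →L[ℝ] V} {L : X →L[ℝ] Y}
    {r : F.H k p →L[ℝ] X} {C : ℝ} (h : ∀ u, ∃ x, r (F.toH k p u) = x ∧ ‖x‖ ≤ C * ‖L x‖) :
    LP L r :=
  lp_of_range (K := (0 : _ →L[ℝ] ℝ)) (C := C) isCompactOperator_zero
    (H_le (by fun_prop) (by fun_prop) fun u => by
      obtain ⟨x, e, h⟩ := h u
      rwa [_root_.zero_apply, norm_zero, add_zero, e])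

/-- the constant drift -/
def dZ (κ X : Type) (c : ℝ) (a : Option κ) (_ : X) : ℝ := a.elim c fun _ => 0

section cyl
variable {Y : Mf 3} [CompactSpace Y.M] {D : YD Y.I Y.M κ lam} {β : YC Y.M κ lam}
  {O' : Set (Y.M × ℝ)} {δ η s : ℝ} {k : ℕ} (H : Bs D β) (hO : O' = univ ∨ O' = ∅)
  (h0 : ∀ x ∉ O', β.Φ x.1 = 0) (hδ : 0 < δ) (hk : 6 ≤ k)
  {fZ : (refZ T0 δ H.adm h0).C 0 k → (refZ T0 δ H.adm h0).Y 0 0 k}
  (hf : RepF (fun _ => eq0 D.B D.G 0 0 0) fZ)

theorem locZ0 (s : ℝ) : LocZ (δ := δ) H.adm h0 k (eq0 D.B D.G 0 0 0) s := by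
  refine fun b ρ ε hε => ⟨b, fun y y' _ _ e => ?_⟩
  have o : IsOpen {x : Y.M × ℝ | b < s * x.2} := isOpen_lt continuous_const (by fun_prop)
  have l := fun x => Inv14.loc0 (n := 0) (m := 0) (Subsingleton.elim y.t y'.t) o e (x := x)
  constructor <;> refine ((Gl67.N_congr o.measurableSet fun x hx => eventually_of_mem
    (o.mem_nhds hx) fun z hz => ?_).trans Gl67.N_zero).trans_le zero_le
  exacts [sub_eq_zero.2 (l z hz).1, sub_eq_zero.2 (l z hz).2]

include hO hδ hk hf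

set_option maxHeartbeats 2000000 in
theorem rep_Z (c : ℝ) : (famZ T0 D δ O').F0.Rep
    (TT k fZ (yZ δ H.adm h0) + ZR _ k (gD (refZ T0 δ H.adm h0) (dZ κ _ c)))
    (Tz D β O' fun t => 2 * (δ * deriv Nk89.ab t) + c) := by
  classical
  have ok : (famZ T0 D δ O').OK := ok_famZ H.ok H.dim.le hδ.le (Inv14.clopen_of hO)
  have z := Inv14.cz H hO
  have e1 : Fs (famZ T0 D δ O') (yZ δ H.adm h0).t = (famZ T0 D δ O').F0 :=
    Ixc61.rem_self (famZ T0 D δ O').F0
  have e2 : uy (yZ δ H.adm h0) = base (Rf65.cA β.W) 0 :=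
    congrArg₂ base (Ixz30.W_refZ H.adm h0 0) ((add_zero _).trans (funext fun x => H.zr x.1))
  have Hy := (adj_rem ok).hy (refZ T0 δ H.adm h0) (yZ δ H.adm h0).ht
  have cu := cb_uy ok (yZ δ H.adm h0)
  have g := og_gD (refZ T0 δ H.adm h0) (dr := dZ κ _ c) ok fun a => Cb_const _
  rw [tt0 ok (Inv14.sol0 H h0) hk hf, e1, e2]
  rw [show rem _ _ = _ from e1] at Hy
  rw [e2] at cu
  refine RepT_congr (RepT_add (Crt72.rp Hy.toTw (Hy.nc_full cu) k) (rep_Z0 g.cb (.of_left g.pr)))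
    fun u => funext fun x => ?_
  have e3 : drC (refZ T0 δ H.adm h0) (dZ κ _ c) x (u.1 x) = c • fa (u.1 x) none := by
    rw [drC_apply, Fintype.sum_option]
    simp only [dZ, Option.elim, zero_smul, Finset.sum_const_zero, add_zero]
    exact congrArg _ (Op78.g_fa z.cp.ok (u.2.2.2 x) none)
  have e4 : gD (refZ T0 δ H.adm h0) (dZ κ _ c) x (u.1 x) =
      c • i1 _ (Ef (Option κ) (Fin β.m.N)) (fa (u.1 x) none) :=
    (congrArg (i1 _ (Ef (Option κ) (Fin β.m.N))) e3).trans (map_smul _ _ _)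
  have e5 := app_full z (Crt72.wz_ab (wt_famZ (T := T0) (O' := O') (δ := δ))) u x
  refine (congrArg₂ (· + ·) e5 e4).trans ?_
  rw [add_assoc, ← add_smul, deriv_const_mul_field]; rfl

set_option maxHeartbeats 2000000 in
theorem est_Z (hs : s = 1 ∨ s = -1) (Z : ZE D β O' (k + 1) k δ η) :
    ∃ C, ∀ u : Sec (IC Y.I) (bd (refZ T0 δ H.adm h0)).pC,
    (∀ z : Y.M × ℝ, s * z.2 ≤ 2 → u.1 z = 0) → ‖(famZ T0 D δ O').F0.toH (k + 1) _ u‖ ≤
      C * ‖(TT k fZ (yZ δ H.adm h0) + ZR _ k (gD (refZ T0 δ H.adm h0) (dZ κ _ (η - s * δ))))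
        ((famZ T0 D δ O').F0.toH _ _ u)‖ := by
  obtain ⟨C, C0, hC⟩ := Z s hs
  have w := Crt72.wz_ab (wt_famZ (T := T0) (D := D) (δ := δ) (O' := O'))
  obtain ⟨B, hB⟩ := w.hD
  refine ⟨cW (Option κ) B (k + 1) * (C * cW (Option κ) B k), fun u hu => ?_⟩
  have e2 : ∀ {V : Type} [NormedAddCommGroup V] [NormedSpace ℝ V] {v : Y.M × ℝ → V},
      (∀ x, s * x.2 < 2 → v x = 0) → ∀ x, exp (δ * Nk89.ab x.2) • v x =
        exp (δ * (s * x.2)) • v x := fun hv x => by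
    rcases lt_or_ge (s * x.2) 2 with e | e
    · rw [hv x e, smul_zero, smul_zero]
    · rw [ab_eq hs (one_le_two.trans e)]
  have e3 : tsupport u.1 ⊆ {x | 2 ≤ s * x.2} := closure_minimal
    (fun x hx => (not_le.1 fun e => hx (hu x e)).le) (isClosed_le continuous_const (by fun_prop))
  refine est_abs w.wp hB (rep_Z H hO h0 hδ hk hf (η - s * δ)) C0 u (hC u.1 u.2)
    (funext fun x => ?_) (e2 fun x hx => hu x hx.le) (e2 fun x hx => ?_)
  · rcases le_or_gt (s * x.2) 2 with e | e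
    · simp only [Tz, hu x e, map_zero, PiLp.zero_apply, smul_zero]
    · simp only [Tz, deriv_ab hs (one_lt_two.trans e)]
      congr 2; ring
  · simp only [Tz, hu x hx.le, map_zero, PiLp.zero_apply, smul_zero, add_zero]
    exact image_eq_zero_of_notMem_tsupport fun e => (e3 (tsupport_op _ _ _ e)).not_gt hx

end cyl

variable {𝔉 : Fam I M (Option κ) lam T} {δ : ℝ} {X : Ends 𝔉 δ} {R b η : ℝ} {k : ℕ}
  {o : Ref 𝔉} {r n m : ℕ} {e : T → PtX M (Option κ) lam r n m} {t : T} {g : M → ℝ} {a : X.A}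

theorem D_end (ht : t ∈ 𝔉.Q) (hb : X.R ≤ b) {s c : ℝ}
    (h : ∀ z ∈ (X.P a).H b, g ((X.P a).K.ψ z) = s * z.2 + c) {z} (hz : z ∈ (X.P a).H b)
    (i : Option κ) : (𝔉.G t).F.D i g ((X.P a).K.ψ z) = dZ κ _ s i z := by
  have cd : ContDiff ℝ ∞ fun u : ℝ => s * u + c := by fun_prop
  refine (((X.okP a).gRel X.ok ht).fr.D (hb.trans_lt hz) i (u := fun z => s * z.2 + c)
    (eventually_of_mem (((X.P a).isOpen_H b).mem_nhds hz) fun z hz => (h z hz).symm)).symm.trans ?_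
  cases i with
  | none => exact (congrFun (D_none_snd (X.P a).D.F.toPre cd) z).trans (by simp [dZ])
  | some i => exact congrFun (D_some_snd (X.P a).D.F.toPre cd i) z

set_option maxHeartbeats 2000000 in
theorem end_lp (hk : 7 ≤ k) (hl : X.Lit o R) (ht : t ∈ 𝔉.Q) (ha : X.Act a) (hb : R ≤ b)
    (h1 : 1 ≤ b) {c : ℝ}
    (hg : ∀ z ∈ (X.P a).H b, g ((X.P a).K.ψ z) = (η - (X.P a).sg * δ) * z.2 + c)
    (H : Bs (X.P a).D ((X.P a).sl o (R + 1) t))
    (Z : ZE (X.P a).D ((X.P a).sl o (R + 1) t) ((X.P a).O' R) (k + 1) k δ η)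
    (L : ∀ h h0, (X.P a).Loc o k δ R e t h h0 (eq0 (X.P a).D.B (X.P a).D.G 0 0 0)) :
    EndLP X R b k o e (gD o fun i => (𝔉.G t).F.D i g) t a := by
  intro h h0
  have hO : (X.P a).O' R = univ ∨ (X.P a).O' R = ∅ := by
    by_cases e : (X.P a).U R ⊆ 𝔉.Om'
    exacts [.inl (eq_univ_of_forall fun _ => e), .inr (eq_empty_of_forall_notMem fun _ => e)]
  have ok := X.okZ a R
  have A := Inv14.aff0 (n := 0) (m := 0) ok (Inv14.sol0 H h0)
  obtain ⟨fZ, hf⟩ := (adj_rem ok).rp A k hk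
  obtain ⟨C, hC⟩ := est_Z H hO h0 X.δ0 (by omega) hf (X.P a).sg_cases Z
  have mC := Ends.mbC (h := h) (h0 := h0) hl ha hb h1 ht
  refine ⟨_, fZ, gD (refZ T0 δ h h0) (dZ κ _ (η - (X.P a).sg * δ)), A, hf, locZ0 H h0 _, L h h0,
    og_gD _ ok fun _ => Cb_const _, fun z hz => ?_, ?_⟩
  · have e1 := (End.brel h h0 X.ok (X.okP a) hl.le (hl.lit a) ht hb ha).g z
      (((X.okP a).ch_src (hl.le.trans hb)).ge hz)
    refine congrArg (i1 _ _ ∘L ·) (Finset.sum_congr rfl fun i _ => ?_)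
    exact congrArg₂ (fun (s : ℝ) (P : CL o.m.A o.m.A) => s • (P ∘L pj _ i ∘L fa))
      (D_end ht (hl.le.trans hb) hg hz i).symm e1
  · refine lp_sec (C := C) fun u => ?_
    obtain ⟨u', e1, e2⟩ := mC.exists_rs (O' := (X.P a).O' R) (k := k + 1) (by omega) u
    exact ⟨_, e1, hC u' fun z hz => by
      rw [e2, show (X.P a).θZ (b + 1) z = 0 from hc_zero (by linarith), zero_smul]⟩

/-- **LEAF USF** -/
theorem usfAt [FiniteDimensional ℝ T] (X : Ends 𝔉 δ) : UsfAt X := by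
  intro o R r n m k e f y η g hk hl he hf d H
  obtain ⟨b, hb⟩ := d.lit
  refine usf_of_lp X.ok d.cb (by omega) y (lp_TT (b := max (max R 1) b) hk hl he hf y
    ((le_max_left _ _).trans (le_max_left _ _)) ((le_max_right _ _).trans (le_max_left _ _))
    (og_gD o X.ok d.cb) fun a ha => ?_)
  obtain ⟨c, hc⟩ := hb a
  have K := H a ha ((hl.lit a).adm X.ok (X.okP a) hl.le y.ht) (End.off X.ok (X.okP a) hl.le)
  exact end_lp hk hl y.ht ha ((le_max_left _ _).trans (le_max_left _ _))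
    ((le_max_right _ _).trans (le_max_left _ _))
    (fun z hz => hc z (show b < _ from (le_max_right _ _).trans_lt hz)) K.1 K.2.1 fun h h0 => (H a ha h h0).2.2

end Crest.Agent.X212.Map77.Us
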