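import Crest.Agent.X212.Usf71.Abs
import Crest.Agent.X212.Map77.IsB
import Crest.Agent.X212.Wal14.Defs

/-!
# Row 212, USF (helper77): the drift as a term of order zero, and the dictionary
-/

set_option autoImplicit false
set_option linter.unusedSectionVars false
noncomputable section
open scoped Manifold ContDiff Topology InnerProductSpace ENNReal
open MeasureTheory Set Function Filter

namespace Crest.Agent.X212.Map77.Us
open An An.Pre Sob92 Prm93 Fred93 Mod61 Map77 Nd18 Cyf70 Ell97 Nk89 Usf71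
open Wal14 (drC drH sgm Usf Dr)

variable {E : Type} [NormedAddCommGroup E] [NormedSpace ℝ E] [FiniteDimensional ℝ E]
  [MeasurableSpace E] [BorelSpace E]
  {HM : Type} [TopologicalSpace HM] {I : ModelWithCorners ℝ E HM} [I.Boundaryless]
  {M : Type} [TopologicalSpace M] [ChartedSpace HM M] [IsManifold I ∞ M]
  [MeasurableSpace M] [T2Space M] [BorelSpace M] [SecondCountableTopology M]
  {ι κ : Type} [Fintype ι] [Fintype κ] {lam : Type} [Fintype lam]
  {T : Type} [NormedAddCommGroup T] [NormedSpace ℝ T]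

theorem usf_abs {C X Y G F P : Type} [NormedAddCommGroup C] [NormedSpace ℝ C] [CompleteSpace C]
    [NormedAddCommGroup X]    [NormedSpace ℝ X] [NormedAddCommGroup Y] [NormedSpace ℝ Y] [NormedAddCommGroup G]
    [NormedSpace ℝ G] [NormedAddCommGroup F] [NormedSpace ℝ F] [NormedAddCommGroup P]
    [NormedSpace ℝ P] [FiniteDimensional ℝ P] {L : C →L[ℝ] Y} {σ : C →L[ℝ] G} {A : X →L[ℝ] F}
    {s : C →L[ℝ] X} {s' : X →L[ℝ] C} {π : C →L[ℝ] P} {j : P →L[ℝ] C} {a : G →L[ℝ] F}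
    {b : Y →L[ℝ] F} (e1 : ∀ v, v = s' (s v) + j (π v))
    (e2 : ∀ v, A (s v) = a (σ v) + b (L (s' (s v)))) (H : LP A (.id ℝ _)) : Usf (L.prod σ) := by
  obtain ⟨Q, hQ⟩ := H
  obtain ⟨K, C, c3, c4⟩ := LP.est (L := L.prod σ) ⟨s' ∘L Q ∘L (a ∘L .snd ℝ _ _ + b ∘L .fst ℝ _ _),
    (Cq.of_cpt (B := s' ∘L (Q ∘L A ∘L .id ℝ _) ∘L s) (cq_fin π (s' ∘L Q ∘L b ∘L L ∘L j))
      fun v => by
        have e3 : L v = L (s' (s v)) + L (j (π v)) := (congrArg _ (e1 v)).trans (map_add _ _ _)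
        simp [e2, e3 , add_assoc]).trans
      (((hQ.right s).left s').trans (Cq.symm (.of_cpt (cq_fin π j) e1)))⟩
  exact ⟨_, _, _, K, C, c3, c4⟩

section fin
variable {𝔉 : Fam I M ι lam T} (o : Ref 𝔉) (dr : ι → M → ℝ) {r n m k : ℕ}

/-- the drift as a term of order zero -/
def gD (x : M) : Cf ι (Fin o.m.N) →L[ℝ] P2 o.m.A (Ef ι (Fin o.m.N)) := i1 _ _ ∘L drC o dr x

theorem drC_apply (x : M) (v : Cf ι (Fin o.m.N)) :
    drC o dr x v = ∑ a, dr a x • o.Pg x (fa v a) := Is.dC_apply o dr x v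

variable {dr} (h : 𝔉.OK) (hd : ∀ a, 𝔉.F0.Cb (dr a))
include h

theorem drC_pr (x : M) (v : Cf ι (Fin o.m.N)) : o.Pg x (drC o dr x v) = drC o dr x v := by
  simp only [drC_apply, map_sum, map_smul]
  exact Finset.sum_congr rfl fun a _ => congrArg _ ((ok_bd o h).g.idem x _)

include hd

theorem og_gD : Og o (gD o dr) :=
  ⟨Cb_comp (Cb_const _) (Is.cb_dC o h hd), fun x v => maps_i1 x _ (drC_pr o h x v)⟩

theorem ZR_gD (hk : 4 ≤ k) (u : 𝔉.F0.H (k + 1) (bd o).pC) :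
    ZR o k (gD o dr) u = iH1 _ k o.Pg _ (drH o k dr u) := by
  have g := og_gD o h hd
  refine val_injective h.sup hk (funext fun x => ?_)
  rw [val_Z0 h.sup hk g.cb (.of_left g.pr), val_iH1 h.sup hk]
  exact congrArg (i1 _ _) (Is.val_drift o h hd hk u x).symm

variable {o}

/-- **the dictionary** -/
theorem usf_of_lp [FiniteDimensional ℝ T] (hk : 4 ≤ k) {f : o.C r k → o.Y n m k} (y : Pnt o r)
    (H : LP (TT k f y + ZR o k (gD o dr)) (.id ℝ _)) :
    Usf ((fderiv ℝ f (y.pt k)).prod (sgm k dr y)) := by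
  refine usf_abs (s := sC o r k y.t) (s' := sC' o r k y.t) (π := .snd ℝ _ _ ∘L .snd ℝ _ _)
    (j := .inr ℝ _ _ ∘L .inr ℝ _ _) (a := iH1 _ k o.Pg _) (b := iH2 _ k o.Pg _ ∘L sY o n m k)
    (fun v => sC_inj h y.ht ?_ ?_) (fun v => ?_) H
  · rw [map_add, sC_sC' h y.ht]
    exact (add_zero _).symm.trans (congrArg _
      ((map_zero _).symm.trans (congrArg (SH (k + 1) o (𝔉.S y.t)) (by simp [jC_apply]))))
  · rw [Prod.snd_add, Prod.snd_add, sC'_z, zero_add]; rfl
  · refine (congrArg (TT k f y (sC o r k y.t v) + ·) (ZR_gD o h hd hk _)).trans ?_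
    exact (add_right_comm _ _ _).trans (congrArg (· + _) (map_add (iH1 _ k o.Pg _) _ _).symm)

end fin

end Crest.Agent.X212.Map77.Us
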