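import Crest.Agent.X212.Wz78.Alg

/-! The unit volume form in a spanning frame: orthonormal frame, contraction identities, Hodge
star on two-forms, and the quaternion identity for self-dual forms. -/

set_option autoImplicit false
open Finset

noncomputable section
namespace Crest.Agent.X212.Map77
open Wz78

/-- cofactors of three vectors of `ℝ⁴` -/
def cof (x y z : Fin 4 → ℝ) : Fin 4 → ℝ :=
  ![-(x 1 * y 2 * z 3 - x 1 * y 3 * z 2 - x 2 * y 1 * z 3 + x 2 * y 3 * z 1 + x 3 * y 1 * z 2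
      - x 3 * y 2 * z 1),
    x 0 * y 2 * z 3 - x 0 * y 3 * z 2 - x 2 * y 0 * z 3 + x 2 * y 3 * z 0 + x 3 * y 0 * z 2
      - x 3 * y 2 * z 0,
    -(x 0 * y 1 * z 3 - x 0 * y 3 * z 1 - x 1 * y 0 * z 3 + x 1 * y 3 * z 0 + x 3 * y 0 * z 1
      - x 3 * y 1 * z 0),
    x 0 * y 1 * z 2 - x 0 * y 2 * z 1 - x 1 * y 0 * z 2 + x 1 * y 2 * z 0 + x 2 * y 0 * z 1
      - x 2 * y 1 * z 0]

/-- the `3 × 3` determinant of a pairing -/
def det3 {α : Type*} (g : α → α → ℝ) (x y z x' y' z' : α) : ℝ :=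
  g x x' * g y y' * g z z' - g x x' * g y z' * g z y' - g x y' * g y x' * g z z'
    + g x y' * g y z' * g z x' + g x z' * g y x' * g z y' - g x z' * g y y' * g z x'

theorem cof_dot (x y z x' y' z' : Fin 4 → ℝ) :
    ∑ l, cof x y z l * cof x' y' z' l = det3 (fun u v => ∑ i, u i * v i) x y z x' y' z' := by
  simp only [cof, det3, Fin.sum_univ_four, Matrix.cons_val_zero, Matrix.cons_val_one,
    Matrix.cons_val]
  ring

theorem alt_expand (f : Fin 4 → Fin 4 → Fin 4 → Fin 4 → ℝ)
    (h1 : ∀ a b c d, f a b c d = -f b a c d) (h2 : ∀ a b c d, f a b c d = -f a c b d)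
    (h3 : ∀ a b c d, f a b c d = -f a b d c) (x y z w : Fin 4 → ℝ) :
    ∑ i, ∑ j, ∑ k, ∑ l, x i * y j * z k * w l * f i j k l
      = f 0 1 2 3 * ∑ l, cof x y z l * w l := by
  have z01 : ∀ i k l, f i i k l = 0 := fun i k l => by linarith [h1 i i k l]
  have z12 : ∀ i k l, f k i i l = 0 := fun i k l => by linarith [h2 k i i l]
  have z23 : ∀ i k l, f k l i i = 0 := fun i k l => by linarith [h3 k l i i]
  have z02 : ∀ i k l, f i k i l = 0 := fun i k l => by rw [h2, z01, neg_zero]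
  have z13 : ∀ i k l, f k i l i = 0 := fun i k l => by rw [h3, z12, neg_zero]
  have z03 : ∀ i k l, f i k l i = 0 := fun i k l => by rw [h3, z02, neg_zero]
  have p1023 : f 1 0 2 3 = -f 0 1 2 3 := h1 _ _ _ _
  have p0213 : f 0 2 1 3 = -f 0 1 2 3 := h2 _ _ _ _
  have p0132 : f 0 1 3 2 = -f 0 1 2 3 := h3 _ _ _ _
  have p1203 : f 1 2 0 3 = f 0 1 2 3 := by rw [h2, p1023, neg_neg]
  have p1032 : f 1 0 3 2 = f 0 1 2 3 := by rw [h3, p1023, neg_neg]
  have p2013 : f 2 0 1 3 = f 0 1 2 3 := by rw [h1, p0213, neg_neg]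
  have p0231 : f 0 2 3 1 = f 0 1 2 3 := by rw [h3, p0213, neg_neg]
  have p0312 : f 0 3 1 2 = f 0 1 2 3 := by rw [h2, p0132, neg_neg]
  have p2103 : f 2 1 0 3 = -f 0 1 2 3 := by rw [h1, p1203]
  have p1230 : f 1 2 3 0 = -f 0 1 2 3 := by rw [h3, p1203]
  have p1302 : f 1 3 0 2 = -f 0 1 2 3 := by rw [h2, p1032]
  have p2031 : f 2 0 3 1 = -f 0 1 2 3 := by rw [h3, p2013]
  have p0321 : f 0 3 2 1 = -f 0 1 2 3 := by rw [h2, p0231]
  have p3012 : f 3 0 1 2 = -f 0 1 2 3 := by rw [h1, p0312]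
  have p2130 : f 2 1 3 0 = f 0 1 2 3 := by rw [h3, p2103, neg_neg]
  have p1320 : f 1 3 2 0 = f 0 1 2 3 := by rw [h2, p1230, neg_neg]
  have p3102 : f 3 1 0 2 = f 0 1 2 3 := by rw [h1, p1302, neg_neg]
  have p2301 : f 2 3 0 1 = f 0 1 2 3 := by rw [h2, p2031, neg_neg]
  have p3021 : f 3 0 2 1 = f 0 1 2 3 := by rw [h1, p0321, neg_neg]
  have p2310 : f 2 3 1 0 = -f 0 1 2 3 := by rw [h2, p2130]
  have p3120 : f 3 1 2 0 = -f 0 1 2 3 := by rw [h1, p1320]
  have p3201 : f 3 2 0 1 = -f 0 1 2 3 := by rw [h1, p2301]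
  have p3210 : f 3 2 1 0 = f 0 1 2 3 := by rw [h1, p2310, neg_neg]
  simp only [Fin.sum_univ_four, z01, z12, z23, z02, z13, z03, cof, Matrix.cons_val_zero,
    Matrix.cons_val_one, Matrix.cons_val,
    p1023, p0213, p0132, p1203, p1032, p2013, p0231, p0312, p2103, p1230, p1302, p2031, p0321, p3012, p2130, p1320, p3102, p2301, p3021, p2310, p3120, p3201, p3210]
  ring

variable {ι : Type*} [Fintype ι]

/-- an orthonormal frame of the range of `P` -/
structure ON (P : ι → ι → ℝ) (u : ι → Fin 4 → ℝ) : Prop where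
  on : ∀ i j, ∑ a, u a i * u a j = if i = j then 1 else 0
  pr : ∀ a b, P a b = ∑ i, u a i * u b i

theorem exists_on {P : ι → ι → ℝ} (h : Pr P) (ht : ∑ a, P a a = 4) : ∃ u, ON P u := by
  classical
  let A : Matrix ι ι ℝ := Matrix.of P
  let L : EuclideanSpace ℝ ι →ₗ[ℝ] EuclideanSpace ℝ ι := Matrix.toEuclideanLin A
  have hL : ∀ v a, L v a = ∑ b, P a b * v b := fun v a => rfl
  have hLL : ∀ v, L (L v) = L v := fun v => by
    ext a
    simp only [hL, mul_sum, ← mul_assoc]
    rw [sum_comm]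
    exact sum_congr rfl fun b _ => by rw [← sum_mul, h.idem]
  have hp : LinearMap.IsProj (LinearMap.range L) L :=
    ⟨fun v => ⟨v, rfl⟩, by rintro _ ⟨v, rfl⟩; exact hLL v⟩
  have htr : LinearMap.trace ℝ _ L = 4 := by
    rw [LinearMap.trace_eq_matrix_trace ℝ (EuclideanSpace.basisFun ι ℝ).toBasis, ← ht]
    refine sum_congr rfl fun a _ => ?_
    simp [LinearMap.toMatrix_apply, hL, Matrix.diag]
  have hr : Module.finrank ℝ (LinearMap.range L) = 4 := by
    have := hp.trace
    rw [htr] at this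
    exact_mod_cast this.symm
  let b : OrthonormalBasis (Fin 4) ℝ (LinearMap.range L) :=
    (stdOrthonormalBasis ℝ (LinearMap.range L)).reindex (finCongr hr)
  refine ⟨fun a i => (b i : EuclideanSpace ℝ ι) a, fun i j => ?_, fun a c => ?_⟩
  · have := orthonormal_iff_ite.1 b.orthonormal i j
    rw [← this, Submodule.coe_inner, PiLp.inner_apply]
    exact sum_congr rfl fun a _ => by simp [mul_comm]
  · let v : LinearMap.range L := ⟨L (EuclideanSpace.single c 1), _, rfl⟩
    have h1 := congrArg (fun w : LinearMap.range L => (w : EuclideanSpace ℝ ι) a) (b.sum_repr' v)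
    have h2 : (v : EuclideanSpace ℝ ι) a = P a c := by simp [v, hL]
    have h3 : ∀ i, inner ℝ (b i) v = (b i : EuclideanSpace ℝ ι) c := fun i => by
      obtain ⟨w, hw⟩ := (b i).2
      have h4 : L (b i) = b i := by rw [← hw, hLL]
      rw [Submodule.coe_inner, PiLp.inner_apply, ← h4, hL, h4]
      refine sum_congr rfl fun k _ => ?_
      simp [v, hL, h.symm c k]
    simp only [h2, h3] at h1
    rw [← h1]
    simp [mul_comm]

theorem comm41 {κ : Type*} [Fintype κ] (g : ι → ι → ι → ι → κ → ℝ) :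
    ∑ a, ∑ b, ∑ c, ∑ d, ∑ i, g a b c d i = ∑ i, ∑ a, ∑ b, ∑ c, ∑ d, g a b c d i := by
  symm
  rw [sum_comm]
  refine sum_congr rfl fun a _ => ?_
  rw [sum_comm]
  refine sum_congr rfl fun b _ => ?_
  rw [sum_comm]
  exact sum_congr rfl fun c _ => sum_comm

/-- the components of a unit volume form on the range of `P` -/
structure Vol (P : ι → ι → ℝ) (o : ι → ι → ι → ι → ℝ) : Prop where
  pr : Pr P
  tr : ∑ a, P a a = 4
  a1 : ∀ a b c d, o a b c d = -o b a c d
  a2 : ∀ a b c d, o a b c d = -o a c b d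
  a3 : ∀ a b c d, o a b c d = -o a b d c
  po : ∀ a b c d, ∑ k, P a k * o k b c d = o a b c d
  nm : ∑ a, ∑ b, ∑ c, ∑ d, o a b c d ^ 2 = 24

variable {P : ι → ι → ℝ} {o : ι → ι → ι → ι → ℝ}

namespace Vol
variable (h : Vol P o)
include h

theorem po2 (a b c d : ι) : ∑ k, P b k * o a k c d = o a b c d := by
  rw [h.a1 a b, ← h.po b a c d, ← sum_neg_distrib]
  exact sum_congr rfl fun k _ => by rw [h.a1 a k]; ring

theorem po3 (a b c d : ι) : ∑ k, P c k * o a b k d = o a b c d := by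
  rw [h.a2 a b, ← h.po2 a c b d, ← sum_neg_distrib]
  exact sum_congr rfl fun k _ => by rw [h.a2 a b k]; ring

theorem po4 (a b c d : ι) : ∑ k, P d k * o a b c k = o a b c d := by
  rw [h.a3 a b, ← h.po3 a b d c, ← sum_neg_distrib]
  exact sum_congr rfl fun k _ => by rw [h.a3 a b c k]; ring

theorem swap (a b c d : ι) : o a b c d = o c d a b := by
  rw [h.a2, h.a1, h.a3 c a b d, h.a2 c a d b]; ring

/-- the volume form in an orthonormal frame -/
theorem frame {u : ι → Fin 4 → ℝ} (hu : ON P u) : ∃ s : ℝ, ∀ a b c d,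
    o a b c d = s * ∑ l, cof (u a) (u b) (u c) l * u d l := by
  let f : Fin 4 → Fin 4 → Fin 4 → Fin 4 → ℝ := fun i j k l =>
    ∑ a, ∑ b, ∑ c, ∑ d, u a i * u b j * u c k * u d l * o a b c d
  have h1 : ∀ i j k l, f i j k l = -f j i k l := fun i j k l => by
    simp only [f, ← sum_neg_distrib]
    rw [sum_comm]
    refine sum_congr rfl fun a _ => sum_congr rfl fun b _ => sum_congr rfl fun c _ =>
      sum_congr rfl fun d _ => ?_
    rw [h.a1 b a]; ring
  have h2 : ∀ i j k l, f i j k l = -f i k j l := fun i j k l => by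
    simp only [f, ← sum_neg_distrib]
    refine sum_congr rfl fun a _ => ?_
    rw [sum_comm]
    refine sum_congr rfl fun b _ => sum_congr rfl fun c _ => sum_congr rfl fun d _ => ?_
    rw [h.a2 a c b]; ring
  have h3 : ∀ i j k l, f i j k l = -f i j l k := fun i j k l => by
    simp only [f, ← sum_neg_distrib]
    refine sum_congr rfl fun a _ => sum_congr rfl fun b _ => ?_
    rw [sum_comm]
    refine sum_congr rfl fun c _ => sum_congr rfl fun d _ => ?_
    rw [h.a3 a b d c]; ring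
  refine ⟨f 0 1 2 3, fun a b c d => ?_⟩
  rw [← alt_expand f h1 h2 h3]
  have e : o a b c d = ∑ a', ∑ b', ∑ c', ∑ d',
      P a a' * P b b' * P c c' * P d d' * o a' b' c' d' := by
    rw [← h.po a b c d]
    refine sum_congr rfl fun a' _ => ?_
    rw [← h.po2 a' b c d, mul_sum]
    refine sum_congr rfl fun b' _ => ?_
    rw [← h.po3 a' b' c d, mul_sum, mul_sum]
    refine sum_congr rfl fun c' _ => ?_
    rw [← h.po4 a' b' c' d, mul_sum, mul_sum, mul_sum]
    exact sum_congr rfl fun d' _ => by ring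
  rw [e]
  have e2 : ∀ a' b' c' d', P a a' * P b b' * P c c' * P d d' * o a' b' c' d' = ∑ i, ∑ j, ∑ k, ∑ l,
      u a i * u b j * u c k * u d l * (u a' i * u b' j * u c' k * u d' l * o a' b' c' d') := by
    intro a' b' c' d'
    simp only [hu.pr, Fin.sum_univ_four]
    ring
  simp only [e2, f, mul_sum]
  rw [comm41]
  refine sum_congr rfl fun i _ => ?_
  rw [comm41]
  refine sum_congr rfl fun j _ => ?_
  rw [comm41]
  refine sum_congr rfl fun k _ => ?_
  rw [comm41]

theorem sum_det (a b e f : ι) :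
    ∑ c, det3 P a b c e f c = 2 * (P a e * P b f - P a f * P b e) := by
  have h1 : ∀ x y, ∑ c, P x c * P c y = P x y := h.pr.idem
  simp only [det3, sum_add_distrib, sum_sub_distrib]
  have e1 : ∑ c, P a e * P b f * P c c = P a e * P b f * 4 := by rw [← mul_sum, h.tr]
  have e2 : ∑ c, P a e * P b c * P c f = P a e * P b f := by
    simp only [mul_assoc, ← mul_sum, h1]
  have e3 : ∑ c, P a f * P b e * P c c = P a f * P b e * 4 := by rw [← mul_sum, h.tr]
  have e4 : ∑ c, P a f * P b c * P c e = P a f * P b e := by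
    simp only [mul_assoc, ← mul_sum, h1]
  have e5 : ∑ c, P a c * P b e * P c f = P a f * P b e := by
    rw [← h1 a f, sum_mul]; exact sum_congr rfl fun c _ => by ring
  have e6 : ∑ c, P a c * P b f * P c e = P a e * P b f := by
    rw [← h1 a e, sum_mul]; exact sum_congr rfl fun c _ => by ring
  rw [e1, e2, e3, e4, e5, e6]; ring

/-- the contraction over one index -/
theorem i3 (a b c e f g : ι) : ∑ d, o a b c d * o e f g d = det3 P a b c e f g := by
  obtain ⟨u, hu⟩ := exists_on h.pr h.tr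
  obtain ⟨s, hs⟩ := h.frame hu
  have k : ∀ a b c e f g, ∑ d, o a b c d * o e f g d = s ^ 2 * det3 P a b c e f g := by
    intro a b c e f g
    have e1 : det3 P a b c e f g = ∑ l, cof (u a) (u b) (u c) l * cof (u e) (u f) (u g) l := by
      rw [cof_dot]; simp only [det3, hu.pr]
    have e2 : ∑ l, cof (u a) (u b) (u c) l * cof (u e) (u f) (u g) l = ∑ l, ∑ m,
        cof (u a) (u b) (u c) l * cof (u e) (u f) (u g) m * ∑ d, u d l * u d m := by
      simp only [hu.on, mul_ite, mul_one, mul_zero, sum_ite_eq, mem_univ, if_true]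
    rw [e1, e2]
    simp only [hs, Fin.sum_univ_four, mul_sum, ← sum_add_distrib, mul_add]
    exact sum_congr rfl fun d _ => by ring
  have hs2 : s ^ 2 = 1 := by
    have h1 := h.nm
    simp only [sq (o _ _ _ _), k, ← mul_sum, h.sum_det, sum_sub_distrib, h.tr,
      h.pr.idem, ← sum_mul] at h1
    linarith
  rw [k, hs2, one_mul]

/-- the contraction over two indices -/
theorem i2 (a b e f : ι) :
    ∑ c, ∑ d, o a b c d * o e f c d = 2 * (P a e * P b f - P a f * P b e) := by
  simp only [h.i3, h.sum_det]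

end Vol

end Crest.Agent.X212.Map77
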